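import Vale.Agent.P226.Defs

/-! One-dimensional Gaussian calculus. -/

namespace Vale.Agent.P226

open MeasureTheory ProbabilityTheory Set Filter Topology

lemma MM_gt : 0.358098 < MM := by
  unfold MM
  have h1 := Real.pi_lt_d6
  have h2 := Real.pi_pos
  rw [lt_div_iff₀ (by positivity)]
  linarith
lemma MM_lt : MM < 0.3581 := by
  unfold MM
  have h1 := Real.pi_gt_d6
  have h2 := Real.pi_pos
  rw [div_lt_iff₀ (by positivity)]
  linarith
lemma phi_pos (x : ℝ) : 0 < phi x := by
  unfold phi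
  have := Real.pi_pos
  positivity
lemma phi_neg (x : ℝ) : phi (-x) = phi x := by simp [phi]
lemma phi_zero_sq : phi 0 ^ 2 = 1 / (2 * Real.pi) := by
  have := Real.pi_pos
  simp only [phi, div_pow]
  rw [Real.sq_sqrt (by positivity)]
  simp
lemma phi_le_phi_zero (x : ℝ) : phi x ≤ phi 0 := by
  unfold phi
  refine div_le_div_of_nonneg_right (Real.exp_le_exp.2 ?_) (Real.sqrt_nonneg _)
  nlinarith [sq_nonneg x]
lemma gaussianPDFReal_eq_phi (x : ℝ) : gaussianPDFReal 0 1 x = phi x := by
  simp only [gaussianPDFReal, phi, NNReal.coe_one, mul_one, sub_zero]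
  rw [div_eq_inv_mul (Real.exp _)]
lemma hasDerivAt_phi (x : ℝ) : HasDerivAt phi (-x * phi x) x := by
  have h1 : HasDerivAt (fun x : ℝ => -x ^ 2 / 2) (-x) x := by
    have := ((hasDerivAt_pow 2 x).neg).div_const 2
    exact this.congr_deriv (by simp; ring)
  have h2 := h1.exp.div_const (√(2 * Real.pi))
  exact h2.congr_deriv (by unfold phi; ring)
lemma continuous_phi : Continuous phi :=
  continuous_iff_continuousAt.2 fun x => (hasDerivAt_phi x).continuousAt
lemma tendsto_phi_atTop : Tendsto phi atTop (𝓝 0) := by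
  have h1 : Tendsto (fun x : ℝ => -x ^ 2 / 2) atTop atBot :=
    (tendsto_neg_atTop_atBot.comp (tendsto_pow_atTop two_ne_zero)).atBot_div_const two_pos
  have h2 := (Real.tendsto_exp_atBot.comp h1).div_const (√(2 * Real.pi))
  rw [zero_div] at h2
  exact h2

lemma integrable_phi : Integrable phi := by
  have := integrable_gaussianPDFReal 0 1
  rwa [show gaussianPDFReal 0 1 = phi from funext gaussianPDFReal_eq_phi] at this

lemma real_eq_integral (s : Set ℝ) : (gaussianReal 0 1).real s = ∫ x in s, phi x := by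
  rw [measureReal_def, gaussianReal_apply_eq_integral _ one_ne_zero, ENNReal.toReal_ofReal]
  · simp only [gaussianPDFReal_eq_phi]
  · exact integral_nonneg fun x => gaussianPDFReal_nonneg _ _ _

lemma integral_gauss (f : ℝ → ℝ) : ∫ x, f x ∂(gaussianReal 0 1) = ∫ x, phi x * f x := by
  rw [integral_gaussianReal_eq_integral_smul one_ne_zero]
  simp only [gaussianPDFReal_eq_phi, smul_eq_mul]

lemma integrable_gauss_iff (f : ℝ → ℝ) :
    Integrable f (gaussianReal 0 1) ↔ Integrable (fun x => phi x * f x) := by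
  rw [gaussianReal_of_var_ne_zero _ one_ne_zero, integrable_withDensity_iff_integrable_smul'
    (measurable_gaussianPDF _ _) (ae_of_all _ fun _ => gaussianPDF_lt_top)]
  simp only [toReal_gaussianPDF, gaussianPDFReal_eq_phi, smul_eq_mul]

lemma Q_eq_integral (x : ℝ) : Q x = ∫ t in Ioi x, phi t := real_eq_integral _

lemma hasDerivAt_Q (x : ℝ) : HasDerivAt Q (-phi x) x := by
  have h1 : Q = fun x => Q 0 - ∫ t in (0 : ℝ)..x, phi t := by
    funext y
    rw [← intervalIntegral.integral_Ioi_sub_Ioi' integrable_phi.integrableOn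
      integrable_phi.integrableOn, Q_eq_integral, Q_eq_integral]
    ring
  rw [h1]
  exact ((continuous_phi.integral_hasStrictDerivAt 0 x).hasDerivAt).const_sub _
lemma continuous_Q : Continuous Q :=
  continuous_iff_continuousAt.2 fun x => (hasDerivAt_Q x).continuousAt

instance gauss_nullSingleton : NullSingletonClass (gaussianReal 0 1) :=
  nullSingletonClass_gaussianReal one_ne_zero

lemma real_Ici' (a : ℝ) : (gaussianReal 0 1).real (Ici a) = Q a :=
  (measureReal_congr Ioi_ae_eq_Ici).symm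

lemma real_Iio' (b : ℝ) : (gaussianReal 0 1).real (Iio b) = Q (-b) := by
  have h := gaussianReal_map_neg (μ := 0) (v := 1)
  rw [neg_zero] at h
  unfold Q
  conv_rhs => rw [← h]
  rw [map_measureReal_apply (by fun_prop) measurableSet_Ioi]
  congr 1
  ext x; simp

lemma Q_neg (x : ℝ) : Q (-x) = 1 - Q x := by
  rw [← real_Iio', ← real_Ici', ← compl_Ici, probReal_compl_eq_one_sub measurableSet_Ici]
lemma Q_zero : Q 0 = 1 / 2 := by
  have := Q_neg 0
  rw [neg_zero] at this
  linarith
lemma strictAnti_Q : StrictAnti Q :=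
  strictAnti_of_hasDerivAt_neg hasDerivAt_Q fun x => neg_neg_of_pos (phi_pos x)
lemma Q_pos (x : ℝ) : 0 < Q x :=
  lt_of_le_of_lt measureReal_nonneg (strictAnti_Q (lt_add_one x))
lemma Q_lt_one (x : ℝ) : Q x < 1 := by
  have := Q_pos (-x)
  rw [Q_neg] at this
  linarith
lemma tendsto_Q_atTop : Tendsto Q atTop (𝓝 0) := by
  have h1 : Q = fun x => 1 - cdf (gaussianReal 0 1) x := by
    funext x
    rw [cdf_eq_real, ← probReal_compl_eq_one_sub measurableSet_Iic, compl_Iic]
    rfl
  rw [h1]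
  simpa using (tendsto_cdf_atTop (gaussianReal 0 1)).const_sub 1
lemma tendsto_Q_atBot : Tendsto Q atBot (𝓝 1) := by
  have h1 : Q = fun x => 1 - Q (-x) := by
    funext x; rw [Q_neg]; ring
  rw [h1]
  simpa using (tendsto_Q_atTop.comp tendsto_neg_atBot_atTop).const_sub 1
lemma exists_Q_eq {p : ℝ} (h0 : 0 < p) (h1 : p < 1) : ∃ v, Q v = p := by
  obtain ⟨a, ha⟩ := (tendsto_Q_atTop.eventually (gt_mem_nhds h0)).exists
  obtain ⟨b, hb⟩ := (tendsto_Q_atBot.eventually (lt_mem_nhds h1)).exists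
  exact intermediate_value_univ a b continuous_Q ⟨ha.le, hb.le⟩
lemma real_Ioi (a : ℝ) : (gaussianReal 0 1).real (Ioi a) = Q a := rfl
lemma real_Ici (a : ℝ) : (gaussianReal 0 1).real (Ici a) = Q a := real_Ici' a
lemma real_Iio (b : ℝ) : (gaussianReal 0 1).real (Iio b) = Q (-b) := real_Iio' b
lemma real_Ioo {a b : ℝ} (h : a ≤ b) : (gaussianReal 0 1).real (Ioo a b) = Q a - Q b := by
  rw [measureReal_congr (Ioo_ae_eq_Ioc (a := a) (b := b)), ← Ioi_sdiff_Ioi,
    measureReal_sdiff (Ioi_subset_Ioi h) measurableSet_Ioi]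
  rfl
lemma real_Icc {a b : ℝ} (h : a ≤ b) : (gaussianReal 0 1).real (Icc a b) = Q a - Q b := by
  rw [← real_Ioo h, measureReal_congr (Ioo_ae_eq_Icc (a := a) (b := b))]
lemma hasDerivAt_ell (x : ℝ) : HasDerivAt ell (-Q x) x := by
  have := (hasDerivAt_phi x).sub ((hasDerivAt_id x).mul (hasDerivAt_Q x))
  exact this.congr_deriv (by simp)

lemma integral_Ioi_mul_phi (v : ℝ) (hv : 0 ≤ v) :
    IntegrableOn (fun t => t * phi t) (Ioi v) ∧ ∫ t in Ioi v, t * phi t = phi v := by
  have hd : ∀ x ∈ Ici v, HasDerivAt (fun t => -phi t) (x * phi x) x := fun x _ =>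
    (hasDerivAt_phi x).neg.congr_deriv (by ring)
  have hp : ∀ x ∈ Ioi v, 0 ≤ x * phi x := fun x hx =>
    mul_nonneg (hv.trans (le_of_lt hx)) (phi_pos x).le
  have ht : Tendsto (fun t => -phi t) atTop (𝓝 0) := by simpa using tendsto_phi_atTop.neg
  refine ⟨integrableOn_Ioi_deriv_of_nonneg' hd hp ht, ?_⟩
  rw [integral_Ioi_of_hasDerivAt_of_nonneg' hd hp ht]; ring

lemma mul_Q_le_phi {v : ℝ} (hv : 0 ≤ v) : v * Q v ≤ phi v := by
  obtain ⟨h1, h2⟩ := integral_Ioi_mul_phi v hv
  rw [← h2, Q_eq_integral, ← integral_const_mul]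
  refine setIntegral_mono_on (integrable_phi.const_mul v).integrableOn h1 measurableSet_Ioi ?_
  intro x hx
  exact mul_le_mul_of_nonneg_right (le_of_lt hx) (phi_pos x).le

lemma tendsto_mul_Q_atTop : Tendsto (fun v => v * Q v) atTop (𝓝 0) := by
  refine tendsto_of_tendsto_of_tendsto_of_le_of_le' tendsto_const_nhds tendsto_phi_atTop ?_ ?_
  · filter_upwards [eventually_ge_atTop 0] with v hv using mul_nonneg hv (Q_pos v).le
  · filter_upwards [eventually_ge_atTop 0] with v hv using mul_Q_le_phi hv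

lemma tendsto_ell_atTop : Tendsto ell atTop (𝓝 0) := by
  have := tendsto_phi_atTop.sub tendsto_mul_Q_atTop
  rw [sub_zero] at this
  exact this
lemma strictAnti_ell : StrictAnti ell :=
  strictAnti_of_hasDerivAt_neg hasDerivAt_ell fun x => neg_neg_of_pos (Q_pos x)
lemma ell_pos (x : ℝ) : 0 < ell x :=
  lt_of_le_of_lt (strictAnti_ell.antitone.le_of_tendsto tendsto_ell_atTop _)
    (strictAnti_ell (lt_add_one x))

lemma Q_affine_aux (v : ℝ) {b : ℝ} (hb : 0 < b) :
    (∀ x ∈ Ici (0 : ℝ), HasDerivAt (fun t => -ell (v + b * t) / b) (Q (v + b * x)) x) ∧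
      Tendsto (fun t => -ell (v + b * t) / b) atTop (𝓝 0) := by
  constructor
  · intro x _
    have h1 : HasDerivAt (fun t => v + b * t) b x := by
      simpa using ((hasDerivAt_id x).const_mul b).const_add v
    have h2 := (((hasDerivAt_ell (v + b * x)).comp x h1).neg).div_const b
    exact h2.congr_deriv (by field_simp)
  · have h1 : Tendsto (fun t => v + b * t) atTop atTop :=
      tendsto_atTop_add_const_left _ _ (tendsto_id.const_mul_atTop hb)
    simpa using ((tendsto_ell_atTop.comp h1).neg).div_const b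

lemma integrableOn_Q_affine (v : ℝ) {b : ℝ} (hb : 0 < b) :
    IntegrableOn (fun t => Q (v + b * t)) (Ioi 0) :=
  integrableOn_Ioi_deriv_of_nonneg' (Q_affine_aux v hb).1 (fun _ _ => (Q_pos _).le)
    (Q_affine_aux v hb).2
lemma integral_Q_affine (v : ℝ) {b : ℝ} (hb : 0 < b) :
    ∫ t in Ioi (0 : ℝ), Q (v + b * t) = ell v / b := by
  rw [integral_Ioi_of_hasDerivAt_of_nonneg' (Q_affine_aux v hb).1 (fun _ _ => (Q_pos _).le)
    (Q_affine_aux v hb).2]
  simp only [mul_zero, add_zero]; ring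
lemma integral_posPart_sub (v : ℝ) : ∫ x, max (x - v) 0 ∂(gaussianReal 0 1) = ell v := by
  rw [integral_gauss]
  have h1 : ∫ x, phi x * max (x - v) 0 = ∫ x in Ioi v, (x - v) * phi x := by
    rw [← integral_indicator measurableSet_Ioi]
    congr 1
    funext x
    by_cases hx : v < x
    · rw [indicator_of_mem (show x ∈ Ioi v from hx), max_eq_left (by linarith)]; ring
    · rw [indicator_of_notMem (show x ∉ Ioi v from hx), max_eq_right (by linarith [not_lt.1 hx])]
      ring
  have hd : ∀ x ∈ Ici v, HasDerivAt (fun t => -phi t + v * Q t) ((x - v) * phi x) x :=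
    fun x _ => ((hasDerivAt_phi x).neg.add ((hasDerivAt_Q x).const_mul v)).congr_deriv (by ring)
  have hp : ∀ x ∈ Ioi v, 0 ≤ (x - v) * phi x := fun x hx =>
    mul_nonneg (sub_nonneg.2 (le_of_lt hx)) (phi_pos x).le
  have ht : Tendsto (fun t => -phi t + v * Q t) atTop (𝓝 0) := by
    simpa using tendsto_phi_atTop.neg.add (tendsto_Q_atTop.const_mul v)
  rw [h1, integral_Ioi_of_hasDerivAt_of_nonneg' hd hp ht]
  unfold ell; ring

lemma integrable_pow_gauss (n : ℕ) : Integrable (fun x : ℝ => x ^ n) (gaussianReal 0 1) :=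
  integrable_pow_of_mem_interior_integrableExpSet (X := id) (by simp) n

lemma integrable_id_gauss : Integrable (fun x : ℝ => x) (gaussianReal 0 1) := by
  simpa using integrable_pow_gauss 1

lemma integral_abs_gauss : ∫ x, |x| ∂(gaussianReal 0 1) = 2 * phi 0 := by
  have h := gaussianReal_map_neg (μ := 0) (v := 1)
  rw [neg_zero] at h
  have h1 := integral_posPart_sub 0
  have h2 : ∫ x, max (-x - 0) 0 ∂(gaussianReal 0 1) = ell 0 := by
    rw [← h1]
    conv_rhs => rw [← h]
    rw [integral_map (by fun_prop) (by fun_prop)]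
  have i1 : Integrable (fun x : ℝ => max (x - 0) 0) (gaussianReal 0 1) :=
    (integrable_id_gauss.sub (integrable_const 0)).pos_part
  have i2 : Integrable (fun x : ℝ => max (-x - 0) 0) (gaussianReal 0 1) :=
    (integrable_id_gauss.neg.sub (integrable_const 0)).pos_part
  have h3 : (fun x : ℝ => |x|) = fun x => max (x - 0) 0 + max (-x - 0) 0 := by
    funext x
    rcases le_total 0 x with hx | hx
    · rw [abs_of_nonneg hx, max_eq_left (by linarith), max_eq_right (by linarith)]; ring
    · rw [abs_of_nonpos hx, max_eq_right (by linarith), max_eq_left (by linarith)]; ring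
  rw [h3, integral_add i1 i2, h1, h2]
  unfold ell; ring

lemma moment_rec (n : ℕ) : ∫ x, x ^ (n + 2) ∂(gaussianReal 0 1) =
    (n + 1) * ∫ x, x ^ n ∂(gaussianReal 0 1) := by
  have i : ∀ k : ℕ, Integrable (fun x => phi x * x ^ k) := fun k =>
    (integrable_gauss_iff _).1 (integrable_pow_gauss k)
  have hd : ∀ x, HasDerivAt (fun x => phi x * x ^ (n + 1))
      ((n + 1) * (phi x * x ^ n) - phi x * x ^ (n + 2)) x := fun x =>
    ((hasDerivAt_phi x).mul (hasDerivAt_pow (n + 1) x)).congr_deriv (by simp; ring)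
  have h := integral_eq_zero_of_hasDerivAt_of_integrable hd
    (((i n).const_mul _).sub' (i (n + 2))) (i (n + 1))
  rw [integral_sub ((i n).const_mul _) (i (n + 2)), integral_const_mul] at h
  rw [integral_gauss, integral_gauss]
  linarith

lemma moment_one : ∫ x, x ^ 1 ∂(gaussianReal 0 1) = 0 := by simp [integral_id_gaussianReal]
lemma moment_two : ∫ x, x ^ 2 ∂(gaussianReal 0 1) = 1 := by
  have := moment_rec 0
  simpa using this
lemma moment_three : ∫ x, x ^ 3 ∂(gaussianReal 0 1) = 0 := by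
  have := moment_rec 1
  rw [moment_one] at this
  simpa using this
lemma moment_four : ∫ x, x ^ 4 ∂(gaussianReal 0 1) = 3 := by
  have := moment_rec 2
  rw [moment_two] at this
  rw [this]; norm_num

lemma integrable_poly4 (a0 a1 a2 a3 a4 : ℝ) :
    Integrable (fun x : ℝ => a0 + a1 * x ^ 1 + a2 * x ^ 2 + a3 * x ^ 3 + a4 * x ^ 4)
      (gaussianReal 0 1) :=
  ((((integrable_const a0).add ((integrable_pow_gauss 1).const_mul a1)).add
    ((integrable_pow_gauss 2).const_mul a2)).add ((integrable_pow_gauss 3).const_mul a3)).add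
    ((integrable_pow_gauss 4).const_mul a4)

lemma integral_poly4 (a0 a1 a2 a3 a4 : ℝ) :
    ∫ x, (a0 + a1 * x ^ 1 + a2 * x ^ 2 + a3 * x ^ 3 + a4 * x ^ 4) ∂(gaussianReal 0 1)
      = a0 + a2 + 3 * a4 := by
  have i0 := integrable_const (μ := gaussianReal 0 1) a0
  have i1 := (integrable_pow_gauss 1).const_mul a1
  have i2 := (integrable_pow_gauss 2).const_mul a2
  have i3 := (integrable_pow_gauss 3).const_mul a3
  have i4 := (integrable_pow_gauss 4).const_mul a4
  rw [integral_add (((i0.fun_add i1).fun_add i2).fun_add i3) i4,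
    integral_add ((i0.fun_add i1).fun_add i2) i3, integral_add (i0.fun_add i1) i2,
    integral_add i0 i1]
  simp only [integral_const_mul, moment_one, moment_two, moment_three, moment_four]
  simp; ring

lemma posPart_cube_le {a : ℝ} (ha : 0 < a) (y : ℝ) :
    (max y 0) ^ 3 ≤ y ^ 3 + 27 / 256 * (y - a) ^ 4 / a := by
  rcases le_total 0 y with hy | hy
  · rw [max_eq_left hy]
    have : 0 ≤ 27 / 256 * (y - a) ^ 4 / a := by positivity
    linarith
  · rw [max_eq_right hy]
    have h1 : 0 ≤ (y + 3 * a) ^ 2 * (27 * y ^ 2 + 14 * (-y) * a + 3 * a ^ 2) := by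
      have : 0 ≤ -y := by linarith
      positivity
    have h2 : -(y ^ 3) ≤ 27 / 256 * (y - a) ^ 4 / a := by
      rw [le_div_iff₀ ha]; nlinarith
    linarith

lemma integrable_posPart_cube (a c : ℝ) :
    Integrable (fun x => (max (a + c * x) 0) ^ 3) (gaussianReal 0 1) := by
  refine Integrable.mono' (integrable_poly4 (a ^ 3 + 27 / 256 * (a - 1) ^ 4)
    (3 * a ^ 2 * c + 27 / 256 * (4 * (a - 1) ^ 3 * c)) (3 * a * c ^ 2 + 27 / 256 * (6 * (a - 1) ^ 2 * c ^ 2))
    (c ^ 3 + 27 / 256 * (4 * (a - 1) * c ^ 3)) (27 / 256 * c ^ 4)) (by fun_prop) (ae_of_all _ fun x => ?_)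
  rw [Real.norm_of_nonneg (pow_nonneg (le_max_right _ _) _)]
  refine (posPart_cube_le one_pos _).trans (le_of_eq ?_)
  ring
lemma integral_posPart_cube_le {a : ℝ} (ha : 0 < a) (c : ℝ) :
    ∫ x, (max (a + c * x) 0) ^ 3 ∂(gaussianReal 0 1)
      ≤ a ^ 3 + 3 * a * c ^ 2 + 81 / 256 * (c ^ 2) ^ 2 / a := by
  have h := integral_mono (integrable_posPart_cube a c)
    (integrable_poly4 (a ^ 3) (3 * a ^ 2 * c) (3 * a * c ^ 2) (c ^ 3) (27 / 256 * c ^ 4 / a))
    (fun x => (posPart_cube_le ha _).trans (le_of_eq (by ring)))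
  rw [integral_poly4] at h
  refine h.trans (le_of_eq (by ring))

end Vale.Agent.P226
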