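import Vale.Agent.P226.EhrTwo

/-! Ehrhard inequality for open convex sets in any dimension. -/

namespace Vale.Agent.P226

open MeasureTheory ProbabilityTheory Set

theorem convex_symm_pi (n : ℕ) : ∀ (X : Type) [NormedAddCommGroup X] [NormedSpace ℝ X]
    (K : Set (X × (Fin n → ℝ))), IsOpen K → Convex ℝ K →
    Convex ℝ (symm (Measure.pi fun _ : Fin n => gaussianReal 0 1) K) := by
  induction n with
  | zero =>
    intro X _ _ K _ hc
    have key : ∀ q : X × ℝ, q ∈ symm (Measure.pi fun _ : Fin 0 => gaussianReal 0 1) K ↔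
        (q.1, (0 : Fin 0 → ℝ)) ∈ K := by
      intro q
      change Q q.2 < Measure.real _ {y | (q.1, y) ∈ K} ↔ _
      by_cases h : (q.1, (0 : Fin 0 → ℝ)) ∈ K
      · have : {y | (q.1, y) ∈ K} = univ :=
          eq_univ_of_forall fun y => by rw [Subsingleton.elim y 0]; exact h
        rw [this, probReal_univ]
        exact iff_of_true (Q_lt_one _) h
      · have : {y | (q.1, y) ∈ K} = ∅ :=
          eq_empty_of_forall_notMem fun y hy => h (by rw [Subsingleton.elim 0 y]; exact hy)
        rw [this, measureReal_empty]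
        exact iff_of_false (Q_pos _).not_gt h
    intro q hq q' hq' a b ha hb hab
    rw [key] at hq hq' ⊢
    have := hc hq hq' ha hb hab
    simpa using this
  | succ n ih =>
    intro X _ _ K hK hc
    let T : ((X × ℝ) × (Fin n → ℝ)) →ₗ[ℝ] X × (Fin (n + 1) → ℝ) :=
      { toFun := fun q => (q.1.1, Fin.cons q.1.2 q.2)
        map_add' := fun q q' => by
          refine Prod.ext rfl (funext fun i => ?_)
          refine Fin.cases ?_ (fun j => ?_) i <;> simp
        map_smul' := fun c q => by
          refine Prod.ext rfl (funext fun i => ?_)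
          refine Fin.cases ?_ (fun j => ?_) i <;> simp }
    have hT : Continuous T := by
      refine Continuous.prodMk (by fun_prop) (continuous_pi fun i => ?_)
      refine Fin.cases ?_ (fun j => ?_) i
      · simp only [Fin.cons_zero]; fun_prop
      · simp only [Fin.cons_succ]; fun_prop
    have hK' : IsOpen (T ⁻¹' K) := hK.preimage hT
    have hc' : Convex ℝ (T ⁻¹' K) := hc.linear_preimage T
    set μ : Measure (Fin n → ℝ) := Measure.pi fun _ : Fin n => gaussianReal 0 1 with hμ
    have hS := isOpen_symm μ hK'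
    have hSc := ih (X × ℝ) _ hK' hc'
    let A : (X × ℝ × ℝ) →ₗ[ℝ] (X × ℝ) × ℝ := (LinearEquiv.prodAssoc ℝ X ℝ ℝ).symm.toLinearMap
    have hA : Continuous A := by
      change Continuous fun p : X × ℝ × ℝ => ((p.1, p.2.1), p.2.2)
      fun_prop
    have h2 := convex_symm_two (hS.preimage hA) (hSc.linear_preimage A)
    have key : ∀ x : X, (Measure.pi fun _ : Fin (n + 1) => gaussianReal 0 1).real
        {y | (x, y) ∈ K} = ((gaussianReal 0 1).prod (gaussianReal 0 1)).real
          {w | (x, w) ∈ A ⁻¹' symm μ (T ⁻¹' K)} := by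
      intro x
      have m1 : MeasurableSet {y | (x, y) ∈ K} :=
        (hK.preimage (Continuous.prodMk_right x)).measurableSet
      have m2 : MeasurableSet {w | (x, w) ∈ A ⁻¹' symm μ (T ⁻¹' K)} :=
        ((hS.preimage hA).preimage (Continuous.prodMk_right x)).measurableSet
      have hmp := (measurePreserving_piFinSuccAbove
        (fun _ : Fin (n + 1) => gaussianReal 0 1) 0).symm
      rw [measureReal_def, measureReal_def, ← hmp.measure_preimage m1.nullMeasurableSet,
        Measure.prod_apply (hmp.measurable m1), Measure.prod_apply m2]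
      congr 1
      refine lintegral_congr fun t => ?_
      have h3 := real_symm_fiber μ (T ⁻¹' K) (x, t)
      rw [measureReal_def, measureReal_def,
        ENNReal.toReal_eq_toReal_iff' (measure_ne_top _ _) (measure_ne_top _ _)] at h3
      refine Eq.trans ?_ h3.symm
      congr 1
      ext y
      simp [T, MeasurableEquiv.piFinSuccAbove, Fin.insertNthEquiv]
    have : symm (Measure.pi fun _ : Fin (n + 1) => gaussianReal 0 1) K =
        symm ((gaussianReal 0 1).prod (gaussianReal 0 1)) (A ⁻¹' symm μ (T ⁻¹' K)) := by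
      ext q
      change Q q.2 < _ ↔ Q q.2 < _
      rw [key]
    rw [this]
    exact h2

theorem ehrhard {E : Type} [NormedAddCommGroup E] [InnerProductSpace ℝ E] [FiniteDimensional ℝ E]
    [MeasurableSpace E] [BorelSpace E] {K : Set (ℝ × E)} (hK : IsOpen K) (hc : Convex ℝ K) :
    Convex ℝ (symm (stdGaussian E) K) := by
  let T : (ℝ × (Fin (Module.finrank ℝ E) → ℝ)) →ₗ[ℝ] ℝ × E :=
    { toFun := fun q => (q.1, ∑ i, q.2 i • stdOrthonormalBasis ℝ E i)
      map_add' := fun q q' => by simp [add_smul, Finset.sum_add_distrib]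
      map_smul' := fun c q => by simp [Finset.smul_sum, smul_smul] }
  have hT : Continuous T := by
    change Continuous fun q : ℝ × (Fin (Module.finrank ℝ E) → ℝ) =>
      (q.1, ∑ i, q.2 i • stdOrthonormalBasis ℝ E i)
    fun_prop
  have h := convex_symm_pi _ ℝ (T ⁻¹' K) (hK.preimage hT) (hc.linear_preimage T)
  have : symm (stdGaussian E) K =
      symm (Measure.pi fun _ : Fin (Module.finrank ℝ E) => gaussianReal 0 1) (T ⁻¹' K) := by
    ext q
    change Q q.2 < _ ↔ Q q.2 < _
    have m1 : MeasurableSet {y | (q.1, y) ∈ K} :=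
      (hK.preimage (Continuous.prodMk_right q.1)).measurableSet
    rw [stdGaussian, map_measureReal_apply (by fun_prop) m1]
    rfl
  rw [this]
  exact h

end Vale.Agent.P226
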