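import Vale.Agent.P226.Basic

/-! Inequalities between `phi`, `Q`, `J`. -/

namespace Vale.Agent.P226

open Set Filter Topology

/-- partial sum of the series with `1/2 - Q v = phi v * (v + v^3/3 + v^5/15 + ...)` -/
noncomputable def T9 (v : ℝ) : ℝ :=
  v + v ^ 3 / 3 + v ^ 5 / 15 + v ^ 7 / 105 + v ^ 9 / 945 + v ^ 11 / 10395 + v ^ 13 / 135135
    + v ^ 15 / 2027025 + v ^ 17 / 34459425

lemma le_of_deriv_nonneg {f f' : ℝ → ℝ} (hd : ∀ x, HasDerivAt f (f' x) x) {a b : ℝ} (hab : a ≤ b)
    (h : ∀ x ∈ Icc a b, 0 ≤ f' x) : f a ≤ f b := by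
  have hm : MonotoneOn f (Icc a b) :=
    monotoneOn_of_deriv_nonneg (convex_Icc a b)
      (fun x _ => (hd x).continuousAt.continuousWithinAt)
      (fun x _ => (hd x).differentiableAt.differentiableWithinAt)
      (fun x hx => by rw [(hd x).deriv]; exact h x (interior_subset hx))
  exact hm ⟨le_rfl, hab⟩ ⟨hab, le_rfl⟩ hab

lemma le_of_deriv_nonpos {f f' : ℝ → ℝ} (hd : ∀ x, HasDerivAt f (f' x) x) {a b : ℝ} (hab : a ≤ b)
    (h : ∀ x ∈ Icc a b, f' x ≤ 0) : f b ≤ f a := by
  have := le_of_deriv_nonneg (f := fun x => -f x) (f' := fun x => -f' x) (fun x => (hd x).neg) hab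
    (fun x hx => neg_nonneg.2 (h x hx))
  simpa using this

lemma J_pos (v : ℝ) : 0 < J v := mul_pos (phi_pos v) (ell_pos v)
lemma J_le_J_zero {v : ℝ} (hv : 0 ≤ v) : J v ≤ 1 / (2 * Real.pi) := by
  rw [← phi_zero_sq, sq]
  have h1 : ell v ≤ phi 0 := by
    have := strictAnti_ell.antitone hv
    simpa [ell] using this
  exact mul_le_mul (phi_le_phi_zero v) h1 (ell_pos v).le (phi_pos 0).le

lemma hasDerivAt_J (v : ℝ) : HasDerivAt J (-phi v * (v * ell v + Q v)) v :=
  ((hasDerivAt_phi v).mul (hasDerivAt_ell v)).congr_deriv (by ring)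

lemma tendsto_J_atTop : Tendsto J atTop (𝓝 0) := by
  have := tendsto_phi_atTop.mul tendsto_ell_atTop
  rw [mul_zero] at this
  exact this

lemma gordon (v : ℝ) : v * phi v ≤ (1 + v ^ 2) * Q v := by
  have hd : ∀ x, HasDerivAt (fun x => Q x - x * phi x / (1 + x ^ 2))
      (-(2 * phi x / (1 + x ^ 2) ^ 2)) x := by
    intro x
    have hx : (1 + x ^ 2) ≠ 0 := by positivity
    have h1 : HasDerivAt (fun x : ℝ => 1 + x ^ 2) (2 * x) x :=
      ((hasDerivAt_pow 2 x).const_add 1).congr_deriv (by simp)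
    refine ((hasDerivAt_Q x).sub
      (((hasDerivAt_id x).mul (hasDerivAt_phi x)).div h1 hx)).congr_deriv ?_
    simp only [id, Pi.mul_apply]
    field_simp
    ring
  have hanti : Antitone (fun x => Q x - x * phi x / (1 + x ^ 2)) :=
    antitone_of_hasDerivAt_nonpos hd fun x => by
      have := phi_pos x
      simp only [Pi.zero_apply, neg_nonpos]
      positivity
  have ht : Tendsto (fun x => x * phi x / (1 + x ^ 2)) atTop (𝓝 0) := by
    refine tendsto_of_tendsto_of_tendsto_of_le_of_le' tendsto_const_nhds tendsto_phi_atTop ?_ ?_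
    · filter_upwards [eventually_ge_atTop 0] with x hx
      have := phi_pos x
      positivity
    · filter_upwards with x
      have := phi_pos x
      rw [div_le_iff₀ (by positivity)]
      nlinarith [sq_nonneg (x - 1), sq_nonneg x]
  have ht2 := tendsto_Q_atTop.sub ht
  rw [sub_zero] at ht2
  have h := hanti.le_of_tendsto ht2 v
  rw [sub_nonneg, div_le_iff₀ (by positivity)] at h
  linarith

lemma J_le_Q_sq {v : ℝ} (hv : 0 ≤ v) : J v ≤ Q v ^ 2 := by
  have _ := hv
  have hd : ∀ x, HasDerivAt (fun x => Q x ^ 2 - J x)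
      (phi x * (x * phi x - (1 + x ^ 2) * Q x)) x := fun x =>
    (((hasDerivAt_Q x).pow 2).sub (hasDerivAt_J x)).congr_deriv (by simp [ell]; ring)
  have hanti : Antitone (fun x => Q x ^ 2 - J x) :=
    antitone_of_hasDerivAt_nonpos hd fun x =>
      mul_nonpos_of_nonneg_of_nonpos (phi_pos x).le (sub_nonpos.2 (gordon x))
  have ht := (tendsto_Q_atTop.pow 2).sub tendsto_J_atTop
  have h := hanti.le_of_tendsto ht v
  simp only [ne_eq, OfNat.ofNat_ne_zero, not_false_eq_true, zero_pow, sub_zero] at h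
  linarith

lemma g_anti {s t : ℝ} (hs : 0 ≤ s) (hst : s ≤ t) : t * ell t + Q t ≤ s * ell s + Q s := by
  have hd : ∀ x, HasDerivAt (fun x => x * ell x + Q x) (-(2 * x * Q x)) x := fun x =>
    (((hasDerivAt_id x).mul (hasDerivAt_ell x)).add (hasDerivAt_Q x)).congr_deriv
      (by simp [ell]; ring)
  refine le_of_deriv_nonpos hd hst fun x hx => ?_
  have := Q_pos x
  have : 0 ≤ x := hs.trans hx.1
  simp only [neg_nonpos]
  positivity

lemma hasDerivAt_D (A B x : ℝ) : HasDerivAt (fun x => A + B * Q x - J x)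
    (phi x * (x * ell x + Q x - B)) x :=
  ((((hasDerivAt_Q x).const_mul B).const_add A).sub (hasDerivAt_J x)).congr_deriv (by ring)

lemma J_chord {a b v A B : ℝ} (h0 : 0 ≤ a) (hav : a ≤ v) (hvb : v ≤ b)
    (ha : J a ≤ A + B * Q a) (hb : J b ≤ A + B * Q b) : J v ≤ A + B * Q v := by
  rcases le_total B (v * ell v + Q v) with h | h
  · have := le_of_deriv_nonneg (hasDerivAt_D A B) hav fun x hx =>
      mul_nonneg (phi_pos x).le (by linarith [g_anti (h0.trans hx.1) hx.2])
    linarith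
  · have := le_of_deriv_nonpos (hasDerivAt_D A B) hvb fun x hx =>
      mul_nonpos_of_nonneg_of_nonpos (phi_pos x).le (by linarith [g_anti (h0.trans hav) hx.1])
    linarith
lemma J_chord_top {a v B : ℝ} (h0 : 0 ≤ a) (hav : a ≤ v) (hB : 0 ≤ B)
    (ha : J a ≤ B * Q a) : J v ≤ B * Q v := by
  rcases le_total B (v * ell v + Q v) with h | h
  · have := le_of_deriv_nonneg (hasDerivAt_D 0 B) hav fun x hx =>
      mul_nonneg (phi_pos x).le (by linarith [g_anti (h0.trans hx.1) hx.2])
    linarith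
  · have h1 : ∀ b, v ≤ b → -J b ≤ B * Q v - J v := by
      intro b hvb
      have := le_of_deriv_nonpos (hasDerivAt_D 0 B) hvb fun x hx =>
        mul_nonpos_of_nonneg_of_nonpos (phi_pos x).le (by linarith [g_anti (h0.trans hav) hx.1])
      have h2 := mul_nonneg hB (Q_pos b).le
      linarith
    have h2 := le_of_tendsto tendsto_J_atTop.neg
      ((eventually_ge_atTop v).mono h1)
    linarith
lemma phi_sq_le_tangent {w v : ℝ} (hw0 : 0 ≤ w) (hw1 : w ≤ 1) (hv0 : 0 ≤ v) (hv1 : v ≤ 1) :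
    phi v ^ 2 ≤ phi w ^ 2 + 2 * w * phi w * (Q v - Q w) := by
  have hm : ∀ s t, 0 ≤ s → s ≤ t → t ≤ 1 → s * phi s ≤ t * phi t := by
    intro s t hs hst ht
    have hd : ∀ x, HasDerivAt (fun x => x * phi x) ((1 - x ^ 2) * phi x) x := fun x =>
      ((hasDerivAt_id x).mul (hasDerivAt_phi x)).congr_deriv (by simp; ring)
    refine le_of_deriv_nonneg hd hst fun x hx => mul_nonneg ?_ (phi_pos x).le
    nlinarith [hx.1, hx.2]
  have hd : ∀ x, HasDerivAt (fun x => 2 * w * phi w * Q x - phi x ^ 2)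
      (2 * phi x * (x * phi x - w * phi w)) x := fun x =>
    (((hasDerivAt_Q x).const_mul _).sub ((hasDerivAt_phi x).pow 2)).congr_deriv (by simp; ring)
  rcases le_total w v with h | h
  · have := le_of_deriv_nonneg hd h fun x hx =>
      mul_nonneg (by linarith [phi_pos x]) (by linarith [hm w x hw0 hx.1 (hx.2.trans hv1)])
    linarith
  · have := le_of_deriv_nonpos hd h fun x hx =>
      mul_nonpos_of_nonneg_of_nonpos (by linarith [phi_pos x])
        (by linarith [hm x w (hv0.trans hx.1) hx.2 hw1])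
    linarith

lemma hasDerivAt_T9 (x : ℝ) : HasDerivAt T9 (1 - x ^ 18 / 34459425 + x * T9 x) x := by
  have h := fun (n : ℕ) (c : ℝ) => (hasDerivAt_pow n x).div_const c
  exact ((((((((((hasDerivAt_id x).add (h 3 3)).add (h 5 15)).add (h 7 105)).add (h 9 945)).add
    (h 11 10395)).add (h 13 135135)).add (h 15 2027025)).add (h 17 34459425))).congr_deriv
    (by simp only [T9]; norm_num; ring)

lemma Q_upper {v : ℝ} (hv : 0 ≤ v) : Q v ≤ 1 / 2 - phi v * T9 v := by
  have hd : ∀ x, HasDerivAt (fun x => Q x + phi x * T9 x) (-(phi x * x ^ 18 / 34459425)) x :=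
    fun x => ((hasDerivAt_Q x).add ((hasDerivAt_phi x).mul (hasDerivAt_T9 x))).congr_deriv
      (by ring)
  have := le_of_deriv_nonpos hd hv fun x _ => by
    have := phi_pos x
    simp only [neg_nonpos]
    positivity
  simp only [Q_zero, T9] at this ⊢
  linarith
lemma Q_lower {v : ℝ} (hv : 0 ≤ v) (hv' : v ≤ 9 / 5) :
    1 / 2 - phi v * (T9 v + v ^ 19 / (15 * 34459425)) ≤ Q v := by
  have hd : ∀ x, HasDerivAt (fun x => Q x + phi x * (T9 x + x ^ 19 / (15 * 34459425)))
      (phi x * x ^ 18 * (4 - x ^ 2) / (15 * 34459425)) x :=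
    fun x => ((hasDerivAt_Q x).add ((hasDerivAt_phi x).mul ((hasDerivAt_T9 x).add
      ((hasDerivAt_pow 19 x).div_const (15 * 34459425))))).congr_deriv (by simp; ring)
  have := le_of_deriv_nonneg hd hv fun x hx => by
    have := phi_pos x
    have : 0 ≤ 4 - x ^ 2 := by nlinarith [hx.1, hx.2]
    positivity
  simp only [Q_zero, T9] at this ⊢
  linarith

end Vale.Agent.P226
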