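import Vale.Agent.P226.Gmax
import Vale.Agent.P226.Ehr
import Vale.Agent.P226.Ineq

/-! One-cell inequalities at a maximiser. -/

namespace Vale.Agent.P226

open MeasureTheory ProbabilityTheory Set Filter Topology
open scoped RealInnerProductSpace

variable {E : Type} [NormedAddCommGroup E] [InnerProductSpace ℝ E] [FiniteDimensional ℝ E]
  [MeasurableSpace E] [BorelSpace E]
variable {ι : Type} [Fintype ι] [Nonempty ι] {z : ι → E} {F : ℝ}

omit [BorelSpace E] in
/-- the only linear relation among the vectors is that their sum vanishes -/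
lemma Crit.coeff_const (h : Crit z F) (a : ι → ℝ) (ha : ∑ j, a j • z j = 0) :
    ∀ j l, a j = a l := by
  classical
  obtain ⟨j0, hj0⟩ := Finite.exists_min a
  have h1 : ∑ j, (a j - a j0) • z j = 0 := by
    simp only [sub_smul, Finset.sum_sub_distrib, ha, ← Finset.smul_sum, h.sum_zero, smul_zero,
      sub_zero]
  have h2 : ∑ j, (a j - a j0) * ⟪z j, z j0⟫ = 0 := by
    have := congrArg (fun y => ⟪y, z j0⟫) h1
    simpa only [sum_inner, real_inner_smul_left, inner_zero_left] using this
  have h3 : ∀ j ∈ Finset.univ, (a j - a j0) * ⟪z j, z j0⟫ ≤ 0 := by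
    intro j _
    by_cases hj : j = j0
    · simp [hj]
    · exact mul_nonpos_of_nonneg_of_nonpos (sub_nonneg.2 (hj0 j)) (h.obtuse j j0 hj).le
  have h4 := (Finset.sum_eq_zero_iff_of_nonpos h3).1 h2
  have h5 : ∀ j, a j = a j0 := by
    intro j
    by_cases hj : j = j0
    · rw [hj]
    · have := h4 j (Finset.mem_univ _)
      rcases mul_eq_zero.1 this with h6 | h6
      · linarith
      · exact absurd h6 (h.obtuse j j0 hj).ne
  intro j l
  rw [h5 j, h5 l]

omit [BorelSpace E] in
lemma Crit.linInd (h : Crit z F) (i : ι) :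
    LinearIndependent ℝ (fun j : {j // j ≠ i} => z i - z j) := by
  classical
  rw [Fintype.linearIndependent_iff]
  intro g hg
  set a : ι → ℝ := fun j => if hj : j ≠ i then -g ⟨j, hj⟩ else ∑ l, g l with ha
  have hai : a i = ∑ l, g l := by simp [ha]
  have haj : ∀ j : {j // j ≠ i}, a j = -g j := fun j => by simp [ha, j.2]
  have h1 : ∑ j, a j • z j = 0 := by
    rw [Fintype.sum_eq_add_sum_subtype_ne _ i, hai]
    simp only [haj, neg_smul, Finset.sum_neg_distrib]
    simp only [smul_sub, Finset.sum_sub_distrib, ← Finset.sum_smul] at hg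
    rw [← sub_eq_add_neg]; exact hg
  have h2 := h.coeff_const a h1
  have h3 : ∑ j, a j = 0 := by
    rw [Fintype.sum_eq_add_sum_subtype_ne _ i, hai]
    simp only [haj, Finset.sum_neg_distrib, add_neg_cancel]
  have h4 : ∑ j, a j = (Fintype.card ι : ℝ) * a i := by
    rw [Finset.sum_congr rfl (fun j _ => h2 j i)]
    simp
  have h5 : a i = 0 := by
    have hc : (0 : ℝ) < Fintype.card ι := by exact_mod_cast Fintype.card_pos
    rw [h3] at h4
    rcases mul_eq_zero.1 h4.symm with h6 | h6
    · exact absurd h6 hc.ne'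
    · exact h6
  intro j
  have := haj j
  rw [h2 j i, h5] at this
  linarith

omit [BorelSpace E] in
/-- the vector dual to the vertex `i` of the simplex -/
lemma exists_dual (h : Crit z F) (i : ι) : ∃ e : E, ∀ j, j ≠ i → ⟪e, z i - z j⟫ = 1 := by
  have hli := h.linInd i
  obtain ⟨g, hg⟩ := LinearMap.exists_extend
    ((Module.Basis.span hli).constr ℝ (fun _ => (1 : ℝ)))
  have : CompleteSpace E := FiniteDimensional.complete ℝ E
  refine ⟨(InnerProductSpace.toDual ℝ E).symm (LinearMap.toContinuousLinearMap g), fun j hj => ?_⟩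
  rw [InnerProductSpace.toDual_symm_apply]
  have h1 := congrArg (fun f => f ((Module.Basis.span hli) ⟨j, hj⟩)) hg
  simp only [LinearMap.comp_apply, Submodule.subtype_apply, Module.Basis.constr_basis] at h1
  rw [Module.Basis.span_apply] at h1
  simpa using h1

omit [BorelSpace E] [Nonempty ι] in
lemma Crit.sum_ne (h : Crit z F) [DecidableEq ι] (i : ι) :
    ∑ j : {j // j ≠ i}, z j = -z i := by
  have := h.sum_zero
  rw [Fintype.sum_eq_add_sum_subtype_ne _ i] at this
  exact eq_neg_of_add_eq_zero_right this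

omit [Nonempty ι] in
lemma card_ne_cast [DecidableEq ι] (i : ι) :
    (Fintype.card {j // j ≠ i} : ℝ) = (Fintype.card ι : ℝ) - 1 := by
  have : Nonempty ι := ⟨i⟩
  rw [Fintype.card_subtype_compl, Fintype.card_subtype_eq, Nat.cast_sub Fintype.card_pos]
  simp

omit [BorelSpace E] in
lemma dual_inner (h : Crit z F) (i : ι) {e : E} (he : ∀ j, j ≠ i → ⟪e, z i - z j⟫ = 1) :
    ⟪e, z i⟫ = ((Fintype.card ι : ℝ) - 1) / (Fintype.card ι : ℝ) := by
  classical
  have hc : (0 : ℝ) < Fintype.card ι := by exact_mod_cast Fintype.card_pos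
  have h1 : ∑ j : {j // j ≠ i}, ⟪e, z i - z j⟫ = (Fintype.card ι : ℝ) - 1 := by
    rw [Finset.sum_congr rfl (fun (j : {j // j ≠ i}) _ => he j j.2)]
    simp only [Finset.sum_const, Finset.card_univ, nsmul_eq_mul, mul_one]
    exact card_ne_cast i
  have h2 : ∑ j : {j // j ≠ i}, ⟪e, z i - z j⟫ = (Fintype.card ι : ℝ) * ⟪e, z i⟫ := by
    simp only [inner_sub_right, Finset.sum_sub_distrib, Finset.sum_const, Finset.card_univ,
      nsmul_eq_mul]
    rw [← inner_sum, h.sum_ne i, inner_neg_right, card_ne_cast i]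
    ring
  rw [eq_div_iff hc.ne']
  linarith

/-- Ehrhard bound for the tail of the gap -/
lemma gap_tail_le (h : Crit z F) (hk : 2 ≤ Fintype.card ι) (i : ι) {v : ℝ} (hv : Q v = mass z i)
    {t : ℝ} (ht : 0 ≤ t) :
    (stdGaussian E).real {x | ∀ j, j ≠ i → t < ⟪z i - z j, x⟫}
      ≤ Q (v + (((Fintype.card ι : ℝ) - 1) / (Fintype.card ι : ℝ) / phi v) * t) := by
  obtain ⟨e, he⟩ := exists_dual h i
  have hei := dual_inner h i he
  set c : ℝ := ((Fintype.card ι : ℝ) - 1) / (Fintype.card ι : ℝ) with hc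
  set b : ℝ := c / phi v with hb
  set K : Set (ℝ × E) := {q | ∀ j, j ≠ i → q.1 < ⟪z i - z j, q.2⟫} with hK
  have hKo : IsOpen K := by
    have : K = ⋂ j : {j // j ≠ i}, {q : ℝ × E | q.1 < ⟪z i - z j, q.2⟫} := by
      ext q; simp [hK]
    rw [this]
    exact isOpen_iInter_of_finite fun j => isOpen_lt continuous_fst (by fun_prop)
  have hKc : Convex ℝ K := by
    intro p hp q hq s r hs hr hsr j hj
    have h1 := hp j hj
    have h2 := hq j hj
    simp only [Prod.fst_add, Prod.smul_fst, smul_eq_mul, Prod.snd_add, Prod.smul_snd,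
      inner_add_right, real_inner_smul_right]
    rcases hs.eq_or_lt with rfl | hs'
    · have : r = 1 := by linarith
      subst this; simpa using h2
    · nlinarith [mul_lt_mul_of_pos_left h1 hs', mul_le_mul_of_nonneg_left h2.le hr]
  have hS := ehrhard hKo hKc
  have hcell : {x | ∀ j, j ≠ i → (0 : ℝ) < ⟪z i - z j, x⟫} = cell z i := by
    ext x; simp only [cell, mem_ofPred_eq, inner_sub_left, sub_pos]
  by_contra hcon
  push Not at hcon
  rcases ht.eq_or_lt with rfl | ht'
  · rw [hcell, mul_zero, add_zero, hv] at hcon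
    exact lt_irrefl _ hcon
  -- a smaller slope that is still strict
  obtain ⟨b', hb'1, hb'2⟩ : ∃ b' : ℝ, b' < b ∧
      Q (v + b' * t) < (stdGaussian E).real {x | ∀ j, j ≠ i → t < ⟪z i - z j, x⟫} := by
    have hcont : ContinuousAt (fun y : ℝ => Q (v + y * t)) b :=
      (continuous_Q.comp (by fun_prop)).continuousAt
    have hev := hcont.eventually (gt_mem_nhds hcon)
    obtain ⟨y, hy1, hy2⟩ := ((hev.filter_mono nhdsWithin_le_nhds).and
      (self_mem_nhdsWithin (a := b) (s := Iio b))).exists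
    exact ⟨y, hy2, hy1⟩
  have hphi := phi_pos v
  have hslope : 0 < c - b' * phi v := by
    have : b * phi v = c := by rw [hb]; field_simp
    nlinarith
  obtain ⟨s, hs, hs2⟩ : ∃ s : ℝ, 0 < s ∧
      Q (v - b' * s) < mass z i * (1 - s ^ 2 * ‖e‖ ^ 2 / 2) + s * c := by
    have h1 : HasDerivAt (fun s : ℝ => v - b' * s) (-b') 0 := by
      simpa using ((hasDerivAt_id (0 : ℝ)).const_mul b').const_sub v
    have h2 : HasDerivAt (fun s : ℝ => Q (v - b' * s)) (-phi (v - b' * 0) * (-b')) 0 :=
      HasDerivAt.comp (h₂ := Q) (h := fun s : ℝ => v - b' * s) (0 : ℝ)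
        (hasDerivAt_Q (v - b' * 0)) h1
    have h3 : HasDerivAt (fun s : ℝ => mass z i * (1 - s ^ 2 * ‖e‖ ^ 2 / 2) + s * c) c 0 := by
      have h4 := ((((hasDerivAt_pow 2 (0 : ℝ)).mul_const (‖e‖ ^ 2)).div_const 2).const_sub 1).const_mul
        (mass z i)
      have h5 := (hasDerivAt_id (0 : ℝ)).mul_const c
      exact (h4.add h5).congr_deriv (by simp)
    have h6 := (h3.sub h2).tendsto_slope_zero_right
    have h7 : (0 : ℝ) < c - -phi (v - b' * 0) * (-b') := by
      simp only [mul_zero, sub_zero]; linarith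
    obtain ⟨s, hs1, hs2⟩ := ((h6.eventually (lt_mem_nhds h7)).and
      (self_mem_nhdsWithin (a := (0 : ℝ)) (s := Ioi 0))).exists
    have hs0 : 0 < s := hs2
    refine ⟨s, hs0, ?_⟩
    simp only [zero_add, smul_eq_mul, Pi.sub_apply, mul_zero, sub_zero, hv] at hs1
    have := (mul_pos_iff_of_pos_left (inv_pos.2 hs0)).1 hs1
    norm_num at this
    linarith
  have hm1 : ((-s, v - b' * s) : ℝ × ℝ) ∈ symm (stdGaussian E) K := by
    have h1 := shift_lower (measurableSet_cell z i) (s • e)
    rw [h.moment i, real_inner_smul_left, hei, norm_smul, mul_pow, Real.norm_eq_abs, sq_abs] at h1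
    have h2 : {x | x + s • e ∈ cell z i} = {y | (-s, y) ∈ K} := by
      ext x
      simp only [← hcell, hK, mem_ofPred_eq, inner_add_right, real_inner_smul_right]
      refine forall_congr' fun j => imp_congr_right fun hj => ?_
      rw [real_inner_comm, real_inner_comm e, he j hj]
      constructor <;> intro <;> linarith
    rw [h2] at h1
    exact lt_of_lt_of_le hs2 h1
  have hm2 : ((t, v + b' * t) : ℝ × ℝ) ∈ symm (stdGaussian E) K := hb'2
  have hst : 0 < s + t := by linarith
  have hm3 := hS hm1 hm2 (a := t / (s + t)) (b := s / (s + t)) (by positivity) (by positivity)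
    (by field_simp; ring)
  have heq : (t / (s + t)) • ((-s, v - b' * s) : ℝ × ℝ) + (s / (s + t)) • ((t, v + b' * t) : ℝ × ℝ)
      = (0, v) := by
    ext
    · simp only [Prod.fst_add, Prod.smul_fst, smul_eq_mul]; field_simp; ring
    · simp only [Prod.snd_add, Prod.smul_snd, smul_eq_mul]; field_simp; ring
  rw [heq] at hm3
  have hm4 : Q v < (stdGaussian E).real {x | ∀ j, j ≠ i → (0 : ℝ) < ⟪z i - z j, x⟫} := hm3
  rw [hcell, hv] at hm4
  exact lt_irrefl _ hm4

omit [Nonempty ι] in
lemma nonempty_ne (hk : 2 ≤ Fintype.card ι) (i : ι) : Nonempty {j // j ≠ i} := by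
  obtain ⟨j, hj⟩ := Fintype.exists_ne_of_one_lt_card (by omega) i
  exact ⟨⟨j, hj⟩⟩

/-- loss in the expected maximum when the vector `i` is dropped -/
lemma drop_loss_le (h : Crit z F) (hk : 2 ≤ Fintype.card ι) (i : ι) {v : ℝ} (hv : Q v = mass z i) :
    F - fE (fun j : {j // j ≠ i} => z j)
      ≤ (Fintype.card ι : ℝ) / ((Fintype.card ι : ℝ) - 1) * J v := by
  classical
  have := nonempty_ne hk i
  have hk' : (2 : ℝ) ≤ Fintype.card ι := by exact_mod_cast hk
  set z' : {j // j ≠ i} → E := fun j => z j with hz'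
  have hphi := phi_pos v
  set b : ℝ := ((Fintype.card ι : ℝ) - 1) / (Fintype.card ι : ℝ) / phi v with hb
  have hb0 : 0 < b := by
    have : (0 : ℝ) < (Fintype.card ι : ℝ) - 1 := by linarith
    positivity
  have hpt : ∀ x, gmax z x - gmax z' x = max (⟪z i, x⟫ - gmax z' x) 0 := by
    intro x
    apply le_antisymm
    · obtain ⟨l, hl⟩ := exists_gmax_eq z x
      by_cases hli : l = i
      · rw [hl, hli]; exact le_max_left _ _
      · have := le_gmax z' x ⟨l, hli⟩
        rw [hl]
        exact le_trans (by simp only [hz'] at this ⊢; linarith) (le_max_right _ _)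
    · apply max_le
      · linarith [le_gmax z x i]
      · have : gmax z' x ≤ gmax z x := gmax_le fun j => le_gmax z x j
        linarith
  have hint : Integrable (fun x => gmax z x - gmax z' x) (stdGaussian E) :=
    (integrable_gmax z).sub (integrable_gmax z')
  have h1 : F - fE z' = ∫ x, (gmax z x - gmax z' x) ∂(stdGaussian E) := by
    rw [integral_sub (integrable_gmax z) (integrable_gmax z'), ← h.fE_eq]; rfl
  have hnn : 0 ≤ᵐ[stdGaussian E] fun x => gmax z x - gmax z' x :=
    Eventually.of_forall fun x => by simp only [Pi.zero_apply, hpt]; exact le_max_right _ _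
  rw [h1, hint.integral_eq_integral_meas_lt hnn]
  have h2 : ∫ t in Ioi (0 : ℝ), (stdGaussian E).real {x | t < gmax z x - gmax z' x}
      ≤ ∫ t in Ioi (0 : ℝ), Q (v + b * t) := by
    apply integral_mono_of_nonneg
    · exact Eventually.of_forall fun t => measureReal_nonneg
    · exact integrableOn_Q_affine v hb0
    · refine (ae_restrict_iff' measurableSet_Ioi).2 (Eventually.of_forall fun t ht => ?_)
      have ht0 : 0 < t := ht
      have h3 : {x | t < gmax z x - gmax z' x} ⊆ {x | ∀ j, j ≠ i → t < ⟪z i - z j, x⟫} := by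
        intro x hx j hj
        simp only [mem_ofPred_eq, hpt] at hx
        have h4 := le_gmax z' x ⟨j, hj⟩
        rw [inner_sub_left]
        rcases lt_max_iff.1 hx with h5 | h5
        · simp only [hz'] at h4 h5; linarith
        · linarith
      exact le_trans (measureReal_mono h3) (gap_tail_le h hk i hv ht0.le)
  refine h2.trans (le_of_eq ?_)
  rw [integral_Q_affine v hb0, hb, J]
  have : (Fintype.card ι : ℝ) - 1 ≠ 0 := by linarith
  field_simp

lemma drop_le (h : Crit z F) (hk : 2 ≤ Fintype.card ι) (hIH : Bound E (Fintype.card ι - 1))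
    (i : ι) : fE (fun j : {j // j ≠ i} => z j)
      ≤ √(MM * (F - (Fintype.card ι : ℝ) / ((Fintype.card ι : ℝ) - 1) * ‖z i‖ ^ 2)) := by
  classical
  have := nonempty_ne hk i
  have hk' : (2 : ℝ) ≤ Fintype.card ι := by exact_mod_cast hk
  have hk1 : (Fintype.card ι : ℝ) - 1 ≠ 0 := by linarith
  set c : ℝ := 1 / ((Fintype.card ι : ℝ) - 1) with hc
  have hcard : Fintype.card {j // j ≠ i} ≤ Fintype.card ι - 1 := by
    rw [Fintype.card_subtype_compl, Fintype.card_subtype_eq]
  have h1 := hIH {j // j ≠ i} hcard (fun j => z j + c • z i)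
  rw [fE_add_const (fun j : {j // j ≠ i} => z j) (c • z i)] at h1
  refine h1.trans (le_of_eq ?_)
  congr 2
  have h2 : ∑ j : {j // j ≠ i}, ‖z j‖ ^ 2 = F - ‖z i‖ ^ 2 := by
    have := h.sum_sq
    rw [Fintype.sum_eq_add_sum_subtype_ne _ i] at this
    linarith
  simp only [norm_add_sq_real, Finset.sum_add_distrib, h2, ← Finset.mul_sum, ← sum_inner,
    h.sum_ne i, Finset.sum_const, Finset.card_univ, nsmul_eq_mul, card_ne_cast i,
    inner_neg_left, real_inner_smul_right, real_inner_self_eq_norm_sq, norm_smul, mul_pow,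
    Real.norm_eq_abs, sq_abs]
  rw [hc]
  field_simp
  ring

theorem cell_facts (h : Crit z F) (hk : 4 ≤ Fintype.card ι) (hIH : Bound E (Fintype.card ι - 1))
    (i : ι) : ∃ v : ℝ, 0 ≤ v ∧ Q v = mass z i ∧ ‖z i‖ ^ 2 ≤ phi v ^ 2 ∧
      ‖z i‖ ^ 2 ≤ 2 * J v - J v ^ 2 / MM ∧
      F - fE (fun j : {j // j ≠ i} => z j)
        ≤ (Fintype.card ι : ℝ) / ((Fintype.card ι : ℝ) - 1) * J v := by
  obtain ⟨v, hv⟩ := exists_Q_eq (h.mass_pos i) (lt_of_le_of_lt (h.mass_le i) (by norm_num))
  have hv0 : 0 ≤ v := by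
    by_contra hneg
    have := strictAnti_Q (not_le.1 hneg)
    rw [Q_zero, hv] at this
    linarith [h.mass_le i]
  have ha : ‖z i‖ ^ 2 ≤ phi v ^ 2 := by
    have h1 := norm_moment_le (measurableSet_cell z i) v
    rw [h.moment i] at h1
    have h2 : (stdGaussian E).real (cell z i) = Q v := hv.symm
    rw [h2, ell] at h1
    exact pow_le_pow_left₀ (norm_nonneg _) (by linarith) 2
  have hl := drop_loss_le h (by omega) i hv
  have hd := drop_le h (by omega) hIH i
  refine ⟨v, hv0, hv, ha, ?_, hl⟩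
  have hk' : (4 : ℝ) ≤ Fintype.card ι := by exact_mod_cast hk
  set κ : ℝ := (Fintype.card ι : ℝ) / ((Fintype.card ι : ℝ) - 1) with hκ
  have hκ1 : 1 ≤ κ := by
    rw [hκ, le_div_iff₀ (by linarith)]; linarith
  have hκ2 : κ ≤ 4 / 3 := by
    rw [hκ, div_le_iff₀ (by linarith)]; linarith
  have hM : 0 < MM := lt_trans (by norm_num) MM_gt
  have hJ := J_pos v
  have hF := h.hF
  set a := ‖z i‖ ^ 2 with hadef
  have ha0 : 0 ≤ a := sq_nonneg _
  rw [le_sub_iff_add_le, ← le_sub_iff_add_le', div_le_iff₀ hM]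
  by_cases hcase : κ * J v ≤ MM / 2
  · have h1 : F - κ * J v ≤ √(MM * (F - κ * a)) := by linarith
    have h2 : 0 < F - κ * J v := by linarith
    have h3 : (F - κ * J v) ^ 2 ≤ MM * (F - κ * a) := by
      rcases le_or_gt 0 (MM * (F - κ * a)) with h4 | h4
      · exact (Real.le_sqrt h2.le h4).1 h1
      · rw [Real.sqrt_eq_zero_of_nonpos h4.le] at h1; linarith
    have h5 : MM * κ * a ≤ 2 * MM * κ * J v - κ ^ 2 * J v ^ 2 := by
      nlinarith [mul_nonneg (sub_nonneg.2 hF.le) (show 0 ≤ F - 2 * (κ * J v) by linarith)]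
    have h6 : κ * (MM * a) ≤ κ * (2 * MM * J v - κ * J v ^ 2) := by nlinarith
    have h7 := le_of_mul_le_mul_left h6 (by linarith)
    nlinarith [mul_le_mul_of_nonneg_right hκ1 (sq_nonneg (J v))]
  · push Not at hcase
    have h1 : 3 / 8 * MM ≤ J v := by nlinarith
    have hpi := Real.pi_pos
    have h2 : 1 / (2 * Real.pi) = 4 / 9 * MM := by unfold MM; field_simp; norm_num
    have h3 : J v ≤ 4 / 9 * MM := h2 ▸ J_le_J_zero hv0
    have h4 : a ≤ 4 / 9 * MM := by
      rw [← h2, ← phi_zero_sq]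
      exact ha.trans (pow_le_pow_left₀ (phi_pos v).le (phi_le_phi_zero v) 2)
    nlinarith [mul_le_mul_of_nonneg_left h3 hJ.le, mul_le_mul_of_nonneg_right h4 hM.le,
      mul_le_mul_of_nonneg_right h1 hM.le]

end Vale.Agent.P226
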