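import Mathlib

/-! Definitions for the proof of the Gaussian propeller inequality (P226). -/

namespace Vale.Agent.P226

open MeasureTheory ProbabilityTheory Set
open scoped RealInnerProductSpace

noncomputable section

/-- standard normal density -/
def phi (x : ℝ) : ℝ := Real.exp (-x ^ 2 / 2) / √(2 * Real.pi)

/-- standard normal upper tail -/
def Q (x : ℝ) : ℝ := (gaussianReal 0 1).real (Ioi x)

/-- `ell v = E (ξ - v)₊` -/
def ell (v : ℝ) : ℝ := phi v - v * Q v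

def J (v : ℝ) : ℝ := phi v * ell v

/-- the propeller constant -/
def MM : ℝ := 9 / (8 * Real.pi)

/-- the small-ball error term -/
def KK (m t mu zeta om : ℝ) : ℝ :=
  ((m * t) ^ 3 + 3 * (m * t) * ((1 + m * mu) ^ 2 * zeta)
    + 81 / 256 * ((1 + m * mu) ^ 2 * zeta) ^ 2 / (m * t)) / (12 * m * Real.pi * om)

/-- Ehrhard symmetrisation of the fibres of `K` (upper half-lines of the same measure) -/
def symm {X Ω : Type} [MeasurableSpace Ω] (μ : Measure Ω) (K : Set (X × Ω)) : Set (X × ℝ) :=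
  {q | Q q.2 < μ.real {y | (q.1, y) ∈ K}}

variable {E : Type} [NormedAddCommGroup E] [InnerProductSpace ℝ E]

/-- pointwise maximum of the linear functionals -/
def gmax {ι : Type} (z : ι → E) (x : E) : ℝ := ⨆ i, ⟪z i, x⟫

/-- the open cell where the functional `i` is the strict maximum -/
def cell {ι : Type} (z : ι → E) (i : ι) : Set E := {x | ∀ j, j ≠ i → ⟪z j, x⟫ < ⟪z i, x⟫}

variable [FiniteDimensional ℝ E] [MeasurableSpace E]

/-- expected maximum -/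
def fE {ι : Type} (z : ι → E) : ℝ := ∫ x, gmax z x ∂(stdGaussian E)

/-- Gaussian mass of a cell -/
def mass {ι : Type} (z : ι → E) (i : ι) : ℝ := (stdGaussian E).real (cell z i)

variable (E) in
/-- the propeller inequality for families of at most `n` vectors -/
def Bound (n : ℕ) : Prop :=
  ∀ (ι : Type) [Fintype ι] [Nonempty ι], Fintype.card ι ≤ n →
    ∀ z : ι → E, fE z ≤ √(MM * ∑ i, ‖z i‖ ^ 2)

/-- properties of a maximiser violating the inequality -/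
structure Crit {ι : Type} [Fintype ι] (z : ι → E) (F : ℝ) : Prop where
  hF : MM < F
  sum_sq : ∑ i, ‖z i‖ ^ 2 = F
  fE_eq : fE z = F
  sum_zero : ∑ i, z i = 0
  obtuse : ∀ i j, i ≠ j → ⟪z i, z j⟫ < 0
  moment : ∀ i, ∫ x in cell z i, x ∂(stdGaussian E) = z i
  cover : ∀ᵐ x ∂(stdGaussian E), ∃ i, x ∈ cell z i
  mass_sum : ∑ i, mass z i = 1
  mass_pos : ∀ i, 0 < mass z i
  mass_le : ∀ i, mass z i ≤ 1 / 2

/-- numerical consequences for one cell: `a` = squared norm of the moment, `p` = mass,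
`Y` = value of `J`. -/
structure Lines (a p Y : ℝ) : Prop where
  a_nonneg : 0 ≤ a
  a_le : a ≤ 0.1592
  p_pos : 0 < p
  Y_nonneg : 0 ≤ Y
  b0 : a ≤ 2 * p ^ 2
  c0 : a ≤ 0.0025 → 15 * a ≤ p
  c1 : 0.0025 ≤ a → a ≤ 0.022 → 0.02745 + 4 * a ≤ p
  s4 : -0.2175 + 4.12 * a ≤ p
  s4a : a ≤ 0.045 → -0.0147 + 4.12 * a ≤ p
  s4b : a ≤ 0.055 → -0.0373 + 4.12 * a ≤ p
  s2 : -0.0338 + 2.76 * a ≤ p
  s2a : 0.0025 ≤ a → a ≤ 0.075 → 0.0196 + 2.76 * a ≤ p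
  s2b : a ≤ 0.075 → 2.76 * a ≤ p
  s2c : 0.022 ≤ a → a ≤ 0.045 → 0.0464 + 2.76 * a ≤ p
  s2d : 0.0025 ≤ a → a ≤ 0.045 → 0.0305 + 2.76 * a ≤ p
  i0 : 0.075 ≤ a → 0.1043 + 1.62 * a ≤ p
  i1 : 0.022 ≤ a → a ≤ 0.045 → 0.0806 + 1.62 * a ≤ p
  i2 : 0.0025 ≤ a → a ≤ 0.045 → 0.0334 + 1.62 * a ≤ p
  j0 : 0.045 ≤ a → 0.0941 + 1.7 * a ≤ p
  j1 : 0.0025 ≤ a → 0.0332 + 1.7 * a ≤ p
  q0 : 0.01 ≤ a → 0.0768 ≤ p
  q1 : 0.0768 ≤ p → Y ≤ -0.02296 + 0.3643 * p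
  q2 : 0.0768 ≤ p → ∀ f : ℝ, 0.358098 - 4 / 3 * Y ≤ f →
    -0.0016 - 0.205 * p ≤ 9 / 4 * f ^ 2 - 0.839625 * f

end

end Vale.Agent.P226
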