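import Vale.Agent.P226.Basic

/-! The one-dimensional Ehrhard inequality for intervals. -/

namespace Vale.Agent.P226

open Set Filter Topology

lemma hasDerivAt_ratio (k : ℝ) {x : ℝ} (hx : x ≠ 0) :
    HasDerivAt (fun x => phi x / x - k * Q x) (phi x * (k - 1 - 1 / x ^ 2)) x := by
  have h := ((hasDerivAt_phi x).div (hasDerivAt_id x) hx).sub ((hasDerivAt_Q x).const_mul k)
  refine HasDerivAt.congr_deriv h ?_
  simp only [id]
  field_simp
  ring

/-- superadditivity of `phi x / x` as a function of `Q x` -/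
lemma ratio_superadd_aux {a s C : ℝ} (hC : 0 < C) (hCa : C < a) (has : a ≤ s)
    (h : Q a + Q s = Q C) : phi a / a + phi s / s < phi C / C := by
  have ha : 0 < a := hC.trans hCa
  set k : ℝ := 1 + 1 / a ^ 2 with hk
  set F : ℝ → ℝ := fun x => phi x / x - k * Q x with hF
  have h1 : StrictAntiOn F (Icc C a) := by
    apply strictAntiOn_of_deriv_neg (convex_Icc _ _)
    · intro x hx
      exact (hasDerivAt_ratio k (hC.trans_le hx.1).ne').continuousAt.continuousWithinAt
    · intro x hx
      rw [interior_Icc] at hx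
      have hx0 : 0 < x := hC.trans hx.1
      rw [(hasDerivAt_ratio k hx0.ne').deriv]
      apply mul_neg_of_pos_of_neg (phi_pos x)
      have : 1 / a ^ 2 < 1 / x ^ 2 := by
        apply one_div_lt_one_div_of_lt (by positivity)
        nlinarith [hx.2]
      rw [hk]; linarith
  have h2 : MonotoneOn F (Ici a) := by
    apply monotoneOn_of_deriv_nonneg (convex_Ici _)
    · intro x hx
      exact (hasDerivAt_ratio k (ha.trans_le hx).ne').continuousAt.continuousWithinAt
    · intro x hx
      rw [interior_Ici] at hx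
      exact (hasDerivAt_ratio k (ha.trans hx).ne').differentiableAt.differentiableWithinAt
    · intro x hx
      rw [interior_Ici] at hx
      have hx0 : 0 < x := ha.trans hx
      rw [(hasDerivAt_ratio k hx0.ne').deriv]
      apply mul_nonneg (phi_pos x).le
      have : 1 / x ^ 2 ≤ 1 / a ^ 2 := by
        apply one_div_le_one_div_of_le (by positivity)
        have : a < x := hx
        nlinarith
      rw [hk]; linarith
  have h3 : Tendsto F atTop (𝓝 0) := by
    have := (tendsto_phi_atTop.div_atTop tendsto_id).sub (tendsto_Q_atTop.const_mul k)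
    simpa using this
  have h4 : F s ≤ 0 := by
    refine ge_of_tendsto h3 ?_
    filter_upwards [eventually_ge_atTop s] with x hx
    exact h2 has (has.trans hx) hx
  have h5 : F a < F C := h1 ⟨le_rfl, hCa.le⟩ ⟨hCa.le, le_rfl⟩ hCa
  simp only [hF] at h4 h5
  rw [← h] at h5
  linarith

lemma ratio_superadd {a s C : ℝ} (hC : 0 < C) (h : Q a + Q s = Q C) :
    phi a / a + phi s / s < phi C / C := by
  have ha : C < a := strictAnti_Q.lt_iff_gt.1 (by linarith [Q_pos s])
  have hs : C < s := strictAnti_Q.lt_iff_gt.1 (by linarith [Q_pos a])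
  rcases le_total a s with has | has
  · exact ratio_superadd_aux hC ha has h
  · have := ratio_superadd_aux hC hs has (by linarith)
    linarith

/-- pure algebra -/
lemma second_pos_alg {a s C pa ps pc x y w : ℝ} (ha : 0 < a) (hs : 0 < s) (hC : 0 ≤ C)
    (hpa : 0 < pa) (hps : 0 < ps) (hpc : 0 < pc) (hr : C * (pa / a + ps / s) < pc)
    (hlin : pa * x + ps * y + pc * w = 0) (hne : ¬ (x = 0 ∧ y = 0 ∧ w = 0)) :
    0 < a * pa * x ^ 2 + s * ps * y ^ 2 + (-C) * pc * w ^ 2 := by
  have hS : 0 < a * pa * x ^ 2 + s * ps * y ^ 2 := by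
    by_contra hcon
    have h1 : 0 ≤ a * pa * x ^ 2 := by positivity
    have h2 : 0 ≤ s * ps * y ^ 2 := by positivity
    have h3 : a * pa * x ^ 2 = 0 := by linarith
    have h4 : s * ps * y ^ 2 = 0 := by linarith
    have hx : x = 0 := by
      have : a * pa ≠ 0 := by positivity
      simpa [this] using h3
    have hy : y = 0 := by
      have : s * ps ≠ 0 := by positivity
      simpa [this] using h4
    apply hne
    refine ⟨hx, hy, ?_⟩
    rw [hx, hy] at hlin
    have : pc * w = 0 := by linarith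
    simpa [hpc.ne'] using this
  have hcs : (pa * x + ps * y) ^ 2 ≤ (pa / a + ps / s) * (a * pa * x ^ 2 + s * ps * y ^ 2) := by
    have e : (pa / a + ps / s) * (a * pa * x ^ 2 + s * ps * y ^ 2) - (pa * x + ps * y) ^ 2
        = pa * ps / (a * s) * (a * x - s * y) ^ 2 := by
      field_simp; ring
    have : 0 ≤ pa * ps / (a * s) * (a * x - s * y) ^ 2 := by positivity
    linarith
  have e1 : (pc * w) ^ 2 = (pa * x + ps * y) ^ 2 := by
    have : pc * w = -(pa * x + ps * y) := by linarith
    rw [this]; ring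
  have h6 : pc * (C * pc * w ^ 2) < pc * (a * pa * x ^ 2 + s * ps * y ^ 2) := by
    calc pc * (C * pc * w ^ 2) = C * (pc * w) ^ 2 := by ring
      _ ≤ C * ((pa / a + ps / s) * (a * pa * x ^ 2 + s * ps * y ^ 2)) := by rw [e1]; gcongr
      _ = (C * (pa / a + ps / s)) * (a * pa * x ^ 2 + s * ps * y ^ 2) := by ring
      _ < _ := by gcongr
  have := lt_of_mul_lt_mul_left h6 hpc.le
  linarith

lemma second_pos_of_nonpos {a s c x y w : ℝ} (hc : c ≤ 0) (h : Q a + Q s + Q c = 1)
    (hlin : phi a * x + phi s * y + phi c * w = 0) (hne : ¬ (x = 0 ∧ y = 0 ∧ w = 0)) :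
    0 < a * phi a * x ^ 2 + s * phi s * y ^ 2 + c * phi c * w ^ 2 := by
  have hQ : Q a + Q s = Q (-c) := by rw [Q_neg]; linarith
  have ha : -c < a := strictAnti_Q.lt_iff_gt.1 (by linarith [Q_pos s])
  have hs : -c < s := strictAnti_Q.lt_iff_gt.1 (by linarith [Q_pos a])
  have hr : (-c) * (phi a / a + phi s / s) < phi c := by
    rcases hc.eq_or_lt with h0 | h0
    · rw [h0]; simpa using phi_pos 0
    · have := ratio_superadd (C := -c) (by linarith) hQ
      rw [phi_neg, lt_div_iff₀ (by linarith)] at this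
      linarith
  have := second_pos_alg (C := -c) (by linarith) (by linarith) (by linarith) (phi_pos a)
    (phi_pos s) (phi_pos c) hr hlin hne
  simpa using this

lemma second_pos {a s c x y w : ℝ} (h : Q a + Q s + Q c = 1)
    (hlin : phi a * x + phi s * y + phi c * w = 0) (hne : ¬ (x = 0 ∧ y = 0 ∧ w = 0)) :
    0 < a * phi a * x ^ 2 + s * phi s * y ^ 2 + c * phi c * w ^ 2 := by
  rcases le_or_gt c 0 with hc | hc
  · exact second_pos_of_nonpos hc h hlin hne
  rcases le_or_gt s 0 with hs | hs
  · have := second_pos_of_nonpos (a := a) (s := c) (x := x) (y := w) (w := y) hs (by linarith)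
      (by linarith) (by tauto)
    linarith
  rcases le_or_gt a 0 with ha | ha
  · have := second_pos_of_nonpos (a := s) (s := c) (x := y) (y := w) (w := x) ha (by linarith)
      (by linarith) (by tauto)
    linarith
  have h1 : 0 < a * phi a := mul_pos ha (phi_pos a)
  have h2 : 0 < s * phi s := mul_pos hs (phi_pos s)
  have h3 : 0 < c * phi c := mul_pos hc (phi_pos c)
  by_cases hx : x = 0
  · by_cases hy : y = 0
    · have hw : w ≠ 0 := by tauto
      positivity
    · positivity
  · positivity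

lemma hasDerivAt_Q_line (a x t : ℝ) :
    HasDerivAt (fun t => Q (a + t * x)) (-(phi (a + t * x) * x)) t := by
  have h := (hasDerivAt_Q (a + t * x)).comp t (((hasDerivAt_id t).mul_const x).const_add a)
  refine HasDerivAt.congr_deriv h ?_
  ring

lemma hasDerivAt_phi_line (a x t : ℝ) :
    HasDerivAt (fun t => -(phi (a + t * x) * x)) ((a + t * x) * phi (a + t * x) * x ^ 2) t := by
  have h := (((hasDerivAt_phi (a + t * x)).comp t
    (((hasDerivAt_id t).mul_const x).const_add a)).mul_const x).neg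
  refine HasDerivAt.congr_deriv h ?_
  ring

/-- no interior local maximum at level one along a non-constant line -/
lemma no_local_max {a s c x y w t : ℝ} (hne : ¬ (x = 0 ∧ y = 0 ∧ w = 0))
    (h1 : Q (a + t * x) + Q (s + t * y) + Q (c + t * w) = 1)
    (hmax : IsLocalMax (fun t => Q (a + t * x) + Q (s + t * y) + Q (c + t * w)) t) : False := by
  set h : ℝ → ℝ := fun t => Q (a + t * x) + Q (s + t * y) + Q (c + t * w) with hh
  have hd : ∀ t, HasDerivAt h (-(phi (a + t * x) * x) + -(phi (s + t * y) * y)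
      + -(phi (c + t * w) * w)) t := fun t =>
    ((hasDerivAt_Q_line a x t).add (hasDerivAt_Q_line s y t)).add (hasDerivAt_Q_line c w t)
  have hd' : deriv h = fun t => -(phi (a + t * x) * x) + -(phi (s + t * y) * y)
      + -(phi (c + t * w) * w) := funext fun t => (hd t).deriv
  have hdd : HasDerivAt (deriv h) ((a + t * x) * phi (a + t * x) * x ^ 2
      + (s + t * y) * phi (s + t * y) * y ^ 2 + (c + t * w) * phi (c + t * w) * w ^ 2) t := by
    rw [hd']
    exact ((hasDerivAt_phi_line a x t).add (hasDerivAt_phi_line s y t)).add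
      (hasDerivAt_phi_line c w t)
  have h0 : deriv h t = 0 := hmax.deriv_eq_zero
  have hpos : 0 < deriv (deriv h) t := by
    rw [hdd.deriv]
    apply second_pos h1 _ hne
    rw [(hd t).deriv] at h0
    linarith
  have hmin : IsLocalMin h t := isLocalMin_of_deriv_deriv_pos hpos h0 (hd t).continuousAt
  have heq : h =ᶠ[𝓝 t] fun _ => h t := by
    filter_upwards [hmin, hmax] with u h1 h2 using le_antisymm h2 h1
  have := heq.deriv.deriv.eq_of_nhds
  simp at this
  linarith

lemma segment_lt {a s c x y w : ℝ} (h0 : Q a + Q s + Q c < 1)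
    (h1 : Q (a + x) + Q (s + y) + Q (c + w) < 1) {t : ℝ} (ht0 : 0 ≤ t) (ht1 : t ≤ 1) :
    Q (a + t * x) + Q (s + t * y) + Q (c + t * w) < 1 := by
  by_cases hne : x = 0 ∧ y = 0 ∧ w = 0
  · obtain ⟨rfl, rfl, rfl⟩ := hne
    simpa using h0
  by_contra hcon
  rw [not_lt] at hcon
  set H : ℝ × ℝ → ℝ := fun p =>
    Q (a + p.1 + p.2 * x) + Q (s + p.1 + p.2 * y) + Q (c + p.1 + p.2 * w) with hH
  have hQc := continuous_Q
  have hHc : Continuous H := by simp only [hH]; fun_prop
  obtain ⟨v, hv⟩ := exists_Q_eq (p := 1 / 4) (by norm_num) (by norm_num)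
  set T : ℝ := |v| + |a| + |s| + |c| + |x| + |y| + |w| with hT
  have hsmall : ∀ τ u, T ≤ τ → u ∈ Icc (0 : ℝ) 1 → H (τ, u) < 1 := by
    intro τ u hτ hu
    have key : ∀ b z : ℝ, |v| + |b| + |z| ≤ T → Q (b + τ + u * z) ≤ 1 / 4 := by
      intro b z hb
      rw [← hv]
      apply strictAnti_Q.antitone
      have e1 : |u * z| ≤ |z| := by
        rw [abs_mul, abs_of_nonneg hu.1]
        exact mul_le_of_le_one_left (abs_nonneg z) hu.2
      linarith [neg_abs_le (u * z), neg_abs_le b, le_abs_self v]
    have p1 := abs_nonneg a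
    have p2 := abs_nonneg s
    have p3 := abs_nonneg c
    have p4 := abs_nonneg x
    have p5 := abs_nonneg y
    have p6 := abs_nonneg w
    have k1 := key a x (by linarith)
    have k2 := key s y (by linarith)
    have k3 := key c w (by linarith)
    simp only [hH]
    linarith
  have hT0 : 0 ≤ T := by positivity
  set K : Set (ℝ × ℝ) := (Icc 0 T ×ˢ Icc 0 1) ∩ {p | 1 ≤ H p} with hK
  have hKc : IsCompact K :=
    (isCompact_Icc.prod isCompact_Icc).inter_right (isClosed_le continuous_const hHc)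
  have hKn : K.Nonempty := ⟨(0, t), ⟨⟨le_rfl, hT0⟩, ⟨ht0, ht1⟩⟩, by simpa [hH] using hcon⟩
  obtain ⟨⟨τ, u⟩, ⟨⟨hτ, hu⟩, hHu⟩, hmax⟩ := hKc.exists_isMaxOn hKn continuous_fst.continuousOn
  have hHu' : 1 ≤ H (τ, u) := hHu
  have hle : ∀ u' ∈ Icc (0 : ℝ) 1, H (τ, u') ≤ 1 := by
    intro u' hu'
    by_contra hgt
    rw [not_le] at hgt
    have hc : Continuous fun τ' => H (τ', u') := by fun_prop
    have hev : ∀ᶠ τ' in 𝓝[>] τ, 1 < H (τ', u') :=
      nhdsWithin_le_nhds (hc.continuousAt.eventually (lt_mem_nhds hgt))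
    obtain ⟨τ', h1', h2'⟩ := (hev.and self_mem_nhdsWithin).exists
    have h2'' : τ < τ' := h2'
    have hτ'T : τ' ≤ T := by
      by_contra hlt
      have := hsmall τ' u' (not_le.1 hlt).le hu'
      linarith
    have : (τ', u') ∈ K := ⟨⟨⟨hτ.1.trans h2''.le, hτ'T⟩, hu'⟩, h1'.le⟩
    have := hmax this
    simp at this
    linarith
  have hτ0 : 0 ≤ τ := hτ.1
  have anti := strictAnti_Q.antitone
  have hu0 : u ≠ 0 := by
    rintro rfl
    simp only [hH, zero_mul, add_zero] at hHu'
    linarith [anti (le_add_of_nonneg_right hτ0 : a ≤ a + τ),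
      anti (le_add_of_nonneg_right hτ0 : s ≤ s + τ), anti (le_add_of_nonneg_right hτ0 : c ≤ c + τ)]
  have hu1 : u ≠ 1 := by
    rintro rfl
    simp only [hH, one_mul] at hHu'
    linarith [anti (by linarith : a + x ≤ a + τ + x),
      anti (by linarith : s + y ≤ s + τ + y), anti (by linarith : c + w ≤ c + τ + w)]
  have heq : H (τ, u) = 1 := le_antisymm (hle u hu) hHu'
  refine no_local_max (a := a + τ) (s := s + τ) (c := c + τ) (t := u) hne heq ?_
  have : Icc (0 : ℝ) 1 ∈ 𝓝 u := Icc_mem_nhds (lt_of_le_of_ne hu.1 hu0.symm) (lt_of_le_of_ne hu.2 hu1)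
  filter_upwards [this] with u' hu'
  exact (hle u' hu').trans heq.ge

theorem convex_W : Convex ℝ {q : ℝ × ℝ × ℝ | Q q.1 + Q q.2.1 + Q q.2.2 < 1} := by
  rintro ⟨a, s, c⟩ hp ⟨a', s', c'⟩ hq l m hl hm hlm
  have := segment_lt (a := a) (s := s) (c := c) (x := a' - a) (y := s' - s) (w := c' - c) hp
    (by simpa using hq) hm (by linarith)
  obtain rfl : l = 1 - m := by linarith
  simp only [mem_ofPred_eq, Prod.smul_mk, Prod.mk_add_mk, smul_eq_mul]
  have e : ∀ b b' : ℝ, (1 - m) * b + m * b' = b + m * (b' - b) := fun b b' => by ring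
  rw [e, e, e]; exact this

/-- an open convex set has the same recession directions at all points -/
lemma recession {V : Type*} [NormedAddCommGroup V] [NormedSpace ℝ V] {K : Set V} (hK : IsOpen K)
    (hc : Convex ℝ K) {p0 u : V} (hray : ∀ d : ℝ, 0 ≤ d → p0 + d • u ∈ K) {p : V} (hp : p ∈ K)
    {δ : ℝ} (hδ : 0 ≤ δ) : p + δ • u ∈ K := by
  have hcont : Continuous fun k : ℝ => p + k • (p - p0) := by fun_prop
  have hev : ∀ᶠ k in 𝓝[>] (0 : ℝ), p + k • (p - p0) ∈ K := by
    apply nhdsWithin_le_nhds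
    apply hcont.continuousAt.preimage_mem_nhds
    simpa using hK.mem_nhds hp
  obtain ⟨k, h1, h2⟩ := (hev.and self_mem_nhdsWithin).exists
  have hk : 0 < k := h2
  have := hc h1 (hray (δ * (1 + k) / k) (by positivity)) (a := 1 / (1 + k)) (b := k / (1 + k))
    (by positivity) (by positivity) (by field_simp)
  convert this using 1
  match_scalars <;> field_simp <;> ring

lemma two_Q_shift_lt {d : ℝ} (hd : 0 ≤ d) : 2 * Q (2 + d) < Q d := by
  set G : ℝ → ℝ := fun d => Q d - 2 * Q (2 + d) with hG
  have hder : ∀ x, HasDerivAt G (-phi x + 2 * phi (2 + x)) x := by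
    intro x
    have := (hasDerivAt_Q x).sub (((hasDerivAt_Q (2 + x)).comp x
      ((hasDerivAt_id x).const_add 2)).const_mul 2)
    refine HasDerivAt.congr_deriv this ?_
    ring
  have h1 : StrictAntiOn G (Ici 0) := by
    apply strictAntiOn_of_deriv_neg (convex_Ici _)
    · exact fun x _ => (hder x).continuousAt.continuousWithinAt
    · intro x hx
      rw [interior_Ici] at hx
      have hx0 : 0 < x := hx
      rw [(hder x).deriv]
      have e : phi x = phi (2 + x) * Real.exp (2 + 2 * x) := by
        unfold phi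
        rw [div_mul_eq_mul_div, ← Real.exp_add]
        congr 2; ring
      have := Real.add_one_le_exp (2 + 2 * x)
      have := phi_pos (2 + x)
      nlinarith
  have h3 : Tendsto G atTop (𝓝 0) := by
    have := tendsto_Q_atTop.sub ((tendsto_Q_atTop.comp
      (tendsto_atTop_add_const_left atTop 2 tendsto_id)).const_mul 2)
    simpa using this
  have h4 : 0 ≤ G (d + 1) := by
    refine le_of_tendsto h3 ?_
    filter_upwards [eventually_ge_atTop (d + 1)] with x hx
    exact h1.antitoneOn (by simp; linarith) (by simp; linarith) hx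
  have h5 : G (d + 1) < G d := h1 hd (by simp; linarith) (by linarith)
  simp only [hG] at h4 h5
  linarith

theorem W_shift {a s c δ : ℝ} (h : Q a + Q s + Q c < 1) (hδ : 0 ≤ δ) :
    Q (a + δ) + Q (s - δ) + Q (c + δ) < 1 := by
  have hQc := continuous_Q
  have ho : IsOpen {q : ℝ × ℝ × ℝ | Q q.1 + Q q.2.1 + Q q.2.2 < 1} :=
    isOpen_lt (by fun_prop) continuous_const
  have := recession ho convex_W (p0 := (2, 0, 2)) (u := (1, -1, 1)) (p := (a, s, c)) ?_ h hδ
  · simpa [sub_eq_add_neg] using this
  · intro d hd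
    have := two_Q_shift_lt hd
    simp [Q_neg]
    linarith

end Vale.Agent.P226
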