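import Vale.Agent.P226.EhrOne

/-! Ehrhard symmetrisation: general facts and one-dimensional fibres. -/

namespace Vale.Agent.P226

open MeasureTheory ProbabilityTheory Set

lemma exists_compact_lt {Ω : Type} [MetricSpace Ω] [MeasurableSpace Ω]
    [BorelSpace Ω] [ProperSpace Ω] (μ : Measure Ω) [IsProbabilityMeasure μ]
    {U : Set Ω} (hU : IsOpen U) {r : ℝ} (hr0 : 0 ≤ r) (hr : r < μ.real U) :
    ∃ C ⊆ U, IsCompact C ∧ r < μ.real C := by
  have h1 : ENNReal.ofReal r < μ U := by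
    rwa [ENNReal.ofReal_lt_iff_lt_toReal hr0 (measure_ne_top _ _)]
  obtain ⟨C, h2, h3, h4⟩ := hU.exists_lt_isCompact h1
  exact ⟨C, h2, h3, (ENNReal.ofReal_lt_iff_lt_toReal hr0 (measure_ne_top _ _)).1 h4⟩

theorem isOpen_symm {X Ω : Type} [TopologicalSpace X] [MetricSpace Ω] [MeasurableSpace Ω]
    [BorelSpace Ω] [ProperSpace Ω] (μ : Measure Ω) [IsProbabilityMeasure μ]
    {K : Set (X × Ω)} (hK : IsOpen K) : IsOpen (symm μ K) := by
  rw [isOpen_iff_forall_mem_open]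
  rintro ⟨x, s⟩ hq
  have hF : IsOpen {y | (x, y) ∈ K} := hK.preimage (Continuous.prodMk_right x)
  obtain ⟨C, h1, h2, h3⟩ := exists_compact_lt μ hF (Q_pos s).le hq
  obtain ⟨u, v, hu, _, h4, h5, h6⟩ := generalized_tube_lemma (isCompact_singleton (x := x)) h2 hK
    (by rintro ⟨a, b⟩ ⟨ha, hb⟩; obtain rfl : a = x := ha; exact h1 hb)
  refine ⟨u ×ˢ {s' | Q s' < μ.real C}, ?_, hu.prod (isOpen_lt continuous_Q continuous_const),
    ⟨h4 rfl, h3⟩⟩
  rintro ⟨a, b⟩ ⟨ha, hb⟩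
  have hb' : Q b < μ.real C := hb
  have hsub : C ⊆ {y | (a, y) ∈ K} := fun y hy => h6 (mk_mem_prod ha (h5 hy))
  exact lt_of_lt_of_le hb' (measureReal_mono hsub)

theorem real_symm_fiber {X Ω : Type} [MeasurableSpace Ω] (μ : Measure Ω) [IsProbabilityMeasure μ]
    (K : Set (X × Ω)) (x : X) :
    (gaussianReal 0 1).real {s | (x, s) ∈ symm μ K} = μ.real {y | (x, y) ∈ K} := by
  change (gaussianReal 0 1).real {s | Q s < μ.real {y | (x, y) ∈ K}} = _
  have h0 : 0 ≤ μ.real {y | (x, y) ∈ K} := measureReal_nonneg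
  have h1 : μ.real {y | (x, y) ∈ K} ≤ 1 := measureReal_le_one
  generalize μ.real {y | (x, y) ∈ K} = m at h0 h1
  rcases h0.eq_or_lt with rfl | h0
  · have : {s | Q s < 0} = ∅ := eq_empty_of_forall_notMem fun s hs => (Q_pos s).not_gt hs
    rw [this]; simp
  rcases h1.eq_or_lt with rfl | h1
  · have : {s | Q s < 1} = univ := eq_univ_of_forall fun s => Q_lt_one s
    rw [this]; simp
  obtain ⟨v, rfl⟩ := exists_Q_eq h0 h1
  have : {s | Q s < Q v} = Ioi v := by
    ext s; exact strictAnti_Q.lt_iff_gt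
  rw [this, real_Ioi]

lemma exists_endpoints {U : Set ℝ} (hU : IsOpen U) {s : ℝ} (hs : Q s < (gaussianReal 0 1).real U) :
    ∃ a ∈ U, ∃ b ∈ U, a ≤ b ∧ Q (-a) + Q s + Q b < 1 := by
  obtain ⟨C, h1, h2, h3⟩ := exists_compact_lt (gaussianReal 0 1) hU (Q_pos s).le hs
  have hne : C.Nonempty := by
    by_contra h
    rw [not_nonempty_iff_eq_empty.1 h] at h3
    simp only [measureReal_empty] at h3
    exact (Q_pos s).not_gt h3
  have ha := h2.sInf_mem hne
  have hb := h2.sSup_mem hne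
  have hab : sInf C ≤ sSup C := le_csSup h2.bddAbove ha
  refine ⟨_, h1 ha, _, h1 hb, hab, ?_⟩
  have h4 : (gaussianReal 0 1).real C ≤ (gaussianReal 0 1).real (Icc (sInf C) (sSup C)) :=
    measureReal_mono fun y hy => ⟨csInf_le h2.bddBelow hy, le_csSup h2.bddAbove hy⟩
  rw [real_Icc hab] at h4
  rw [Q_neg]
  linarith

lemma mem_symm_of_endpoints {X : Type} [NormedAddCommGroup X] [NormedSpace ℝ X]
    {K : Set (X × ℝ)} (hc : Convex ℝ K) {x : X} {a b s : ℝ} (ha : (x, a) ∈ K) (hb : (x, b) ∈ K)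
    (hab : a ≤ b) (h : Q (-a) + Q s + Q b < 1) : (x, s) ∈ symm (gaussianReal 0 1) K := by
  have hcv : Convex ℝ {y | (x, y) ∈ K} := by
    intro y hy y' hy' p q hp hq hpq
    have := hc hy hy' hp hq hpq
    simp only [Prod.smul_mk, Prod.mk_add_mk, ← add_smul, hpq, one_smul] at this
    exact this
  have h1 : (gaussianReal 0 1).real (Icc a b) ≤ (gaussianReal 0 1).real {y | (x, y) ∈ K} :=
    measureReal_mono (hcv.ordConnected.out ha hb)
  rw [real_Icc hab] at h1
  rw [Q_neg] at h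
  change Q s < (gaussianReal 0 1).real {y | (x, y) ∈ K}
  linarith

theorem convex_symm_one {X : Type} [NormedAddCommGroup X] [NormedSpace ℝ X]
    {K : Set (X × ℝ)} (hK : IsOpen K) (hc : Convex ℝ K) :
    Convex ℝ (symm (gaussianReal 0 1) K) := by
  rintro ⟨x, s⟩ h ⟨x', s'⟩ h' p q hp hq hpq
  obtain ⟨a, ha, b, hb, hab, h1⟩ :=
    exists_endpoints (hK.preimage (Continuous.prodMk_right x)) h
  obtain ⟨a', ha', b', hb', hab', h1'⟩ :=
    exists_endpoints (hK.preimage (Continuous.prodMk_right x')) h'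
  have h2 := convex_W (x := (-a, s, b)) h1 (y := (-a', s', b')) h1' hp hq hpq
  refine mem_symm_of_endpoints hc (a := p * a + q * a') (b := p * b + q * b')
    (hc ha ha' hp hq hpq) (hc hb hb' hp hq hpq) (by gcongr) ?_
  have e : -(p * a + q * a') = p * -a + q * -a' := by ring
  rw [e]
  exact h2

/-- If the fibres grow at least like `[-δ, δ]`-neighbourhoods when passing from `x` to `x'`,
the symmetrised fibres move by `δ`. -/
theorem symm_one_shift {X : Type} [NormedAddCommGroup X] [NormedSpace ℝ X]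
    {K : Set (X × ℝ)} (hK : IsOpen K) (hc : Convex ℝ K) {x x' : X} {δ : ℝ} (hδ : 0 ≤ δ)
    (hp : ∀ y, (x, y) ∈ K → (x', y + δ) ∈ K) (hm : ∀ y, (x, y) ∈ K → (x', y - δ) ∈ K)
    {s : ℝ} (hs : (x, s) ∈ symm (gaussianReal 0 1) K) :
    (x', s - δ) ∈ symm (gaussianReal 0 1) K := by
  obtain ⟨a, ha, b, hb, hab, h1⟩ :=
    exists_endpoints (hK.preimage (Continuous.prodMk_right x)) hs
  refine mem_symm_of_endpoints hc (hm a ha) (hp b hb) (by linarith) ?_
  have e : -(a - δ) = -a + δ := by ring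
  rw [e]
  exact W_shift h1 hδ

end Vale.Agent.P226
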