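import Vale.Agent.P226.EhrSymm

/-! Ehrhard inequality for two-dimensional fibres (iterated symmetrisation). -/

namespace Vale.Agent.P226

open MeasureTheory ProbabilityTheory Set Filter Topology

/-- the planar standard Gaussian measure -/
noncomputable abbrev g2 : Measure (ℝ × ℝ) := (gaussianReal 0 1).prod (gaussianReal 0 1)

lemma g2_rot {c σ : ℝ} (h : c ^ 2 + σ ^ 2 = 1) {S : Set (ℝ × ℝ)} (hS : MeasurableSet S) :
    g2 {q | (c * q.1 - σ * q.2, σ * q.1 + c * q.2) ∈ S} = g2 S := by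
  set z : ℂ := ⟨c, -σ⟩ with hz
  have hn : ‖z‖ = 1 := by
    rw [Complex.norm_def, Complex.normSq_mk, show c * c + -σ * -σ = 1 by linarith, Real.sqrt_one]
  have hz0 : z ≠ 0 := by
    intro h0; rw [h0, norm_zero] at hn; exact zero_ne_one hn
  have hc : Real.cos z.arg = c := by rw [Complex.cos_arg hz0, hn]; simp [hz]
  have hs : Real.sin z.arg = -σ := by rw [Complex.sin_arg, hn]; simp [hz]
  have h1 := IsGaussian.map_rotation_eq_self (μ := gaussianReal 0 1)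
    (by simp [integral_id_gaussianReal]) z.arg
  conv_rhs => rw [g2, ← h1]
  rw [Measure.map_apply (ContinuousLinearMap.continuous _).measurable hS]
  congr 1
  ext q
  simp only [mem_ofPred_eq, mem_preimage, ContinuousLinearMap.rotation_apply, hc, hs, smul_eq_mul]
  congr! 2 <;> ring

section
variable {X : Type} [NormedAddCommGroup X] [NormedSpace ℝ X]

/-- symmetrisation in the last coordinate -/
def sig (K : Set (X × ℝ × ℝ)) : Set (X × ℝ × ℝ) :=
  {p | ((p.1, p.2.1), p.2.2) ∈ symm (gaussianReal 0 1) {q : (X × ℝ) × ℝ | (q.1.1, q.1.2, q.2) ∈ K}}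

omit [NormedAddCommGroup X] [NormedSpace ℝ X] in
lemma mem_sig {K : Set (X × ℝ × ℝ)} {x : X} {y s : ℝ} : (x, y, s) ∈ sig K ↔
    ((x, y), s) ∈ symm (gaussianReal 0 1) {q : (X × ℝ) × ℝ | (q.1.1, q.1.2, q.2) ∈ K} := Iff.rfl

/-- rotation in the last two coordinates -/
def rot (c σ : ℝ) (K : Set (X × ℝ × ℝ)) : Set (X × ℝ × ℝ) :=
  {p | (p.1, c * p.2.1 - σ * p.2.2, σ * p.2.1 + c * p.2.2) ∈ K}

omit [NormedSpace ℝ X] in
lemma isOpen_assoc {K : Set (X × ℝ × ℝ)} (hK : IsOpen K) :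
    IsOpen {q : (X × ℝ) × ℝ | (q.1.1, q.1.2, q.2) ∈ K} :=
  hK.preimage (f := fun q : (X × ℝ) × ℝ => (q.1.1, q.1.2, q.2)) (by fun_prop)

lemma convex_assoc {K : Set (X × ℝ × ℝ)} (hc : Convex ℝ K) :
    Convex ℝ {q : (X × ℝ) × ℝ | (q.1.1, q.1.2, q.2) ∈ K} := by
  intro p hp q hq a b ha hb hab
  exact hc hp hq ha hb hab

omit [NormedSpace ℝ X] in
lemma isOpen_sig {K : Set (X × ℝ × ℝ)} (hK : IsOpen K) : IsOpen (sig K) :=
  (isOpen_symm _ (isOpen_assoc hK)).preimage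
    (f := fun p : X × ℝ × ℝ => ((p.1, p.2.1), p.2.2)) (by fun_prop)

lemma convex_sig {K : Set (X × ℝ × ℝ)} (hK : IsOpen K) (hc : Convex ℝ K) : Convex ℝ (sig K) := by
  rintro ⟨x, y, s⟩ hp ⟨x', y', s'⟩ hq a b ha hb hab
  have := convex_symm_one (X := X × ℝ) (K := {q : (X × ℝ) × ℝ | (q.1.1, q.1.2, q.2) ∈ K})
    (isOpen_assoc hK) (convex_assoc hc) (mem_sig.1 hp) (mem_sig.1 hq) ha hb hab
  simp only [Prod.smul_mk, Prod.mk_add_mk] at this ⊢
  exact mem_sig.2 this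

omit [NormedSpace ℝ X] in
lemma measurableSet_fiber {K : Set (X × ℝ × ℝ)} (hK : IsOpen K) (x : X) :
    MeasurableSet {q | (x, q) ∈ K} :=
  (hK.preimage (f := fun q : ℝ × ℝ => (x, q)) (by fun_prop)).measurableSet

omit [NormedSpace ℝ X] in
lemma fiber_sig {K : Set (X × ℝ × ℝ)} (hK : IsOpen K) (x : X) :
    g2 {q | (x, q) ∈ sig K} = g2 {q | (x, q) ∈ K} := by
  rw [Measure.prod_apply (measurableSet_fiber (isOpen_sig hK) x),
    Measure.prod_apply (measurableSet_fiber hK x)]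
  congr 1
  funext y
  have := real_symm_fiber (gaussianReal 0 1) {q : (X × ℝ) × ℝ | (q.1.1, q.1.2, q.2) ∈ K} (x, y)
  exact (measureReal_eq_measureReal_iff (measure_ne_top _ _) (measure_ne_top _ _)).1 this

omit [NormedAddCommGroup X] [NormedSpace ℝ X] in
lemma sig_up {K : Set (X × ℝ × ℝ)} {x : X} {y s r : ℝ} (hr : 0 ≤ r) (h : (x, y, s) ∈ sig K) :
    (x, y, s + r) ∈ sig K :=
  lt_of_le_of_lt (strictAnti_Q.antitone (le_add_of_nonneg_right hr)) h

omit [NormedSpace ℝ X] in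
lemma isOpen_rot (c σ : ℝ) {K : Set (X × ℝ × ℝ)} (hK : IsOpen K) : IsOpen (rot c σ K) :=
  hK.preimage (f := fun p : X × ℝ × ℝ => (p.1, c * p.2.1 - σ * p.2.2, σ * p.2.1 + c * p.2.2))
    (by fun_prop)

lemma convex_rot (c σ : ℝ) {K : Set (X × ℝ × ℝ)} (hc : Convex ℝ K) : Convex ℝ (rot c σ K) := by
  intro p hp q hq a b ha hb hab
  have := hc hp hq ha hb hab
  simp only [rot, mem_ofPred_eq, Prod.smul_mk, Prod.mk_add_mk, smul_eq_mul, Prod.fst_add,
    Prod.snd_add, Prod.smul_fst, Prod.smul_snd] at this ⊢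
  convert this using 3 <;> ring

omit [NormedSpace ℝ X] in
lemma fiber_rot {c σ : ℝ} (h : c ^ 2 + σ ^ 2 = 1) {K : Set (X × ℝ × ℝ)} (hK : IsOpen K) (x : X) :
    g2 {q | (x, q) ∈ rot c σ K} = g2 {q | (x, q) ∈ K} :=
  g2_rot h (measurableSet_fiber hK x)

/-- `K` is stable under the cone of slope `m` in the last two coordinates -/
def Rec (m : ℝ) (K : Set (X × ℝ × ℝ)) : Prop :=
  ∀ x y s t r, (x, y, s) ∈ K → 0 ≤ t → |r| ≤ m * t → (x, y + t, s + r) ∈ K

omit [NormedAddCommGroup X] [NormedSpace ℝ X] in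
lemma rec_zero (K : Set (X × ℝ × ℝ)) : Rec 0 (rot 0 1 (sig K)) := by
  intro x y s t r h ht hr
  have hr0 : r = 0 := by simpa using hr
  subst hr0
  have := sig_up ht h
  simpa [rot] using this

lemma sig_shift {m : ℝ} (hm : 0 ≤ m) {K : Set (X × ℝ × ℝ)} (hK : IsOpen K) (hc : Convex ℝ K)
    (hR : Rec m K) {x : X} {y s t : ℝ} (ht : 0 ≤ t) (h : (x, y, s) ∈ sig K) :
    (x, y + t, s - m * t) ∈ sig K := by
  have hmt : 0 ≤ m * t := mul_nonneg hm ht
  rw [mem_sig] at h ⊢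
  refine symm_one_shift (X := X × ℝ) (K := {q : (X × ℝ) × ℝ | (q.1.1, q.1.2, q.2) ∈ K})
    (isOpen_assoc hK) (convex_assoc hc) (x := (x, y)) (x' := (x, y + t)) hmt ?_ ?_ h
  · intro u hu
    exact hR x y u t (m * t) hu ht (by rw [abs_of_nonneg hmt])
  · intro u hu
    have := hR x y u t (-(m * t)) hu ht (by rw [abs_neg, abs_of_nonneg hmt])
    simpa [sub_eq_add_neg] using this

lemma rec_step {m : ℝ} (hm : 0 ≤ m) {K : Set (X × ℝ × ℝ)} (hK : IsOpen K) (hc : Convex ℝ K)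
    (hR : Rec m K) : ∃ c σ : ℝ, c ^ 2 + σ ^ 2 = 1 ∧ Rec (m + 1) (rot c σ (sig K)) := by
  set n : ℝ := √(1 + m ^ 2) with hn
  have hn2 : n ^ 2 = 1 + m ^ 2 := Real.sq_sqrt (by positivity)
  have hn1 : 1 ≤ n := by rw [hn]; exact Real.one_le_sqrt.2 (by nlinarith)
  have hnm : m < n := by nlinarith
  set ρ : ℝ := √(1 + (n - m) ^ 2) with hρ
  have hρ2 : ρ ^ 2 = 1 + (n - m) ^ 2 := Real.sq_sqrt (by positivity)
  have hρ0 : 0 < ρ := Real.sqrt_pos.2 (by positivity)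
  refine ⟨1 / ρ, (n - m) / ρ, by field_simp; linarith, ?_⟩
  intro x y s t r h ht hr
  have hr' : |r| ≤ (m + n) * t := hr.trans (by gcongr)
  obtain ⟨hr1, hr2⟩ := abs_le.1 hr'
  have e : (n - m) * ((m + n) * t) = t := by
    have : (n - m) * (m + n) = 1 := by linarith
    rw [← mul_assoc, this, one_mul]
  have hd : 0 ≤ n - m := by linarith
  have h1 : 0 ≤ (t - (n - m) * r) / ρ := by
    apply div_nonneg _ hρ0.le
    nlinarith [mul_le_mul_of_nonneg_left hr2 hd]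
  have h2 : 0 ≤ n * (t + (n - m) * r) / ρ := by
    apply div_nonneg _ hρ0.le
    apply mul_nonneg (by linarith)
    nlinarith [mul_le_mul_of_nonneg_left hr1 hd]
  have := sig_up h2 (sig_shift hm hK hc hR h1 h)
  simp only [rot, mem_ofPred_eq] at this ⊢
  convert this using 3
  · field_simp; ring
  · field_simp
    linear_combination (-r) * hn2

lemma exists_rec {K : Set (X × ℝ × ℝ)} (hK : IsOpen K) (hc : Convex ℝ K) (N : ℕ) :
    ∃ K' : Set (X × ℝ × ℝ), IsOpen K' ∧ Convex ℝ K' ∧ Rec N K' ∧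
      ∀ x, g2 {q | (x, q) ∈ K'} = g2 {q | (x, q) ∈ K} := by
  induction N with
  | zero =>
    refine ⟨rot 0 1 (sig K), isOpen_rot _ _ (isOpen_sig hK), convex_rot _ _ (convex_sig hK hc),
      by simpa using rec_zero K, fun x => ?_⟩
    rw [fiber_rot (by norm_num) (isOpen_sig hK), fiber_sig hK]
  | succ N ih =>
    obtain ⟨K', h1, h2, h3, h4⟩ := ih
    obtain ⟨c, σ, h5, h6⟩ := rec_step (Nat.cast_nonneg N) h1 h2 h3
    refine ⟨rot c σ (sig K'), isOpen_rot _ _ (isOpen_sig h1), convex_rot _ _ (convex_sig h1 h2),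
      by simpa using h6, fun x => ?_⟩
    rw [fiber_rot h5 (isOpen_sig h1), fiber_sig h1, h4]

end

lemma cone_eventually {h : ℝ → ℝ} {a : ℝ}
    (ha : a < (gaussianReal 0 1).real {y | 0 < h y}) :
    ∀ᶠ N : ℕ in atTop, a < g2.real {q | 0 ≤ h q.1 ∧ |q.2| ≤ N * h q.1} := by
  set S : ℕ → Set (ℝ × ℝ) := fun N => {q | 0 ≤ h q.1 ∧ |q.2| ≤ N * h q.1} with hS
  have hmono : Monotone S := by
    intro N N' hN q hq
    refine ⟨hq.1, hq.2.trans ?_⟩
    exact mul_le_mul_of_nonneg_right (by exact_mod_cast hN) hq.1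
  have h1 := tendsto_measure_iUnion_atTop (μ := g2) hmono
  have h2 : Tendsto (fun N => g2.real (S N)) atTop (𝓝 (g2.real (⋃ N, S N))) :=
    (ENNReal.tendsto_toReal (measure_ne_top _ _)).comp h1
  refine h2.eventually (lt_mem_nhds (ha.trans_le ?_))
  have h3 : (gaussianReal 0 1).real {y | 0 < h y} = g2.real ({y | 0 < h y} ×ˢ univ) := by
    simp [Measure.real, Measure.prod_prod]
  rw [h3]
  apply measureReal_mono _ (measure_ne_top _ _)
  rintro ⟨y, s⟩ ⟨hy, -⟩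
  have hy' : 0 < h y := hy
  obtain ⟨N, hN⟩ := exists_nat_ge (|s| / h y)
  exact mem_iUnion.2 ⟨N, hy'.le, (div_le_iff₀ hy').1 hN⟩

lemma mem_of_rec {X : Type} {K : Set (X × ℝ × ℝ)} {N : ℕ} (hR : Rec N K) {x : X} {c : ℝ}
    (h : 1 - g2.real {q | (x, q) ∈ K} < g2.real {q | 0 ≤ c - q.1 ∧ |q.2| ≤ N * (c - q.1)}) :
    (x, c, 0) ∈ K := by
  by_contra hcon
  have hm : MeasurableSet {q : ℝ × ℝ | 0 ≤ c - q.1 ∧ |q.2| ≤ N * (c - q.1)} := by
    apply IsClosed.measurableSet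
    apply IsClosed.inter
    · exact isClosed_le (f := fun _ : ℝ × ℝ => (0 : ℝ)) (g := fun q => c - q.1) (by fun_prop)
        (by fun_prop)
    · exact isClosed_le (f := fun q : ℝ × ℝ => |q.2|) (g := fun q => N * (c - q.1)) (by fun_prop)
        (by fun_prop)
  have hsub : {q | (x, q) ∈ K} ⊆ {q : ℝ × ℝ | 0 ≤ c - q.1 ∧ |q.2| ≤ N * (c - q.1)}ᶜ := by
    rintro ⟨y, s⟩ hq ⟨h1, h2⟩
    apply hcon
    have := hR x y s (c - y) (-s) hq h1 (by rwa [abs_neg])
    simpa using this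
  have := measureReal_mono (μ := g2) hsub (measure_ne_top _ _)
  rw [probReal_compl_eq_one_sub hm] at this
  linarith

theorem convex_symm_two {X : Type} [NormedAddCommGroup X] [NormedSpace ℝ X]
    {K : Set (X × ℝ × ℝ)} (hK : IsOpen K) (hc : Convex ℝ K) :
    Convex ℝ (symm ((gaussianReal 0 1).prod (gaussianReal 0 1)) K) := by
  rintro ⟨x1, s1⟩ h1 ⟨x2, s2⟩ h2 a b ha hb hab
  have h1' : Q s1 < g2.real {q | (x1, q) ∈ K} := h1
  have h2' : Q s2 < g2.real {q | (x2, q) ∈ K} := h2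
  have hQc := continuous_Q
  have ev : ∀ (s G : ℝ), Q s < G → ∀ᶠ δ in 𝓝[>] (0 : ℝ), Q (s - δ) < G := by
    intro s G hs
    have hcont : Continuous fun δ : ℝ => Q (s - δ) := by fun_prop
    apply nhdsWithin_le_nhds
    apply hcont.continuousAt.eventually_lt continuousAt_const
    simpa using hs
  obtain ⟨δ, ⟨hd1, hd2⟩, hδ⟩ := (((ev _ _ h1').and (ev _ _ h2')).and self_mem_nhdsWithin).exists
  have hδ0 : 0 < δ := hδ
  have ev2 : ∀ (c G : ℝ), Q c < G → ∀ᶠ N : ℕ in atTop,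
      1 - G < g2.real {q | 0 ≤ c - q.1 ∧ |q.2| ≤ N * (c - q.1)} := by
    intro c G hs
    apply cone_eventually (h := fun y => c - y)
    have : {y | 0 < c - y} = Iio c := by ext y; simp
    rw [this, real_Iio, Q_neg]
    linarith
  have ev3 : ∀ᶠ N : ℕ in atTop, Q (a * s1 + b * s2) < g2.real
      {q | 0 ≤ q.1 - (a * s1 + b * s2 - δ) ∧ |q.2| ≤ N * (q.1 - (a * s1 + b * s2 - δ))} := by
    apply cone_eventually (h := fun y => y - (a * s1 + b * s2 - δ))
    have : {y | 0 < y - (a * s1 + b * s2 - δ)} = Ioi (a * s1 + b * s2 - δ) := by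
      ext y; simp only [mem_ofPred_eq, mem_Ioi, sub_pos]
    rw [this, real_Ioi]
    exact strictAnti_Q (by linarith)
  obtain ⟨N, ⟨hN1, hN2⟩, hN3⟩ := (((ev2 _ _ hd1).and (ev2 _ _ hd2)).and ev3).exists
  obtain ⟨K', -, hc', hR, hG⟩ := exists_rec hK hc N
  have hG' : ∀ x, g2.real {q | (x, q) ∈ K'} = g2.real {q | (x, q) ∈ K} := fun x => by
    simp only [Measure.real, hG]
  rw [← hG'] at hN1 hN2
  have m1 := mem_of_rec hR hN1
  have m2 := mem_of_rec hR hN2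
  have m3 := hc' m1 m2 ha hb hab
  simp only [Prod.smul_mk, Prod.mk_add_mk, smul_eq_mul, mul_zero, add_zero] at m3
  have e : a * (s1 - δ) + b * (s2 - δ) = a * s1 + b * s2 - δ := by
    linear_combination (-δ) * hab
  rw [e] at m3
  change Q (a * s1 + b * s2) < g2.real {q | (a • x1 + b • x2, q) ∈ K}
  rw [← hG']
  refine hN3.trans_le (measureReal_mono ?_ (measure_ne_top _ _))
  rintro ⟨y, s⟩ ⟨hq1, hq2⟩
  have := hR _ _ _ _ s m3 hq1 hq2
  simpa using this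

end Vale.Agent.P226
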