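import Vale.Agent.P226.FinalA

/-! The final real-variable contradiction. -/

namespace Vale.Agent.P226

open Finset

lemma sum_compl_three {ι : Type} [Fintype ι] [DecidableEq ι] (g : ι → ℝ) {i1 i2 i3 : ι}
    (h12 : i1 ≠ i2) (h13 : i1 ≠ i3) (h23 : i2 ≠ i3) :
    ∑ i, g i = g i1 + g i2 + g i3 + ∑ j ∈ ({i1, i2, i3} : Finset ι)ᶜ, g j := by
  rw [← Finset.sum_add_sum_compl ({i1, i2, i3} : Finset ι) g,
    Finset.sum_insert (by simp [h12, h13]), Finset.sum_pair h23]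
  ring

lemma sum_compl_four {ι : Type} [Fintype ι] [DecidableEq ι] (g : ι → ℝ) {i1 i2 i3 i4 : ι}
    (h4 : i4 ∈ ({i1, i2, i3} : Finset ι)ᶜ) :
    ∑ j ∈ ({i1, i2, i3} : Finset ι)ᶜ, g j
      = g i4 + ∑ j ∈ ({i1, i2, i3, i4} : Finset ι)ᶜ, g j := by
  rw [← Finset.add_sum_erase _ g h4]
  congr 2
  ext j
  simp only [mem_erase, mem_compl, mem_insert, mem_singleton]
  tauto

lemma mass_sq_bound {ι : Type} (R : Finset ι) {a p Y : ι → ℝ} {zeta : ℝ}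
    (hL : ∀ i, Lines (a i) (p i) (Y i))
    (hz : 2 * ∑ j ∈ R, a j - zeta ≤ (∑ j ∈ R, √(a j)) ^ 2) :
    2 * ∑ j ∈ R, a j - zeta ≤ 2 * (∑ j ∈ R, p j) ^ 2 := by
  have h1 : ∑ j ∈ R, √(a j) ≤ √2 * ∑ j ∈ R, p j := by
    rw [Finset.mul_sum]
    refine Finset.sum_le_sum fun j _ => ?_
    have hp := (hL j).p_pos
    rw [Real.sqrt_le_left (by positivity), mul_pow, Real.sq_sqrt (by norm_num)]
    exact (hL j).b0
  have h0 : 0 ≤ ∑ j ∈ R, √(a j) := Finset.sum_nonneg fun j _ => Real.sqrt_nonneg _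
  have h2 : (∑ j ∈ R, √(a j)) ^ 2 ≤ (√2 * ∑ j ∈ R, p j) ^ 2 := by gcongr
  rw [mul_pow, Real.sq_sqrt (by norm_num)] at h2
  linarith

lemma omega_three {a1 a2 a3 z lo c T0 z0 om : ℝ} (h12 : a2 ≤ a1) (h23 : a3 ≤ a2)
    (hlo : lo ≤ a3) (hD : a1 - a2 ≤ c - (a1 + a2 + a3) / 2) (hT : T0 ≤ a1 + a2 + a3)
    (hz0 : 0 ≤ z) (hz : z ≤ z0) (hzlo : z0 ≤ lo) (hlo0 : 0 ≤ lo) (h3 : 3 * lo ≤ T0)
    (hom : 4 * om ^ 2 ≤ lo * (2 * T0 - 3 * lo) - (c - T0 / 2) ^ 2 - 2 * z0 * (T0 - 2 * lo)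
      - z0 ^ 2) :
    4 * om ^ 2 ≤ a3 * (2 * (a1 + a2) - a3) - (a1 - a2) ^ 2 - 2 * z * (a1 + a2 - a3) - z ^ 2 := by
  set T := a1 + a2 + a3 with hTdef
  have e1 : 2 * (a1 + a2) - a3 = 2 * T - 3 * a3 := by rw [hTdef]; ring
  have e2 : a1 + a2 - a3 = T - 2 * a3 := by rw [hTdef]; ring
  rw [e1, e2]
  have h3T : 3 * a3 ≤ T := by rw [hTdef]; linarith
  have b1 : (a1 - a2) ^ 2 ≤ (c - T0 / 2) ^ 2 := by
    have : 0 ≤ a1 - a2 := by linarith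
    exact pow_le_pow_left₀ this (by linarith) 2
  have b2 : z ^ 2 ≤ z0 ^ 2 := by gcongr
  have b3 : z * (T - 2 * a3) ≤ z0 * (T - 2 * lo) := by
    apply mul_le_mul hz (by linarith) (by linarith) (by linarith)
  have b4 : lo * (2 * T - 3 * lo) ≤ a3 * (2 * T - 3 * a3) := by
    nlinarith [mul_nonneg (sub_nonneg.2 hlo) (show 0 ≤ 2 * T - 3 * a3 - 3 * lo by linarith)]
  nlinarith [mul_nonneg (sub_nonneg.2 hzlo) (sub_nonneg.2 hT)]

lemma omega_four {a2 a3 z : ℝ} (o23 : a3 ≤ a2) (h3 : 0.045 ≤ a3) (hz : z ≤ 0.0025)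
    (hsum2 : 0.196398 ≤ a2 + 2 * a3) : (0.055 : ℝ) ^ 2 ≤ a2 * (a3 - z) - a3 ^ 2 / 4 := by
  have b1 : a2 * (a3 - 0.0025) ≤ a2 * (a3 - z) :=
    mul_le_mul_of_nonneg_left (by linarith) (by linarith)
  rcases le_total a3 0.0654 with h | h
  · have b2 : (0.196398 - 2 * a3) * (a3 - 0.0025) ≤ a2 * (a3 - 0.0025) :=
      mul_le_mul_of_nonneg_right (by linarith) (by linarith)
    nlinarith [mul_nonneg (sub_nonneg.2 h) (sub_nonneg.2 h3)]
  · have b2 : a3 * (a3 - 0.0025) ≤ a2 * (a3 - 0.0025) :=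
      mul_le_mul_of_nonneg_right (by linarith) (by linarith)
    nlinarith

lemma step_one {a1 a2 a3 p1 p2 p3 Y1 Y2 Y3 S r z3 F : ℝ} (hF : 0.358098 < F)
    (L1 : Lines a1 p1 Y1) (L2 : Lines a2 p2 Y2) (L3 : Lines a3 p3 Y3)
    (o12 : a2 ≤ a1) (o23 : a3 ≤ a2) (sa : F = a1 + a2 + a3 + S) (sp : 1 = p1 + p2 + p3 + r)
    (hS0 : 0 < S) (hr0 : 0 ≤ r) (hz3a : 0 ≤ z3) (hz3b : z3 ≤ S) (hm3 : 2 * S - z3 ≤ 2 * r ^ 2)
    (hT3 : ∀ t mu om : ℝ, 0 < t → 0 < om →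
      4 * om ^ 2 ≤ a3 * (2 * (a1 + a2) - a3) - (a1 - a2) ^ 2 - 2 * z3 * (a1 + a2 - a3) - z3 ^ 2 →
      t * r + (mu + 1 / 6) * z3 - KK 3 t mu z3 om < S / 2) : 0.01 < S := by
  have a1le := L1.a_le
  by_contra hS
  push Not at hS
  have hr : 4.12 * S ≤ r := by
    apply abs_le_of_sq_le_sq' _ hr0 |>.2
    nlinarith
  have h3 : 0.055 ≤ a3 := by
    by_contra h; push Not at h
    have := L1.s4; have := L2.s4; have := L3.s4b h.le
    linarith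
  obtain ⟨t, ht, hle⟩ := T3a_scalar hS0 hS hz3a hz3b hr0 hm3
  have := hT3 t (1 / 3) 0.07 ht (by norm_num)
    (omega_three (lo := 0.055) (c := 0.2388) (T0 := 0.348098) (z0 := 0.01) o12 o23 h3
      (by linarith) (by linarith) hz3a (by linarith) (by norm_num) (by norm_num) (by norm_num)
      (by norm_num))
  linarith

lemma step_three {a1 a2 a3 a4 p1 p2 p3 p4 Y1 Y2 Y3 Y4 S' r' z4 F : ℝ} (hF : 0.358098 < F)
    (L1 : Lines a1 p1 Y1) (L2 : Lines a2 p2 Y2) (L3 : Lines a3 p3 Y3) (L4 : Lines a4 p4 Y4)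
    (o23 : a3 ≤ a2) (o34 : a4 ≤ a3) (sa : F = a1 + a2 + a3 + (a4 + S'))
    (sp : 1 = p1 + p2 + p3 + (p4 + r'))
    (hS0 : 0 < S') (hr0 : 0 ≤ r') (hz4a : 0 ≤ z4) (hz4b : z4 ≤ S')
    (hm4 : 2 * S' - z4 ≤ 2 * r' ^ 2) (hc0 : S' ≤ 0.0025 → 15 * S' ≤ r')
    (hT4 : z4 ≤ a3 → ∀ t mu om : ℝ, 0 < t → 0 < om → om ^ 2 ≤ a2 * (a3 - z4) - a3 ^ 2 / 4 →
      t * r' + (mu + 1 / 8) * z4 - KK 4 t mu z4 om < S' / 2) : 0.0025 < S' := by
  have a1le := L1.a_le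
  by_contra hS
  push Not at hS
  have hr := hc0 hS
  have h3 : 0.045 ≤ a3 := by
    by_contra h; push Not at h
    have := L1.s4; have := L2.s4; have := L3.s4a h.le; have := L4.s4a (by linarith)
    linarith
  obtain ⟨t, ht, hle⟩ := T4_scalar hS0 hS hz4a hz4b hr0 hm4
  have := hT4 (by linarith) t (3 / 8) 0.055 ht (by norm_num)
    (omega_four o23 h3 (by linarith) (by linarith))
  linarith

lemma step_five {a1 a2 a3 a4 p1 p2 p3 p4 Y1 Y2 Y3 Y4 S r S' r' z3 F : ℝ} (hF : 0.358098 < F)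
    (L1 : Lines a1 p1 Y1) (L2 : Lines a2 p2 Y2) (L3 : Lines a3 p3 Y3) (L4 : Lines a4 p4 Y4)
    (o12 : a2 ≤ a1) (o23 : a3 ≤ a2) (o34 : a4 ≤ a3) (sa : F = a1 + a2 + a3 + S)
    (sp : 1 = p1 + p2 + p3 + r) (sa' : S = a4 + S') (sp' : r = p4 + r')
    (step1 : 0.01 < S) (hz3a : 0 ≤ z3) (hz3b : z3 ≤ S)
    (hc0 : a4 ≤ 0.0025 → 15 * S ≤ r)
    (hj : 0.0332 + 1.7 * S' ≤ r') (hc : a4 ≤ 0.022 → 0.02745 + 4 * S' ≤ r')
    (hs : a4 ≤ 0.045 → 0.0305 + 2.76 * S' ≤ r') (hi : a4 ≤ 0.045 → 0.0334 + 1.62 * S' ≤ r')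
    (hT3 : ∀ t mu om : ℝ, 0 < t → 0 < om →
      4 * om ^ 2 ≤ a3 * (2 * (a1 + a2) - a3) - (a1 - a2) ^ 2 - 2 * z3 * (a1 + a2 - a3) - z3 ^ 2 →
      t * r + (mu + 1 / 6) * z3 - KK 3 t mu z3 om < S / 2) : False := by
  rcases le_or_gt 0.045 a4 with h45 | h45
  · have := L1.j0 (by linarith); have := L2.j0 (by linarith); have := L3.j0 (by linarith)
    have := L4.j0 h45
    linarith
  have hlow : a4 ≤ 0.022 → 0.0549 + 4 * S ≤ r := by
    intro h22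
    rcases le_total a4 0.0025 with h | h
    · have := hc0 h; linarith
    · have := hc h22
      have := L4.c1 h h22
      linarith
  have h3 : 0.075 ≤ a3 := by
    by_contra h; push Not at h
    have := L1.s2; have := L2.s2
    rcases le_total a4 0.0025 with h25 | h25
    · have := hc0 h25; have := L3.s2b h.le; linarith
    have := L3.s2a (by linarith) h.le
    rcases le_total a4 0.022 with h22 | h22
    · have := hlow h22; linarith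
    · have := hs h45.le
      have := L4.s2c h22 h45.le
      linarith
  have := L1.i0 (by linarith); have := L2.i0 (by linarith); have := L3.i0 h3
  rcases le_total a4 0.022 with h22 | h22
  · have hr := hlow h22
    have hS : S ≤ 0.022 := by linarith
    have h1 : a1 ≤ 0.142 := by
      by_contra h; push Not at h
      have := L1.s4
      linarith
    have hle := T3b_scalar hS hz3a hz3b hr
    have := hT3 0.12 0 0.075 (by norm_num) (by norm_num)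
      (omega_three (lo := 0.075) (c := 0.213) (T0 := 0.336098) (z0 := 0.022) o12 o23 h3
        (by linarith) (by linarith) hz3a (by linarith) (by norm_num) (by norm_num) (by norm_num)
        (by norm_num))
    linarith
  · have := hi h45.le
    have := L4.i1 h22 h45.le
    linarith

theorem final_contra {ι : Type} [Fintype ι] [DecidableEq ι] (hk : 4 ≤ Fintype.card ι)
    {a p Y : ι → ℝ} {F : ℝ} (hF : MM < F) (hsum : ∑ i, a i = F) (hp : ∑ i, p i = 1)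
    (hL : ∀ i, Lines (a i) (p i) (Y i)) (hpos : ∀ i, 0 < a i)
    (zeta : Finset ι → ℝ) (hz0 : ∀ R, 0 ≤ zeta R) (hz1 : ∀ R, zeta R ≤ ∑ j ∈ R, a j)
    (hz2 : ∀ R, 2 * ∑ j ∈ R, a j - zeta R ≤ (∑ j ∈ R, √(a j)) ^ 2)
    (hT3 : ∀ i1 i2 i3, i1 ≠ i2 → i1 ≠ i3 → i2 ≠ i3 → a i3 ≤ a i1 → a i3 ≤ a i2 →
      ∀ t mu om : ℝ, 0 < t → 0 < om →
      4 * om ^ 2 ≤ a i3 * (2 * (a i1 + a i2) - a i3) - (a i1 - a i2) ^ 2
        - 2 * zeta {i1, i2, i3}ᶜ * (a i1 + a i2 - a i3) - (zeta {i1, i2, i3}ᶜ) ^ 2 →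
      t * ∑ j ∈ ({i1, i2, i3} : Finset ι)ᶜ, p j + (mu + 1 / 6) * zeta {i1, i2, i3}ᶜ
        - KK 3 t mu (zeta {i1, i2, i3}ᶜ) om < (∑ j ∈ ({i1, i2, i3} : Finset ι)ᶜ, a j) / 2)
    (hT4 : 5 ≤ Fintype.card ι → ∀ i1 i2 i3 i4, i1 ≠ i2 → i1 ≠ i3 → i1 ≠ i4 → i2 ≠ i3 → i2 ≠ i4 →
      i3 ≠ i4 → a i2 ≤ a i1 → a i3 ≤ a i2 → zeta {i1, i2, i3, i4}ᶜ ≤ a i3 →
      ∀ t mu om : ℝ, 0 < t → 0 < om →
      om ^ 2 ≤ a i2 * (a i3 - zeta {i1, i2, i3, i4}ᶜ) - (a i3) ^ 2 / 4 →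
      t * ∑ j ∈ ({i1, i2, i3, i4} : Finset ι)ᶜ, p j + (mu + 1 / 8) * zeta {i1, i2, i3, i4}ᶜ
        - KK 4 t mu (zeta {i1, i2, i3, i4}ᶜ) om
        < (∑ j ∈ ({i1, i2, i3, i4} : Finset ι)ᶜ, a j) / 2)
    (hQ4 : Fintype.card ι = 4 → ∃ f : ι → ℝ, (∀ i, F - f i ≤ 4 / 3 * Y i) ∧
      9 / 4 * ∑ i, (f i) ^ 2 - 3 / 8 * (∑ i, f i) ^ 2 ≤ 2 * F * MM) : False := by
  have hM0 := MM_gt
  have hne : ∀ s : Finset ι, s.card < Fintype.card ι → (sᶜ).Nonempty := by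
    intro s hs
    rw [← Finset.card_pos, Finset.card_compl]; omega
  obtain ⟨i1, -, m1⟩ := Finset.exists_max_image (∅ : Finset ι)ᶜ a (hne _ (by simp; omega))
  obtain ⟨i2, n2, m2⟩ := Finset.exists_max_image ({i1} : Finset ι)ᶜ a (hne _ (by simp; omega))
  obtain ⟨i3, n3, m3⟩ := Finset.exists_max_image ({i1, i2} : Finset ι)ᶜ a
    (hne _ (lt_of_le_of_lt Finset.card_le_two (by omega)))
  obtain ⟨i4, n4, m4⟩ := Finset.exists_max_image ({i1, i2, i3} : Finset ι)ᶜ a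
    (hne _ (lt_of_le_of_lt Finset.card_le_three (by omega)))
  have h12 : i1 ≠ i2 := by simp at n2; tauto
  have h13 : i1 ≠ i3 := by simp at n3; tauto
  have h23 : i2 ≠ i3 := by simp at n3; tauto
  have h14 : i1 ≠ i4 := by simp at n4; tauto
  have h24 : i2 ≠ i4 := by simp at n4; tauto
  have h34 : i3 ≠ i4 := by simp at n4; tauto
  have o12 : a i2 ≤ a i1 := m1 _ (by simp)
  have o23 : a i3 ≤ a i2 := m2 _ (by simp; tauto)
  have o34 : a i4 ≤ a i3 := m3 _ (by simp; tauto)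
  have hR' : ∀ j ∈ ({i1, i2, i3, i4} : Finset ι)ᶜ, a j ≤ a i4 := fun j hj =>
    m4 j (by simp at hj ⊢; tauto)
  have sa := sum_compl_three a h12 h13 h23
  have sp := sum_compl_three p h12 h13 h23
  have sa' := sum_compl_four a n4
  have sp' := sum_compl_four p n4
  rw [hsum] at sa
  rw [hp] at sp
  have hT3' := hT3 i1 i2 i3 h12 h13 h23 (o23.trans o12) o23
  have hm3 := mass_sq_bound ({i1, i2, i3} : Finset ι)ᶜ hL (hz2 _)
  have hm4 := mass_sq_bound ({i1, i2, i3, i4} : Finset ι)ᶜ hL (hz2 _)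
  have hz3a := hz0 ({i1, i2, i3} : Finset ι)ᶜ
  have hz3b := hz1 ({i1, i2, i3} : Finset ι)ᶜ
  have hz4a := hz0 ({i1, i2, i3, i4} : Finset ι)ᶜ
  have hz4b := hz1 ({i1, i2, i3, i4} : Finset ι)ᶜ
  have hS'0 : 0 ≤ ∑ j ∈ ({i1, i2, i3, i4} : Finset ι)ᶜ, a j :=
    Finset.sum_nonneg fun j _ => (hpos j).le
  have hr'0 : 0 ≤ ∑ j ∈ ({i1, i2, i3, i4} : Finset ι)ᶜ, p j :=
    Finset.sum_nonneg fun j _ => (hL j).p_pos.le
  have hc0 : a i4 ≤ 0.0025 → 15 * ∑ j ∈ ({i1, i2, i3} : Finset ι)ᶜ, a j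
      ≤ ∑ j ∈ ({i1, i2, i3} : Finset ι)ᶜ, p j := by
    intro h
    rw [Finset.mul_sum]
    exact Finset.sum_le_sum fun j hj => (hL j).c0 ((m4 j hj).trans h)
  have hsl : ∀ c δ : ℝ, 0 ≤ δ → δ / 0.0025 + c ≤ 15 →
      (∀ j ∈ ({i1, i2, i3, i4} : Finset ι)ᶜ, 0.0025 ≤ a j → δ + c * a j ≤ p j) →
      0.0025 ≤ ∑ j ∈ ({i1, i2, i3, i4} : Finset ι)ᶜ, a j →
      δ + c * ∑ j ∈ ({i1, i2, i3, i4} : Finset ι)ᶜ, a j
        ≤ ∑ j ∈ ({i1, i2, i3, i4} : Finset ι)ᶜ, p j := by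
    intro c δ hδ hc h2 hs
    refine sum_lines _ (by norm_num) hδ (fun j _ => (hpos j).le) (fun j _ hj => ?_) h2 hs
    have := (hL j).c0 hj
    have := mul_le_mul_of_nonneg_right hc (hpos j).le
    linarith
  have hS'le : ∀ j ∈ ({i1, i2, i3, i4} : Finset ι)ᶜ,
      a j ≤ ∑ j ∈ ({i1, i2, i3, i4} : Finset ι)ᶜ, a j := fun j hj =>
    Finset.single_le_sum (fun j _ => (hpos j).le) hj
  have hS'pos : 5 ≤ Fintype.card ι → 0 < ∑ j ∈ ({i1, i2, i3, i4} : Finset ι)ᶜ, a j := by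
    intro h5
    obtain ⟨j, hj⟩ := hne {i1, i2, i3, i4} (lt_of_le_of_lt Finset.card_le_four (by omega))
    exact (hpos j).trans_le (hS'le j hj)
  have hS'zero : Fintype.card ι = 4 → ({i1, i2, i3, i4} : Finset ι)ᶜ = ∅ := by
    intro h4
    rw [← Finset.card_eq_zero, Finset.card_compl, Finset.card_insert_of_notMem (by simp; tauto),
      Finset.card_insert_of_notMem (by simp; tauto), Finset.card_pair h34, h4]
  have hc0' : ∑ j ∈ ({i1, i2, i3, i4} : Finset ι)ᶜ, a j ≤ 0.0025 →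
      15 * ∑ j ∈ ({i1, i2, i3, i4} : Finset ι)ᶜ, a j
        ≤ ∑ j ∈ ({i1, i2, i3, i4} : Finset ι)ᶜ, p j := by
    intro h
    rw [Finset.mul_sum]
    exact Finset.sum_le_sum fun j hj => (hL j).c0 ((hS'le j hj).trans h)
  have hall : Fintype.card ι = 4 → ∀ i, a i4 ≤ a i := by
    intro h4 i
    have : i ∉ ({i1, i2, i3, i4} : Finset ι)ᶜ := by rw [hS'zero h4]; simp
    simp only [mem_compl, mem_insert, mem_singleton, not_not] at this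
    rcases this with rfl | rfl | rfl | rfl <;> linarith
  have hF' : 0.358098 < F := hM0.trans hF
  have p4 := (hL i4).p_pos
  have a4 := hpos i4
  have step1 := step_one hF' (hL i1) (hL i2) (hL i3) o12 o23 sa sp (by linarith) (by linarith)
    hz3a hz3b hm3 hT3'
  rcases eq_or_lt_of_le hk with h4 | h5
  · obtain ⟨f, hf, hQ⟩ := hQ4 h4.symm
    have hS'z : ∑ j ∈ ({i1, i2, i3, i4} : Finset ι)ᶜ, a j = 0 := by
      rw [hS'zero h4.symm]; simp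
    exact q4_contra h4.symm hF hp hL (fun i => by have := hall h4.symm i; linarith) hf hQ
  have h5' : 5 ≤ Fintype.card ι := h5
  have step3 := step_three hF' (hL i1) (hL i2) (hL i3) (hL i4) o23 o34 (sa' ▸ sa) (sp' ▸ sp)
    (hS'pos h5') hr'0 hz4a hz4b hm4 hc0'
    (hT4 h5' i1 i2 i3 i4 h12 h13 h14 h23 h24 h34 o12 o23)
  refine step_five hF' (hL i1) (hL i2) (hL i3) (hL i4) o12 o23 o34 sa sp sa' sp' step1 hz3a hz3b
    hc0 ?_ (fun h => ?_) (fun h => ?_) (fun h => ?_) hT3'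
  · exact hsl 1.7 0.0332 (by norm_num) (by norm_num) (fun j _ hj => (hL j).j1 hj) step3.le
  · exact hsl 4 0.02745 (by norm_num) (by norm_num)
      (fun j hj hj' => (hL j).c1 hj' ((hR' j hj).trans h)) step3.le
  · exact hsl 2.76 0.0305 (by norm_num) (by norm_num)
      (fun j hj hj' => (hL j).s2d hj' ((hR' j hj).trans h)) step3.le
  · exact hsl 1.62 0.0334 (by norm_num) (by norm_num)
      (fun j hj hj' => (hL j).i2 hj' ((hR' j hj).trans h)) step3.le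

end Vale.Agent.P226
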