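import Vale.Agent.P226.Basic

/-! Scalar lemmas for the final real-variable contradiction. -/

namespace Vale.Agent.P226

open Finset

lemma exists_fourth_root {S : ℝ} (hS0 : 0 < S) : ∃ σ : ℝ, 0 < σ ∧ σ ^ 4 = S := by
  refine ⟨√(√S), Real.sqrt_pos.2 (Real.sqrt_pos.2 hS0), ?_⟩
  have h1 : √(√S) ^ 2 = √S := Real.sq_sqrt (Real.sqrt_nonneg _)
  have h2 : √S ^ 2 = S := Real.sq_sqrt hS0.le
  calc √(√S) ^ 4 = (√(√S) ^ 2) ^ 2 := by ring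
    _ = S := by rw [h1, h2]

lemma r_lower {σ θ r : ℝ} (hσ : 0 < σ) (h0 : 0 ≤ θ) (h1 : θ ≤ 1) (hr0 : 0 ≤ r)
    (hr : 2 * σ ^ 4 - θ * σ ^ 4 ≤ 2 * r ^ 2) : σ ^ 2 * (1 - 0.293 * θ) ≤ r := by
  apply abs_le_of_sq_le_sq' _ hr0 |>.2
  have h4 : 0 < σ ^ 4 := by positivity
  have hθ : (1 - 0.293 * θ) ^ 2 ≤ 1 - θ / 2 := by nlinarith
  calc (σ ^ 2 * (1 - 0.293 * θ)) ^ 2 = σ ^ 4 * (1 - 0.293 * θ) ^ 2 := by ring
    _ ≤ σ ^ 4 * (1 - θ / 2) := by gcongr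
    _ ≤ r ^ 2 := by nlinarith

/-- three large cells, very small remainder (take `t = 0.21 * S^(1/4)`) -/
lemma T3a_scalar {S zeta r : ℝ} (hS0 : 0 < S) (hS : S ≤ 0.01) (hz0 : 0 ≤ zeta) (hz : zeta ≤ S)
    (hr0 : 0 ≤ r) (hr : 2 * S - zeta ≤ 2 * r ^ 2) :
    ∃ t, 0 < t ∧ S / 2 ≤ t * r + (1 / 3 + 1 / 6) * zeta - KK 3 t (1 / 3) zeta 0.07 := by
  obtain ⟨σ, hσ, hσ4⟩ := exists_fourth_root hS0
  obtain ⟨θ, hθ⟩ : ∃ θ, zeta = θ * σ ^ 4 := ⟨zeta / S, by rw [hσ4]; field_simp⟩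
  have h4 : 0 < σ ^ 4 := by positivity
  have hθ0 : 0 ≤ θ := by
    by_contra h; push Not at h; nlinarith
  have hθ1 : θ ≤ 1 := by
    by_contra h; push Not at h; nlinarith
  have hσ2 : σ ^ 2 ≤ 0.1 := by
    apply abs_le_of_sq_le_sq' _ (by norm_num) |>.2
    nlinarith
  have hσ1 : σ ≤ 0.3163 := by
    apply abs_le_of_sq_le_sq' _ (by norm_num) |>.2
    nlinarith
  have hrl := r_lower hσ hθ0 hθ1 hr0 (by rw [hσ4]; nlinarith)
  refine ⟨0.21 * σ, by positivity, ?_⟩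
  have hpi : (3.1415 : ℝ) < Real.pi := Real.pi_gt_d4
  have h3 : 0 < σ ^ 3 := by positivity
  have hK : KK 3 (0.21 * σ) (1 / 3) zeta 0.07 ≤ σ ^ 3 * (0.031586 + 0.105647 * θ) := by
    unfold KK
    rw [div_le_iff₀ (by positivity), hθ]
    have e1 : (3 * (0.21 * σ)) ^ 3 + 3 * (3 * (0.21 * σ)) * ((1 + 3 * (1 / 3)) ^ 2 * (θ * σ ^ 4))
        + 81 / 256 * ((1 + 3 * (1 / 3)) ^ 2 * (θ * σ ^ 4)) ^ 2 / (3 * (0.21 * σ))
        = σ ^ 3 * (0.250047 + 7.56 * (θ * σ ^ 2) + 225 / 28 * (θ * σ ^ 2) ^ 2) := by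
      field_simp; ring
    rw [e1]
    have a1 : θ * σ ^ 2 ≤ 0.1 * θ := by nlinarith
    have a0 : 0 ≤ θ * σ ^ 2 := by positivity
    have a2 : (θ * σ ^ 2) ^ 2 ≤ 0.01 * θ := by nlinarith
    have a3 : 0.250047 + 7.56 * (θ * σ ^ 2) + 225 / 28 * (θ * σ ^ 2) ^ 2
        ≤ (0.031586 + 0.105647 * θ) * (12 * 3 * Real.pi * 0.07) := by nlinarith
    calc _ ≤ σ ^ 3 * ((0.031586 + 0.105647 * θ) * (12 * 3 * Real.pi * 0.07)) := by gcongr
      _ = _ := by ring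
  have b1 : 0.21 * σ ^ 3 * (1 - 0.293 * θ) ≤ 0.21 * σ * r := by
    have := mul_le_mul_of_nonneg_left hrl (show 0 ≤ 0.21 * σ by positivity)
    nlinarith
  have b2 : σ * (1 - θ) / 2 ≤ 0.21 * (1 - 0.293 * θ) - (0.031586 + 0.105647 * θ) := by nlinarith
  have b3 := mul_le_mul_of_nonneg_left b2 h3.le
  rw [hθ, ← hσ4] at *
  nlinarith

/-- four large cells, very small remainder (take `t = 0.14 * S^(1/4)`) -/
lemma T4_scalar {S zeta r : ℝ} (hS0 : 0 < S) (hS : S ≤ 0.0025) (hz0 : 0 ≤ zeta) (hz : zeta ≤ S)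
    (hr0 : 0 ≤ r) (hr : 2 * S - zeta ≤ 2 * r ^ 2) :
    ∃ t, 0 < t ∧ S / 2 ≤ t * r + (3 / 8 + 1 / 8) * zeta - KK 4 t (3 / 8) zeta 0.055 := by
  obtain ⟨σ, hσ, hσ4⟩ := exists_fourth_root hS0
  obtain ⟨θ, hθ⟩ : ∃ θ, zeta = θ * σ ^ 4 := ⟨zeta / S, by rw [hσ4]; field_simp⟩
  have h4 : 0 < σ ^ 4 := by positivity
  have hθ0 : 0 ≤ θ := by
    by_contra h; push Not at h; nlinarith
  have hθ1 : θ ≤ 1 := by
    by_contra h; push Not at h; nlinarith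
  have hσ2 : σ ^ 2 ≤ 0.05 := by
    apply abs_le_of_sq_le_sq' _ (by norm_num) |>.2
    nlinarith
  have hσ1 : σ ≤ 0.2237 := by
    apply abs_le_of_sq_le_sq' _ (by norm_num) |>.2
    nlinarith
  have hrl := r_lower hσ hθ0 hθ1 hr0 (by rw [hσ4]; nlinarith)
  refine ⟨0.14 * σ, by positivity, ?_⟩
  have hpi : (3.1415 : ℝ) < Real.pi := Real.pi_gt_d4
  have h3 : 0 < σ ^ 3 := by positivity
  have hK : KK 4 (0.14 * σ) (3 / 8) zeta 0.055 ≤ σ ^ 3 * (0.021176 + 0.069956 * θ) := by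
    unfold KK
    rw [div_le_iff₀ (by positivity), hθ]
    have e1 : (4 * (0.14 * σ)) ^ 3 + 3 * (4 * (0.14 * σ)) * ((1 + 4 * (3 / 8)) ^ 2 * (θ * σ ^ 4))
        + 81 / 256 * ((1 + 4 * (3 / 8)) ^ 2 * (θ * σ ^ 4)) ^ 2 / (4 * (0.14 * σ))
        = σ ^ 3 * (0.175616 + 10.5 * (θ * σ ^ 2) + 1265625 / 57344 * (θ * σ ^ 2) ^ 2) := by
      field_simp; ring
    rw [e1]
    have a1 : θ * σ ^ 2 ≤ 0.05 * θ := by nlinarith
    have a0 : 0 ≤ θ * σ ^ 2 := by positivity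
    have a2 : (θ * σ ^ 2) ^ 2 ≤ 0.0025 * θ := by nlinarith
    have a3 : 0.175616 + 10.5 * (θ * σ ^ 2) + 1265625 / 57344 * (θ * σ ^ 2) ^ 2
        ≤ (0.021176 + 0.069956 * θ) * (12 * 4 * Real.pi * 0.055) := by nlinarith
    calc _ ≤ σ ^ 3 * ((0.021176 + 0.069956 * θ) * (12 * 4 * Real.pi * 0.055)) := by gcongr
      _ = _ := by ring
  have b1 : 0.14 * σ ^ 3 * (1 - 0.293 * θ) ≤ 0.14 * σ * r := by
    have := mul_le_mul_of_nonneg_left hrl (show 0 ≤ 0.14 * σ by positivity)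
    nlinarith
  have b2 : σ * (1 - θ) / 2 ≤ 0.14 * (1 - 0.293 * θ) - (0.021176 + 0.069956 * θ) := by nlinarith
  have b3 := mul_le_mul_of_nonneg_left b2 h3.le
  rw [hθ, ← hσ4] at *
  nlinarith

lemma T3b_scalar {S zeta r : ℝ} (hS : S ≤ 0.022) (hz0 : 0 ≤ zeta) (hz : zeta ≤ S)
    (hr : 0.0549 + 4 * S ≤ r) :
    S / 2 ≤ 0.12 * r + (0 + 1 / 6) * zeta - KK 3 0.12 0 zeta 0.075 := by
  have hpi : (3.1415 : ℝ) < Real.pi := Real.pi_gt_d4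
  have hK : KK 3 0.12 0 zeta 0.075 ≤ 0.005501 + 0.13 * zeta := by
    unfold KK
    rw [div_le_iff₀ (by positivity)]
    have a2 : zeta ^ 2 ≤ 0.022 * zeta := by nlinarith
    have e1 : ((3 : ℝ) * 0.12) ^ 3 + 3 * (3 * 0.12) * ((1 + 3 * 0) ^ 2 * zeta)
        + 81 / 256 * ((1 + 3 * 0) ^ 2 * zeta) ^ 2 / (3 * 0.12)
        = 0.046656 + 1.08 * zeta + 225 / 256 * zeta ^ 2 := by ring
    rw [e1]
    nlinarith
  nlinarith

lemma sum_lines {ι : Type} (s : Finset ι) {a p : ι → ℝ} {c δ y : ℝ} (hy : 0 < y) (hδ : 0 ≤ δ)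
    (ha : ∀ j ∈ s, 0 ≤ a j) (h1 : ∀ j ∈ s, a j ≤ y → δ / y * a j + c * a j ≤ p j)
    (h2 : ∀ j ∈ s, y ≤ a j → δ + c * a j ≤ p j) (hs : y ≤ ∑ j ∈ s, a j) :
    δ + c * ∑ j ∈ s, a j ≤ ∑ j ∈ s, p j := by
  classical
  have hdy : 0 ≤ δ / y := div_nonneg hδ hy.le
  have h0 : ∀ j ∈ s, c * a j ≤ p j := by
    intro j hj
    rcases le_total (a j) y with h | h
    · have := h1 j hj h
      have := mul_nonneg hdy (ha j hj)
      linarith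
    · have := h2 j hj h
      linarith
  by_cases hex : ∃ j ∈ s, y ≤ a j
  · obtain ⟨j, hj, hjy⟩ := hex
    rw [← Finset.add_sum_erase s a hj, ← Finset.add_sum_erase s p hj]
    have : c * ∑ x ∈ s.erase j, a x ≤ ∑ x ∈ s.erase j, p x := by
      rw [Finset.mul_sum]
      exact Finset.sum_le_sum fun i hi => h0 i (Finset.mem_of_mem_erase hi)
    have := h2 j hj hjy
    linarith
  · push Not at hex
    have : (δ / y + c) * ∑ j ∈ s, a j ≤ ∑ j ∈ s, p j := by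
      rw [Finset.mul_sum]
      refine Finset.sum_le_sum fun i hi => ?_
      have := h1 i hi (hex i hi).le
      linarith
    have h3 : δ ≤ δ / y * ∑ j ∈ s, a j := by
      calc δ = δ / y * y := by field_simp
        _ ≤ _ := by gcongr
    linarith

/-- four cells, all of them not tiny -/
lemma q4_contra {ι : Type} [Fintype ι] (hk : Fintype.card ι = 4) {a p Y f : ι → ℝ} {F : ℝ}
    (hF : MM < F) (hp : ∑ i, p i = 1) (hL : ∀ i, Lines (a i) (p i) (Y i))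
    (ha : ∀ i, 0.01 ≤ a i) (hf : ∀ i, F - f i ≤ 4 / 3 * Y i)
    (hQ : 9 / 4 * ∑ i, (f i) ^ 2 - 3 / 8 * (∑ i, f i) ^ 2 ≤ 2 * F * MM) : False := by
  have hM0 := MM_gt
  have hM1 := MM_lt
  have hFpos : 0 < F := by linarith
  obtain ⟨θ, hθ0, hθ⟩ : ∃ θ : ℝ, 0 < θ ∧ θ ^ 2 * F = MM := by
    refine ⟨√(MM / F), Real.sqrt_pos.2 (by positivity), ?_⟩
    rw [Real.sq_sqrt (by positivity)]; field_simp
  have hθ1 : θ ≤ 1 := by
    by_contra h; push Not at h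
    have : 1 < θ ^ 2 := by nlinarith
    nlinarith
  have hθF : MM ≤ θ * F := by nlinarith
  set g : ι → ℝ := fun i => θ * f i with hg
  have hp0 : ∀ i, 0.0768 ≤ p i := fun i => (hL i).q0 (ha i)
  have hg1 : ∀ i, 0.358098 - 4 / 3 * Y i ≤ g i := by
    intro i
    have := hf i
    have hY := (hL i).Y_nonneg
    have h1 : θ * (F - 4 / 3 * Y i) ≤ θ * f i := by gcongr; linarith
    have h2 : θ * Y i ≤ Y i := by nlinarith
    simp only [hg]; nlinarith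
  have hsq : ∑ i, (g i) ^ 2 = θ ^ 2 * ∑ i, (f i) ^ 2 := by
    rw [Finset.mul_sum]; exact Finset.sum_congr rfl fun i _ => by simp only [hg]; ring
  have hs : ∑ i, g i = θ * ∑ i, f i := by rw [Finset.mul_sum]
  have hQ' : 9 / 4 * ∑ i, (g i) ^ 2 - 3 / 8 * (∑ i, g i) ^ 2 ≤ 2 * MM ^ 2 := by
    rw [hsq, hs]
    have := mul_le_mul_of_nonneg_left hQ (sq_nonneg θ)
    nlinarith
  have hcs : (∑ i, g i) ^ 2 ≤ 4 * ∑ i, (g i) ^ 2 := by
    have := sq_sum_le_card_mul_sum_sq (s := Finset.univ) (f := g)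
    simpa [hk] using this
  have hs2 : ∑ i, g i ≤ 1.17 := by
    apply abs_le_of_sq_le_sq' _ (by norm_num) |>.2
    nlinarith
  have hs1 : 1.069 ≤ ∑ i, g i := by
    have h1 : ∑ i, (0.358098 - 4 / 3 * (-0.02296 + 0.3643 * p i)) ≤ ∑ i, g i := by
      refine Finset.sum_le_sum fun i _ => ?_
      have := (hL i).q1 (hp0 i)
      have := hg1 i
      linarith
    have h2 : ∑ i, (0.358098 - 4 / 3 * (-0.02296 + 0.3643 * p i))
        = 4 * (0.358098 + 4 / 3 * 0.02296) - 4 / 3 * 0.3643 * ∑ i, p i := by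
      rw [Finset.mul_sum, Finset.sum_congr rfl
        (g := fun i => (0.358098 + 4 / 3 * 0.02296) - 4 / 3 * 0.3643 * p i) (fun i _ => by ring),
        Finset.sum_sub_distrib]
      simp [hk]; ring
    rw [h2, hp] at h1
    linarith
  have hq : ∑ i, (-0.0016 - 0.205 * p i) ≤ ∑ i, (9 / 4 * (g i) ^ 2 - 0.839625 * g i) :=
    Finset.sum_le_sum fun i _ => (hL i).q2 (hp0 i) _ (hg1 i)
  have e1 : ∑ i, (-0.0016 - 0.205 * p i) = -0.0064 - 0.205 := by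
    rw [Finset.sum_sub_distrib, ← Finset.mul_sum, hp]
    simp [hk]; norm_num
  have e2 : ∑ i, (9 / 4 * (g i) ^ 2 - 0.839625 * g i)
      = 9 / 4 * ∑ i, (g i) ^ 2 - 0.839625 * ∑ i, g i := by
    rw [Finset.sum_sub_distrib, ← Finset.mul_sum, ← Finset.mul_sum]
  rw [e1, e2] at hq
  nlinarith [mul_nonneg (sub_nonneg.2 hs1) (sub_nonneg.2 hs2)]

end Vale.Agent.P226
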