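import Vale.Agent.P226.Space

/-! Basic properties of the expected maximum. -/

namespace Vale.Agent.P226

open MeasureTheory ProbabilityTheory Set
open scoped RealInnerProductSpace

variable {E : Type} [NormedAddCommGroup E] [InnerProductSpace ℝ E]
variable {ι κ : Type} [Fintype ι] [Nonempty ι] [Fintype κ] [Nonempty κ]

omit [Nonempty ι] in
lemma le_gmax (z : ι → E) (x : E) (i : ι) : ⟪z i, x⟫ ≤ gmax z x :=
  le_ciSup (f := fun i => ⟪z i, x⟫) (Set.finite_range _).bddAbove i

lemma exists_gmax_eq (z : ι → E) (x : E) : ∃ i, gmax z x = ⟪z i, x⟫ := by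
  obtain ⟨i, hi⟩ := exists_eq_ciSup_of_finite (f := fun i => ⟪z i, x⟫)
  exact ⟨i, hi.symm⟩

omit [Fintype ι] in
lemma gmax_le {z : ι → E} {x : E} {c : ℝ} (h : ∀ i, ⟪z i, x⟫ ≤ c) : gmax z x ≤ c := ciSup_le h

lemma gmax_eq_of_mem_cell {z : ι → E} {x : E} {i : ι} (h : x ∈ cell z i) :
    gmax z x = ⟪z i, x⟫ := by
  refine le_antisymm (gmax_le fun j => ?_) (le_gmax z x i)
  by_cases hj : j = i
  · rw [hj]
  · exact (h j hj).le

lemma gmax_le_add (z w : ι → E) (x : E) : gmax z x ≤ gmax w x + dist z w * ‖x‖ := by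
  refine gmax_le fun i => ?_
  have h1 : ⟪z i - w i, x⟫ ≤ ‖z i - w i‖ * ‖x‖ := real_inner_le_norm _ _
  have h2 : ‖z i - w i‖ ≤ dist z w := by
    rw [← dist_eq_norm]; exact dist_le_pi_dist z w i
  have h3 := le_gmax w x i
  rw [inner_sub_left] at h1
  nlinarith [norm_nonneg x, mul_le_mul_of_nonneg_right h2 (norm_nonneg x)]

lemma continuous_gmax (z : ι → E) : Continuous (gmax z) := by
  refine (LipschitzWith.of_le_add_mul' (f := gmax z) ‖z‖ fun x y => ?_).continuous
  refine gmax_le fun i => ?_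
  have h1 : ⟪z i, x - y⟫ ≤ ‖z i‖ * ‖x - y‖ := real_inner_le_norm _ _
  have h2 : ‖z i‖ ≤ ‖z‖ := norm_le_pi_norm z i
  have h3 := le_gmax z y i
  rw [inner_sub_right] at h1
  rw [dist_eq_norm]
  nlinarith [mul_le_mul_of_nonneg_right h2 (norm_nonneg (x - y))]

omit [Nonempty ι] in
lemma isOpen_cell (z : ι → E) (i : ι) : IsOpen (cell z i) := by
  have : cell z i = ⋂ j, ⋂ _ : j ≠ i, {x | ⟪z j, x⟫ < ⟪z i, x⟫} := by
    ext x; simp [cell]
  rw [this]
  refine isOpen_iInter_of_finite fun j => isOpen_iInter_of_finite fun _ => ?_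
  exact isOpen_lt (by fun_prop) (by fun_prop)

omit [Fintype ι] [Nonempty ι] in
lemma disjoint_cell (z : ι → E) {i j : ι} (h : i ≠ j) : Disjoint (cell z i) (cell z j) := by
  rw [Set.disjoint_left]
  intro x hi hj
  exact lt_asymm (hi j h.symm) (hj i h)

variable [FiniteDimensional ℝ E] [MeasurableSpace E] [BorelSpace E]

omit [Nonempty ι] [FiniteDimensional ℝ E] in
lemma measurableSet_cell (z : ι → E) (i : ι) : MeasurableSet (cell z i) :=
  (isOpen_cell z i).measurableSet

lemma integrable_norm_std : Integrable (fun x : E => ‖x‖) (stdGaussian E) :=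
  (IsGaussian.integrable_id (μ := stdGaussian E)).norm

lemma integrable_gmax (z : ι → E) : Integrable (gmax z) (stdGaussian E) := by
  refine (integrable_norm_std.const_mul ‖z‖).mono' (continuous_gmax z).aestronglyMeasurable
    (Filter.Eventually.of_forall fun x => ?_)
  obtain ⟨i, hi⟩ := exists_gmax_eq z x
  rw [hi, Real.norm_eq_abs]
  exact (abs_real_inner_le_norm _ _).trans
    (mul_le_mul_of_nonneg_right (norm_le_pi_norm z i) (norm_nonneg _))

lemma fE_nonneg (z : ι → E) : 0 ≤ fE z := by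
  obtain ⟨i⟩ := ‹Nonempty ι›
  rw [← integral_inner_eq_zero (z i)]
  exact integral_mono (integrable_inner _) (integrable_gmax z) fun x => le_gmax z x i

lemma fE_add_const (z : ι → E) (c : E) : fE (fun i => z i + c) = fE z := by
  have h : ∀ x, gmax (fun i => z i + c) x = gmax z x + ⟪c, x⟫ := by
    intro x
    refine le_antisymm (gmax_le fun i => ?_) ?_
    · rw [inner_add_left]
      linarith [le_gmax z x i]
    · obtain ⟨i, hi⟩ := exists_gmax_eq z x
      have := le_gmax (fun i => z i + c) x i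
      rw [inner_add_left] at this
      linarith
  unfold fE
  simp_rw [h]
  rw [integral_add (integrable_gmax z) (integrable_inner c), integral_inner_eq_zero, add_zero]

lemma fE_smul (z : ι → E) {c : ℝ} (hc : 0 ≤ c) : fE (fun i => c • z i) = c * fE z := by
  have h : ∀ x, gmax (fun i => c • z i) x = c * gmax z x := by
    intro x
    refine le_antisymm (gmax_le fun i => ?_) ?_
    · rw [real_inner_smul_left]
      exact mul_le_mul_of_nonneg_left (le_gmax z x i) hc
    · obtain ⟨i, hi⟩ := exists_gmax_eq z x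
      have := le_gmax (fun i => c • z i) x i
      rw [real_inner_smul_left] at this
      rw [hi]
      exact this
  unfold fE
  simp_rw [h]
  rw [integral_const_mul]

lemma fE_mono {z : ι → E} {w : κ → E} (h : ∀ i, ∃ j, z i = w j) : fE z ≤ fE w := by
  refine integral_mono (integrable_gmax z) (integrable_gmax w) fun x => gmax_le fun i => ?_
  obtain ⟨j, hj⟩ := h i
  rw [hj]
  exact le_gmax w x j

lemma continuous_fE : Continuous (fun z : ι → E => fE z) := by
  refine (LipschitzWith.of_le_add_mul' (f := fun z : ι → E => fE z)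
    (∫ x, ‖x‖ ∂(stdGaussian E)) fun z w => ?_).continuous
  have h := integral_mono (integrable_gmax z)
    ((integrable_gmax w).add (integrable_norm_std.const_mul (dist z w)))
    fun x => gmax_le_add z w x
  simp only [Pi.add_apply] at h
  rw [integral_add (integrable_gmax w) (integrable_norm_std.const_mul _), integral_const_mul,
    mul_comm] at h
  exact h

omit [FiniteDimensional ℝ E] [MeasurableSpace E] [BorelSpace E] in
lemma gmax_three (a b c x : E) : gmax ![a, b, c] x = max ⟪a, x⟫ (max ⟪b, x⟫ ⟪c, x⟫) := by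
  refine le_antisymm (gmax_le fun i => ?_) (max_le (le_gmax ![a, b, c] x 0)
    (max_le (le_gmax ![a, b, c] x 1) (le_gmax ![a, b, c] x 2)))
  fin_cases i <;> simp

lemma max_three_aux (p q r : ℝ) :
    max p (max q r) + max (-p) (max (-q) (-r)) = (|p - q| + |p - r| + |q - r|) / 2 := by
  simp only [max_def, abs]
  split_ifs <;> linarith

lemma fE_three (a b c : E) :
    fE ![a, b, c] = (‖a - b‖ + ‖a - c‖ + ‖b - c‖) * (phi 0 / 2) := by
  have hi := integrable_gmax ![a, b, c]
  have hm : AEMeasurable (fun x : E => -x) (stdGaussian E) := measurable_neg.aemeasurable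
  have h1 : ∫ x, gmax ![a, b, c] (-x) ∂(stdGaussian E) = fE ![a, b, c] := by
    rw [← integral_map hm (continuous_gmax _).aestronglyMeasurable, map_neg_stdGaussian]
    rfl
  have h2 : Integrable (fun x => gmax ![a, b, c] (-x)) (stdGaussian E) := by
    have h3 : Integrable (gmax ![a, b, c]) ((stdGaussian E).map fun x => -x) := by
      rwa [map_neg_stdGaussian]
    exact h3.comp_aemeasurable hm
  have h4 : ∀ x, gmax ![a, b, c] x + gmax ![a, b, c] (-x) =
      (|⟪a - b, x⟫| + |⟪a - c, x⟫| + |⟪b - c, x⟫|) / 2 := by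
    intro x
    simp only [gmax_three, inner_neg_right, inner_sub_left, max_three_aux]
  have h5 := integral_add hi h2
  simp_rw [h4] at h5
  have h6 : Integrable (fun x => |⟪a - b, x⟫| + |⟪a - c, x⟫|) (stdGaussian E) :=
    (integrable_inner _).abs.add (integrable_inner _).abs
  rw [integral_div, integral_add h6 (integrable_inner _).abs, integral_add (integrable_inner _).abs (integrable_inner _).abs,
    integral_abs_inner, integral_abs_inner, integral_abs_inner, h1] at h5
  change _ = fE ![a, b, c] + _ at h5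
  linarith

theorem bound_three : Bound E 3 := by
  intro ι _ _ hc z
  classical
  obtain ⟨e⟩ : Nonempty (ι ↪ Fin 3) := Function.Embedding.nonempty_of_card_le (by simpa using hc)
  let w : Fin 3 → E := Function.extend e z 0
  have hw : ∀ i, w (e i) = z i := fun i => e.injective.extend_apply z 0 i
  have h1 : fE z ≤ fE w := fE_mono fun i => ⟨e i, (hw i).symm⟩
  have h2 : ∑ i, ‖z i‖ ^ 2 = ∑ j, ‖w j‖ ^ 2 := by
    refine Finset.sum_of_injOn e e.injective.injOn (fun _ _ => Finset.mem_univ _) ?_ ?_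
    · intro j _ hj
      have : w j = 0 := Function.extend_apply' z (0 : Fin 3 → E) j (by
        rintro ⟨i, rfl⟩
        exact hj ⟨i, by simp, rfl⟩)
      simp [this]
    · intro i _
      rw [hw]
  have h3 : w = ![w 0, w 1, w 2] := by
    funext j
    fin_cases j <;> rfl
  rw [h2, Fin.sum_univ_three]
  refine h1.trans ?_
  rw [h3, fE_three]
  refine Real.le_sqrt_of_sq_le ?_
  simp only [Matrix.cons_val_zero, Matrix.cons_val_one, Matrix.cons_val]
  generalize w 0 = a
  generalize w 1 = b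
  generalize w 2 = c
  have h4 : (phi 0 / 2) ^ 2 = MM / 9 := by
    rw [div_pow, phi_zero_sq, MM]
    field_simp
    norm_num
  have h5 : ‖a - b‖ ^ 2 + ‖a - c‖ ^ 2 + ‖b - c‖ ^ 2 ≤ 3 * (‖a‖ ^ 2 + ‖b‖ ^ 2 + ‖c‖ ^ 2) := by
    have h6 : 0 ≤ ‖a + b + c‖ ^ 2 := by positivity
    rw [norm_add_sq_real, norm_add_sq_real, inner_add_left] at h6
    rw [norm_sub_sq_real, norm_sub_sq_real, norm_sub_sq_real]
    linarith
  have h7 : (‖a - b‖ + ‖a - c‖ + ‖b - c‖) ^ 2 ≤ 9 * (‖a‖ ^ 2 + ‖b‖ ^ 2 + ‖c‖ ^ 2) := by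
    nlinarith [sq_nonneg (‖a - b‖ - ‖a - c‖), sq_nonneg (‖a - b‖ - ‖b - c‖),
      sq_nonneg (‖a - c‖ - ‖b - c‖)]
  have h8 : 0 < MM := by linarith [MM_gt]
  rw [mul_pow, h4]
  nlinarith [mul_le_mul_of_nonneg_left h7 h8.le]

omit [Nonempty ι] in
/-- integration over an almost-everywhere partition -/
lemma sum_setIntegral_le {A : ι → Set E} (hA : ∀ i, NullMeasurableSet (A i) (stdGaussian E))
    (hd : Pairwise fun i j => AEDisjoint (stdGaussian E) (A i) (A j))
    (hcov : ∀ᵐ x ∂(stdGaussian E), ∃ i, x ∈ A i) {h : ι → E → ℝ} {H : E → ℝ}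
    (hh : ∀ i, Integrable (h i) (stdGaussian E)) (hH : Integrable H (stdGaussian E))
    (hle : ∀ i, ∀ x ∈ A i, h i x ≤ H x) :
    ∑ i, ∫ x in A i, h i x ∂(stdGaussian E) ≤ ∫ x, H x ∂(stdGaussian E) := by
  have h1 := (hasSum_integral_iUnion_ae hA hd hH.integrableOn).tsum_eq
  rw [tsum_fintype, Measure.restrict_eq_self_of_ae_mem (hcov.mono fun x hx => mem_iUnion.2 hx)]
    at h1
  rw [← h1]
  refine Finset.sum_le_sum fun i _ => ?_
  exact setIntegral_mono_on₀ (hh i).integrableOn hH.integrableOn (hA i) (hle i)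

/-- the inequality for partitions follows from the inequality for expected maxima -/
theorem partition_le (hB : ∀ n, Bound E n) {A : ι → Set E}
    (hA : ∀ i, NullMeasurableSet (A i) (stdGaussian E))
    (hd : Pairwise fun i j => AEDisjoint (stdGaussian E) (A i) (A j))
    (hcov : ∀ᵐ x ∂(stdGaussian E), ∃ i, x ∈ A i) :
    ∑ i, ‖∫ x in A i, x ∂(stdGaussian E)‖ ^ 2 ≤ MM := by
  set y : ι → E := fun i => ∫ x in A i, x ∂(stdGaussian E) with hy
  have h1 := sum_setIntegral_le hA hd hcov (h := fun i x => ⟪y i, x⟫) (H := gmax y)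
    (fun i => integrable_inner _) (integrable_gmax y) fun i x _ => le_gmax y x i
  have h2 : ∀ i, ∫ x in A i, ⟪y i, x⟫ ∂(stdGaussian E) = ‖y i‖ ^ 2 := fun i => by
    rw [setIntegral_inner, real_inner_self_eq_norm_sq]
  simp_rw [h2] at h1
  have h3 := h1.trans (hB _ ι le_rfl y)
  change ∑ i, ‖y i‖ ^ 2 ≤ MM
  have h4 : 0 ≤ ∑ i, ‖y i‖ ^ 2 := by positivity
  have h8 : 0 < MM := by linarith [MM_gt]
  have h5 := (Real.le_sqrt h4 (by positivity)).1 h3
  by_contra hlt
  push Not at hlt
  nlinarith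

end Vale.Agent.P226
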