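import Vale.Agent.P226.NumericA

/-! Numerical bounds at the nodes and the linear facts for one cell. -/

namespace Vale.Agent.P226

lemma quad_tangent {a Y : ℝ} (h2 : a ≤ 2 * Y - Y ^ 2 / MM) (Y0 : ℝ) :
    a ≤ (2 - 2 * Y0 / 0.3581) * Y + Y0 ^ 2 / 0.3581 := by
  have hM := MM_gt
  have hM' := MM_lt
  have h1 : Y ^ 2 / 0.3581 ≤ Y ^ 2 / MM := by gcongr
  have h3 : 0 ≤ (Y - Y0) ^ 2 / 0.3581 := by positivity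
  have h4 : (Y - Y0) ^ 2 / 0.3581 = Y ^ 2 / 0.3581 - 2 * Y0 / 0.3581 * Y + Y0 ^ 2 / 0.3581 := by
    ring
  linarith

/-- the piecewise linear description -/
def Pieces (a p Y : ℝ) : Prop :=
  (0.37448 ≤ p ∧ p ≤ 0.5 ∧ Y ≤ -0.08348 + 0.4853 * p ∧ a ≤ -0.06035 + 0.621 * p) ∨
  (0.30152 ≤ p ∧ p ≤ 0.37449 ∧ Y ≤ -0.06307 + 0.4308 * p ∧ a ≤ -0.07766 + 0.6619 * p) ∨
  (0.22662 ≤ p ∧ p ≤ 0.30154 ∧ Y ≤ -0.04311 + 0.3646 * p ∧ a ≤ -0.06561 + 0.6213 * p) ∨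
  (0.17105 ≤ p ∧ p ≤ 0.22664 ∧ Y ≤ -0.0267 + 0.2922 * p ∧ a ≤ -0.0461 + 0.5339 * p) ∨
  (0.11702 ≤ p ∧ p ≤ 0.17106 ∧ Y ≤ -0.01475 + 0.2223 * p ∧ a ≤ -0.027292 + 0.4235 * p) ∨
  (0.07635 ≤ p ∧ p ≤ 0.11703 ∧ Y ≤ -0.00694 + 0.1556 * p ∧ a ≤ -0.01339 + 0.3043 * p) ∨
  (0.03753 ≤ p ∧ p ≤ 0.07637 ∧ Y ≤ -0.00232 + 0.0951 * p ∧ a ≤ -0.00457 + 0.1887 * p) ∨
  (p ≤ 0.0376 ∧ Y ≤ 0.0331 * p ∧ a ≤ 0.0662 * p)

lemma pieces_of {v a : ℝ} (hv : 0 ≤ v) (h2 : a ≤ 2 * J v - J v ^ 2 / MM) :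
    Pieces a (Q v) (J v) := by
  obtain ⟨-, j0⟩ := node0
  obtain ⟨-, -, l1, u1, j1⟩ := node1
  obtain ⟨-, -, l2, u2, j2⟩ := node2
  obtain ⟨-, -, l3, u3, j3⟩ := node3
  obtain ⟨-, -, l4, u4, j4⟩ := node4
  obtain ⟨-, -, l5, u5, j5⟩ := node5
  obtain ⟨-, -, l6, u6, j6⟩ := node6
  obtain ⟨-, -, l7, u7, j7⟩ := node7
  have q0 := Q_zero
  have anti := strictAnti_Q.antitone
  unfold Pieces
  rcases le_total v 0.32 with c1 | c1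
  · have hY : J v ≤ -0.08348 + 0.4853 * Q v :=
      J_chord le_rfl hv c1 (by linarith) (by linarith)
    have := quad_tangent h2 0.129
    have := anti hv
    have := anti c1
    left; refine ⟨by linarith, by linarith, hY, by norm_num at *; linarith⟩
  right
  rcases le_total v 0.52 with c2 | c2
  · have hY : J v ≤ -0.06307 + 0.4308 * Q v :=
      J_chord (by norm_num) c1 c2 (by linarith) (by linarith)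
    have := quad_tangent h2 0.083
    have := anti c1
    have := anti c2
    left; refine ⟨by linarith, by linarith, hY, by norm_num at *; linarith⟩
  right
  rcases le_total v 0.75 with c3 | c3
  · have hY : J v ≤ -0.04311 + 0.3646 * Q v :=
      J_chord (by norm_num) c2 c3 (by linarith) (by linarith)
    have := quad_tangent h2 0.053
    have := anti c2
    have := anti c3
    left; refine ⟨by linarith, by linarith, hY, by norm_num at *; linarith⟩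
  right
  rcases le_total v 0.95 with c4 | c4
  · have hY : J v ≤ -0.0267 + 0.2922 * Q v :=
      J_chord (by norm_num) c3 c4 (by linarith) (by linarith)
    have := quad_tangent h2 0.031
    have := anti c3
    have := anti c4
    left; refine ⟨by linarith, by linarith, hY, by norm_num at *; linarith⟩
  right
  rcases le_total v 1.19 with c5 | c5
  · have hY : J v ≤ -0.01475 + 0.2223 * Q v :=
      J_chord (by norm_num) c4 c5 (by linarith) (by linarith)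
    have := quad_tangent h2 0.017
    have := anti c4
    have := anti c5
    left; refine ⟨by linarith, by linarith, hY, by norm_num at *; linarith⟩
  right
  rcases le_total v 1.43 with c6 | c6
  · have hY : J v ≤ -0.00694 + 0.1556 * Q v :=
      J_chord (by norm_num) c5 c6 (by linarith) (by linarith)
    have := quad_tangent h2 0.008
    have := anti c5
    have := anti c6
    left; refine ⟨by linarith, by linarith, hY, by norm_num at *; linarith⟩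
  right
  rcases le_total v 1.78 with c7 | c7
  · have hY : J v ≤ -0.00232 + 0.0951 * Q v :=
      J_chord (by norm_num) c6 c7 (by linarith) (by linarith)
    have := quad_tangent h2 0.003
    have := anti c6
    have := anti c7
    left; refine ⟨by linarith, by linarith, hY, by norm_num at *; linarith⟩
  right
  have hY : J v ≤ 0.0331 * Q v :=
    J_chord_top (by norm_num) c7 (by norm_num) (by linarith)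
  have := anti c7
  have h5 : 0 ≤ J v ^ 2 / MM := by have := MM_gt; positivity
  refine ⟨by linarith, hY, by linarith⟩

lemma global_lines {v a : ℝ} (hv : 0 ≤ v) (h1 : a ≤ phi v ^ 2) (hb : a ≤ 2 * Q v ^ 2) :
    a ≤ 0.05283 + 0.2426 * Q v ∧ a ≤ 0.01219 + 0.3624 * Q v := by
  obtain ⟨pl1, pu1, l1, u1, -⟩ := node1
  obtain ⟨pl2, pu2, l2, u2, -⟩ := node2
  obtain ⟨-, -, l4, u4, -⟩ := node4
  have hq := Q_pos v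
  have hq1 : Q v ≤ 1 / 2 := Q_zero ▸ strictAnti_Q.antitone hv
  rcases le_total v 0.95 with c | c
  · have t1 := phi_sq_le_tangent (w := 0.32) (v := v) (by norm_num) (by norm_num) hv (by linarith)
    have t2 := phi_sq_le_tangent (w := 0.52) (v := v) (by norm_num) (by norm_num) hv (by linarith)
    have hl : 0.17105 ≤ Q v := l4.trans (strictAnti_Q.antitone c)
    constructor
    · nlinarith [mul_nonneg (sub_nonneg.2 pl1) (sub_nonneg.2 pu1),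
        mul_nonneg (sub_nonneg.2 pu1) (sub_nonneg.2 hl), mul_nonneg (sub_nonneg.2 pl1) (sub_nonneg.2 hq1),
        mul_nonneg (sub_nonneg.2 pl1) (sub_nonneg.2 l1), mul_nonneg (sub_nonneg.2 pu1) (sub_nonneg.2 u1)]
    · nlinarith [mul_nonneg (sub_nonneg.2 pl2) (sub_nonneg.2 pu2),
        mul_nonneg (sub_nonneg.2 pu2) (sub_nonneg.2 hl), mul_nonneg (sub_nonneg.2 pl2) (sub_nonneg.2 hq1),
        mul_nonneg (sub_nonneg.2 pl2) (sub_nonneg.2 l2), mul_nonneg (sub_nonneg.2 pu2) (sub_nonneg.2 u2)]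
  · have hl : Q v ≤ 0.17106 := (strictAnti_Q.antitone c).trans u4
    constructor <;> nlinarith

lemma q2_aux {f g c : ℝ} (hfg : g ≤ f) (hg : 0.1866 ≤ g)
    (h : c ≤ 9 / 4 * g ^ 2 - 0.839625 * g) : c ≤ 9 / 4 * f ^ 2 - 0.839625 * f := by
  nlinarith [mul_nonneg (sub_nonneg.2 hfg) (sub_nonneg.2 hg), sq_nonneg (f - g)]

lemma q2_of {a p Y : ℝ} (hP : Pieces a p Y) (hp : 0.0768 ≤ p) (f : ℝ)
    (hf : 0.358098 - 4 / 3 * Y ≤ f) : -0.0016 - 0.205 * p ≤ 9 / 4 * f ^ 2 - 0.839625 * f := by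
  rcases hP with ⟨h1, h2, h3, -⟩ | ⟨h1, h2, h3, -⟩ | ⟨h1, h2, h3, -⟩ | ⟨h1, h2, h3, -⟩ |
    ⟨h1, h2, h3, -⟩ | ⟨h1, h2, h3, -⟩ | ⟨h1, h2, h3, -⟩ | ⟨h1, h2, -⟩
  · nlinarith [sq_nonneg (f - 0.186583)]
  · refine q2_aux (g := 0.358098 - 4 / 3 * (-0.06307 + 0.4308 * p)) (by linarith) (by linarith) ?_
    nlinarith [sq_nonneg (p - 0.31)]
  · refine q2_aux (g := 0.358098 - 4 / 3 * (-0.04311 + 0.3646 * p)) (by linarith) (by linarith) ?_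
    nlinarith [sq_nonneg (p - 0.278)]
  · refine q2_aux (g := 0.358098 - 4 / 3 * (-0.0267 + 0.2922 * p)) (by linarith) (by linarith) ?_
    nlinarith [sq_nonneg (p - 0.22)]
  · refine q2_aux (g := 0.358098 - 4 / 3 * (-0.01475 + 0.2223 * p)) (by linarith) (by linarith) ?_
    nlinarith [sq_nonneg (p - 0.15)]
  · refine q2_aux (g := 0.358098 - 4 / 3 * (-0.00694 + 0.1556 * p)) (by linarith) (by linarith) ?_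
    nlinarith [sq_nonneg (p - 0.0768)]
  · linarith
  · linarith

section
variable {a p Y : ℝ} (hP : Pieces a p Y) (h0 : 0 ≤ a)
  (hp : 0 < p) (g1 : a ≤ 0.05283 + 0.2426 * p) (g2 : a ≤ 0.01219 + 0.3624 * p)
include hP h0 hp g1 g2

lemma pc_c0 : a ≤ 0.0025 → 15 * a ≤ p := by
  intros
  rcases hP with ⟨h1, h2, h3, h4⟩ | ⟨h1, h2, h3, h4⟩ | ⟨h1, h2, h3, h4⟩ | ⟨h1, h2, h3, h4⟩ |
    ⟨h1, h2, h3, h4⟩ | ⟨h1, h2, h3, h4⟩ | ⟨h1, h2, h3, h4⟩ | ⟨h1, h2, h3⟩ <;> linarith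

lemma pc_c1 : 0.0025 ≤ a → a ≤ 0.022 → 0.02745 + 4 * a ≤ p := by
  intros
  rcases hP with ⟨h1, h2, h3, h4⟩ | ⟨h1, h2, h3, h4⟩ | ⟨h1, h2, h3, h4⟩ | ⟨h1, h2, h3, h4⟩ |
    ⟨h1, h2, h3, h4⟩ | ⟨h1, h2, h3, h4⟩ | ⟨h1, h2, h3, h4⟩ | ⟨h1, h2, h3⟩ <;> linarith

lemma pc_s4 : -0.2175 + 4.12 * a ≤ p := by
  intros
  rcases hP with ⟨h1, h2, h3, h4⟩ | ⟨h1, h2, h3, h4⟩ | ⟨h1, h2, h3, h4⟩ | ⟨h1, h2, h3, h4⟩ |
    ⟨h1, h2, h3, h4⟩ | ⟨h1, h2, h3, h4⟩ | ⟨h1, h2, h3, h4⟩ | ⟨h1, h2, h3⟩ <;> linarith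

lemma pc_s4a : a ≤ 0.045 → -0.0147 + 4.12 * a ≤ p := by
  intros
  rcases hP with ⟨h1, h2, h3, h4⟩ | ⟨h1, h2, h3, h4⟩ | ⟨h1, h2, h3, h4⟩ | ⟨h1, h2, h3, h4⟩ |
    ⟨h1, h2, h3, h4⟩ | ⟨h1, h2, h3, h4⟩ | ⟨h1, h2, h3, h4⟩ | ⟨h1, h2, h3⟩ <;> linarith

lemma pc_s4b : a ≤ 0.055 → -0.0373 + 4.12 * a ≤ p := by
  intros
  rcases hP with ⟨h1, h2, h3, h4⟩ | ⟨h1, h2, h3, h4⟩ | ⟨h1, h2, h3, h4⟩ | ⟨h1, h2, h3, h4⟩ |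
    ⟨h1, h2, h3, h4⟩ | ⟨h1, h2, h3, h4⟩ | ⟨h1, h2, h3, h4⟩ | ⟨h1, h2, h3⟩ <;> linarith

lemma pc_s2 : -0.0338 + 2.76 * a ≤ p := by
  intros
  rcases hP with ⟨h1, h2, h3, h4⟩ | ⟨h1, h2, h3, h4⟩ | ⟨h1, h2, h3, h4⟩ | ⟨h1, h2, h3, h4⟩ |
    ⟨h1, h2, h3, h4⟩ | ⟨h1, h2, h3, h4⟩ | ⟨h1, h2, h3, h4⟩ | ⟨h1, h2, h3⟩ <;> linarith

lemma pc_s2a : 0.0025 ≤ a → a ≤ 0.075 → 0.0196 + 2.76 * a ≤ p := by
  intros
  rcases hP with ⟨h1, h2, h3, h4⟩ | ⟨h1, h2, h3, h4⟩ | ⟨h1, h2, h3, h4⟩ | ⟨h1, h2, h3, h4⟩ |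
    ⟨h1, h2, h3, h4⟩ | ⟨h1, h2, h3, h4⟩ | ⟨h1, h2, h3, h4⟩ | ⟨h1, h2, h3⟩ <;> linarith

lemma pc_s2b : a ≤ 0.075 → 2.76 * a ≤ p := by
  intros
  rcases hP with ⟨h1, h2, h3, h4⟩ | ⟨h1, h2, h3, h4⟩ | ⟨h1, h2, h3, h4⟩ | ⟨h1, h2, h3, h4⟩ |
    ⟨h1, h2, h3, h4⟩ | ⟨h1, h2, h3, h4⟩ | ⟨h1, h2, h3, h4⟩ | ⟨h1, h2, h3⟩ <;> linarith

lemma pc_s2c : 0.022 ≤ a → a ≤ 0.045 → 0.0464 + 2.76 * a ≤ p := by
  intros
  rcases hP with ⟨h1, h2, h3, h4⟩ | ⟨h1, h2, h3, h4⟩ | ⟨h1, h2, h3, h4⟩ | ⟨h1, h2, h3, h4⟩ |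
    ⟨h1, h2, h3, h4⟩ | ⟨h1, h2, h3, h4⟩ | ⟨h1, h2, h3, h4⟩ | ⟨h1, h2, h3⟩ <;> linarith

lemma pc_s2d : 0.0025 ≤ a → a ≤ 0.045 → 0.0305 + 2.76 * a ≤ p := by
  intros
  rcases hP with ⟨h1, h2, h3, h4⟩ | ⟨h1, h2, h3, h4⟩ | ⟨h1, h2, h3, h4⟩ | ⟨h1, h2, h3, h4⟩ |
    ⟨h1, h2, h3, h4⟩ | ⟨h1, h2, h3, h4⟩ | ⟨h1, h2, h3, h4⟩ | ⟨h1, h2, h3⟩ <;> linarith

lemma pc_i0 : 0.075 ≤ a → 0.1043 + 1.62 * a ≤ p := by
  intros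
  rcases hP with ⟨h1, h2, h3, h4⟩ | ⟨h1, h2, h3, h4⟩ | ⟨h1, h2, h3, h4⟩ | ⟨h1, h2, h3, h4⟩ |
    ⟨h1, h2, h3, h4⟩ | ⟨h1, h2, h3, h4⟩ | ⟨h1, h2, h3, h4⟩ | ⟨h1, h2, h3⟩ <;> linarith

lemma pc_i1 : 0.022 ≤ a → a ≤ 0.045 → 0.0806 + 1.62 * a ≤ p := by
  intros
  rcases hP with ⟨h1, h2, h3, h4⟩ | ⟨h1, h2, h3, h4⟩ | ⟨h1, h2, h3, h4⟩ | ⟨h1, h2, h3, h4⟩ |
    ⟨h1, h2, h3, h4⟩ | ⟨h1, h2, h3, h4⟩ | ⟨h1, h2, h3, h4⟩ | ⟨h1, h2, h3⟩ <;> linarith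

lemma pc_i2 : 0.0025 ≤ a → a ≤ 0.045 → 0.0334 + 1.62 * a ≤ p := by
  intros
  rcases hP with ⟨h1, h2, h3, h4⟩ | ⟨h1, h2, h3, h4⟩ | ⟨h1, h2, h3, h4⟩ | ⟨h1, h2, h3, h4⟩ |
    ⟨h1, h2, h3, h4⟩ | ⟨h1, h2, h3, h4⟩ | ⟨h1, h2, h3, h4⟩ | ⟨h1, h2, h3⟩ <;> linarith

lemma pc_j0 : 0.045 ≤ a → 0.0941 + 1.7 * a ≤ p := by
  intros
  rcases hP with ⟨h1, h2, h3, h4⟩ | ⟨h1, h2, h3, h4⟩ | ⟨h1, h2, h3, h4⟩ | ⟨h1, h2, h3, h4⟩ |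
    ⟨h1, h2, h3, h4⟩ | ⟨h1, h2, h3, h4⟩ | ⟨h1, h2, h3, h4⟩ | ⟨h1, h2, h3⟩ <;> linarith

lemma pc_j1 : 0.0025 ≤ a → 0.0332 + 1.7 * a ≤ p := by
  intros
  rcases hP with ⟨h1, h2, h3, h4⟩ | ⟨h1, h2, h3, h4⟩ | ⟨h1, h2, h3, h4⟩ | ⟨h1, h2, h3, h4⟩ |
    ⟨h1, h2, h3, h4⟩ | ⟨h1, h2, h3, h4⟩ | ⟨h1, h2, h3, h4⟩ | ⟨h1, h2, h3⟩ <;> linarith

lemma pc_q0 : 0.01 ≤ a → 0.0768 ≤ p := by
  intros
  rcases hP with ⟨h1, h2, h3, h4⟩ | ⟨h1, h2, h3, h4⟩ | ⟨h1, h2, h3, h4⟩ | ⟨h1, h2, h3, h4⟩ |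
    ⟨h1, h2, h3, h4⟩ | ⟨h1, h2, h3, h4⟩ | ⟨h1, h2, h3, h4⟩ | ⟨h1, h2, h3⟩ <;> linarith

lemma pc_q1 : 0.0768 ≤ p → Y ≤ -0.02296 + 0.3643 * p := by
  intros
  rcases hP with ⟨h1, h2, h3, h4⟩ | ⟨h1, h2, h3, h4⟩ | ⟨h1, h2, h3, h4⟩ | ⟨h1, h2, h3, h4⟩ |
    ⟨h1, h2, h3, h4⟩ | ⟨h1, h2, h3, h4⟩ | ⟨h1, h2, h3, h4⟩ | ⟨h1, h2, h3⟩ <;> linarith

end

lemma lines_of_pieces {a p Y : ℝ} (hP : Pieces a p Y) (h0 : 0 ≤ a) (ha : a ≤ 0.1592)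
    (hp : 0 < p) (hY : 0 ≤ Y) (hb : a ≤ 2 * p ^ 2) (g1 : a ≤ 0.05283 + 0.2426 * p)
    (g2 : a ≤ 0.01219 + 0.3624 * p) : Lines a p Y :=
  ⟨h0, ha, hp, hY, hb,
    pc_c0 hP h0 hp g1 g2,
    pc_c1 hP h0 hp g1 g2,
    pc_s4 hP h0 hp g1 g2,
    pc_s4a hP h0 hp g1 g2,
    pc_s4b hP h0 hp g1 g2,
    pc_s2 hP h0 hp g1 g2,
    pc_s2a hP h0 hp g1 g2,
    pc_s2b hP h0 hp g1 g2,
    pc_s2c hP h0 hp g1 g2,
    pc_s2d hP h0 hp g1 g2,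
    pc_i0 hP h0 hp g1 g2,
    pc_i1 hP h0 hp g1 g2,
    pc_i2 hP h0 hp g1 g2,
    pc_j0 hP h0 hp g1 g2,
    pc_j1 hP h0 hp g1 g2,
    pc_q0 hP h0 hp g1 g2,
    pc_q1 hP h0 hp g1 g2,
    fun hp => q2_of hP hp⟩

theorem lines_of {v a : ℝ} (hv : 0 ≤ v) (h0 : 0 ≤ a) (h1 : a ≤ phi v ^ 2)
    (h2 : a ≤ 2 * J v - J v ^ 2 / MM) : Lines a (Q v) (J v) := by
  have h5 : 0 ≤ J v ^ 2 / MM := by have := MM_gt; positivity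
  have hb : a ≤ 2 * Q v ^ 2 := by have := J_le_Q_sq hv; linarith
  obtain ⟨g1, g2⟩ := global_lines hv h1 hb
  refine lines_of_pieces (pieces_of hv h2) h0 ?_ (Q_pos v) (J_pos v).le hb g1 g2
  have h3 := phi_le_phi_zero v
  have h4 := node0.1
  have h6 := phi_pos v
  nlinarith

end Vale.Agent.P226
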