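import Vale.Agent.P226.Space

/-! The small-ball estimate. -/

namespace Vale.Agent.P226

open MeasureTheory ProbabilityTheory Set
open scoped RealInnerProductSpace

variable {E : Type} [NormedAddCommGroup E] [InnerProductSpace ℝ E] [FiniteDimensional ℝ E]
  [MeasurableSpace E] [BorelSpace E]

lemma sb_gauss_le : gaussianReal 0 1 ≤ ENNReal.ofReal (phi 0) • (volume : Measure ℝ) := by
  rw [gaussianReal_of_var_ne_zero _ one_ne_zero, ← withDensity_const]
  refine withDensity_mono (ae_of_all _ fun x => ?_)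
  simp only [gaussianPDF, gaussianPDFReal_eq_phi]
  exact ENNReal.ofReal_le_ofReal (phi_le_phi_zero x)

lemma sb_lint_le (f : ℝ → ENNReal) :
    ∫⁻ x, f x ∂(gaussianReal 0 1) ≤ ENNReal.ofReal (phi 0) * ∫⁻ x, f x := by
  refine (lintegral_mono' sb_gauss_le le_rfl).trans ?_
  rw [lintegral_smul_measure, smul_eq_mul]

lemma sb_Ioo_le (a b : ℝ) :
    gaussianReal 0 1 (Ioo a b) ≤ ENNReal.ofReal (phi 0 * (b - a)) := by
  refine (Measure.le_iff'.1 sb_gauss_le _).trans ?_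
  rw [Measure.smul_apply, smul_eq_mul, Real.volume_Ioo,
    ENNReal.ofReal_mul (phi_pos 0).le]

lemma sb_lin (k L U : ℝ) (hk : 0 ≤ k) :
    ∫⁻ y, (Iio U).indicator (fun y => ENNReal.ofReal (k * (y - L))) y
      ≤ ENNReal.ofReal (k * (max (U - L) 0) ^ 2 / 2) := by
  have h1 : ∀ y, (Iio U).indicator (fun y => ENNReal.ofReal (k * (y - L))) y
      ≤ (Ioc L U).indicator (fun y => ENNReal.ofReal (k * (y - L))) y := by
    intro y
    by_cases hy : y ∈ Iio U
    · rw [indicator_of_mem hy]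
      by_cases hL : L < y
      · rw [indicator_of_mem (show y ∈ Ioc L U from ⟨hL, le_of_lt hy⟩)]
      · rw [ENNReal.ofReal_of_nonpos (mul_nonpos_of_nonneg_of_nonpos hk (by linarith))]
        exact zero_le
    · rw [indicator_of_notMem hy]; exact zero_le
  refine (lintegral_mono h1).trans ?_
  rw [lintegral_indicator measurableSet_Ioc]
  rcases le_total U L with h | h
  · rw [Ioc_eq_empty (not_lt.2 h)]; simp
  · have hi : IntegrableOn (fun y => k * (y - L)) (Ioc L U) :=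
      (by fun_prop : Continuous fun y => k * (y - L)).integrableOn_Ioc
    rw [← ofReal_integral_eq_lintegral_ofReal hi, ← intervalIntegral.integral_of_le h,
      max_eq_left (by linarith)]
    · refine ENNReal.ofReal_le_ofReal (le_of_eq ?_)
      have hd : ∀ x ∈ uIcc L U, HasDerivAt (fun y => k * (y - L) ^ 2 / 2) (k * (x - L)) x := by
        intro x _
        have := ((((hasDerivAt_id x).sub_const L).pow 2).const_mul k).div_const 2
        exact this.congr_deriv (by simp; ring)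
      rw [intervalIntegral.integral_eq_sub_of_hasDerivAt hd
        ((by fun_prop : Continuous fun y => k * (y - L)).intervalIntegrable _ _)]
      simp
    · filter_upwards [ae_restrict_mem measurableSet_Ioc] with y hy
      exact mul_nonneg hk (by linarith [hy.1])

lemma sb_sq (k S m : ℝ) (hk : 0 ≤ k) (hm : 0 < m) :
    ∫⁻ s in Ioi 0, ENNReal.ofReal (k * (max (S - m * s) 0) ^ 2)
      ≤ ENNReal.ofReal (k * (max S 0) ^ 3 / (3 * m)) := by
  rw [← lintegral_indicator measurableSet_Ioi]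
  have h1 : ∀ y, (Ioi 0).indicator (fun s => ENNReal.ofReal (k * (max (S - m * s) 0) ^ 2)) y
      ≤ (Ioc 0 (S / m)).indicator (fun s => ENNReal.ofReal (k * (S - m * s) ^ 2)) y := by
    intro y
    by_cases hy : y ∈ Ioi (0 : ℝ)
    · rw [indicator_of_mem hy]
      by_cases hL : y ≤ S / m
      · rw [indicator_of_mem (show y ∈ Ioc 0 (S / m) from ⟨hy, hL⟩), max_eq_left]
        rw [le_div_iff₀ hm] at hL
        linarith
      · rw [max_eq_right]
        · simp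
        · rw [not_le, div_lt_iff₀ hm] at hL
          linarith
    · rw [indicator_of_notMem hy]; exact zero_le
  refine (lintegral_mono h1).trans ?_
  rw [lintegral_indicator measurableSet_Ioc]
  rcases le_total S 0 with h | h
  · rw [Ioc_eq_empty (not_lt.2 (div_nonpos_of_nonpos_of_nonneg h hm.le))]; simp
  · have h' : 0 ≤ S / m := div_nonneg h hm.le
    have hi : IntegrableOn (fun s => k * (S - m * s) ^ 2) (Ioc 0 (S / m)) :=
      (by fun_prop : Continuous fun s => k * (S - m * s) ^ 2).integrableOn_Ioc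
    rw [← ofReal_integral_eq_lintegral_ofReal hi, ← intervalIntegral.integral_of_le h',
      max_eq_left h]
    · refine ENNReal.ofReal_le_ofReal (le_of_eq ?_)
      have hd : ∀ x ∈ uIcc 0 (S / m),
          HasDerivAt (fun y => -(k * (S - m * y) ^ 3 / (3 * m))) (k * (S - m * x) ^ 2) x := by
        intro x _
        have := ((((((hasDerivAt_id x).const_mul m).const_sub S).pow 3).const_mul k).div_const
          (3 * m)).neg
        exact this.congr_deriv (by simp; field_simp)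
      rw [intervalIntegral.integral_eq_sub_of_hasDerivAt hd
        ((by fun_prop : Continuous fun s => k * (S - m * s) ^ 2).intervalIntegrable _ _)]
      have : S - m * (S / m) = 0 := by field_simp; ring
      rw [this]
      simp
    · exact ae_of_all _ fun y => mul_nonneg hk (sq_nonneg _)

lemma sb_plane_lint (A1 A2 A3 r1 r2 r3 n : ℝ) (hn : 0 < n) (h1 : 0 < r1) (h3 : 0 < r3) :
    ∫⁻ q : ℝ × ℝ, ENNReal.ofReal (max (min (A1 - r1 * q.1) (min (A2 - r2 * q.1 - r3 * q.2)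
        ((A3 + (r1 + r2) * q.1 + r3 * q.2) / n))) 0) ∂((gaussianReal 0 1).prod (gaussianReal 0 1))
      ≤ ENNReal.ofReal ((max (A1 + A2 + A3) 0) ^ 3 / (12 * (n + 2) * Real.pi * (r1 * r3))) := by
  have hp := phi_pos 0
  set f : ℝ × ℝ → ℝ := fun q => max (min (A1 - r1 * q.1) (min (A2 - r2 * q.1 - r3 * q.2)
        ((A3 + (r1 + r2) * q.1 + r3 * q.2) / n))) 0 with hf
  have hfc : Continuous f := by rw [hf]; fun_prop
  change ∫⁻ q, ENNReal.ofReal (f q) ∂_ ≤ _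
  rw [lintegral_eq_lintegral_meas_lt (f := f) _ (ae_of_all _ fun q => le_max_right _ _)
    hfc.aemeasurable]
  have key : ∀ s, 0 < s → ((gaussianReal 0 1).prod (gaussianReal 0 1)) {q | s < f q}
      ≤ ENNReal.ofReal (phi 0 ^ 2 / (2 * (r1 * r3)) * (max (A1 + A2 + A3 - (n + 2) * s) 0) ^ 2) := by
    intro s hs
    rw [Measure.prod_apply (measurableSet_lt measurable_const hfc.measurable)]
    have h2 : ∀ y : ℝ, gaussianReal 0 1 (Prod.mk y ⁻¹' {q | s < f q})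
        ≤ (Iio ((A1 - s) / r1)).indicator (fun y => ENNReal.ofReal
          (phi 0 * r1 / r3 * (y - ((n + 1) * s - A2 - A3) / r1))) y := by
      intro y
      by_cases hy : y ∈ Iio ((A1 - s) / r1)
      · rw [indicator_of_mem hy]
        have hsub : Prod.mk y ⁻¹' {q | s < f q}
            ⊆ Ioo ((n * s - A3 - (r1 + r2) * y) / r3) ((A2 - r2 * y - s) / r3) := by
          intro x hx
          simp only [hf, mem_preimage, mem_ofPred_eq, lt_max_iff, lt_min_iff] at hx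
          rcases hx with ⟨_, ha, hb⟩ | hx
          · rw [lt_div_iff₀ hn] at hb
            constructor
            · rw [div_lt_iff₀ h3]; linarith
            · rw [lt_div_iff₀ h3]; linarith
          · linarith
        refine (measure_mono hsub).trans ((sb_Ioo_le _ _).trans (le_of_eq ?_))
        congr 1
        field_simp
        ring
      · rw [indicator_of_notMem hy]
        have hsub : Prod.mk y ⁻¹' {q | s < f q} = ∅ := by
          refine eq_empty_of_forall_notMem fun x hx => hy ?_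
          simp only [hf, mem_preimage, mem_ofPred_eq, lt_max_iff, lt_min_iff] at hx
          rcases hx with ⟨ha, _⟩ | hx
          · rw [mem_Iio, lt_div_iff₀ h1]; linarith
          · linarith
        rw [hsub, measure_empty]
    refine (lintegral_mono h2).trans ((sb_lint_le _).trans ?_)
    refine (mul_le_mul_right (sb_lin _ _ _ (by positivity)) _).trans (le_of_eq ?_)
    rw [← ENNReal.ofReal_mul hp.le]
    congr 1
    have e1 : (A1 - s) / r1 - ((n + 1) * s - A2 - A3) / r1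
        = (A1 + A2 + A3 - (n + 2) * s) / r1 := by field_simp; ring
    have e2 : max ((A1 + A2 + A3 - (n + 2) * s) / r1) 0
        = max (A1 + A2 + A3 - (n + 2) * s) 0 / r1 := by
      rw [← max_div_div_right h1.le, zero_div]
    rw [e1, e2]
    field_simp
  refine (setLIntegral_mono' measurableSet_Ioi key).trans
    ((sb_sq _ _ _ (by positivity) (by positivity)).trans (le_of_eq ?_))
  congr 1
  rw [phi_zero_sq]
  have := Real.pi_pos
  field_simp
  ring

/-- planar estimate: the Gaussian density is at most `1/(2π)`, layer cake and the area of a triangle -/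
lemma small_ball_plane (A1 A2 A3 r1 r2 r3 n : ℝ) (hn : 0 < n) (h1 : 0 < r1) (h3 : 0 < r3) :
    ∫ q : ℝ × ℝ, max (min (A1 - r1 * q.1) (min (A2 - r2 * q.1 - r3 * q.2)
        ((A3 + (r1 + r2) * q.1 + r3 * q.2) / n))) 0 ∂((gaussianReal 0 1).prod (gaussianReal 0 1))
      ≤ (max (A1 + A2 + A3) 0) ^ 3 / (12 * (n + 2) * Real.pi * (r1 * r3)) := by
  have := Real.pi_pos
  rw [integral_eq_lintegral_of_nonneg_ae ?_ (Continuous.aestronglyMeasurable (by fun_prop))]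
  · exact ENNReal.toReal_le_of_le_ofReal (by positivity)
      (sb_plane_lint A1 A2 A3 r1 r2 r3 n hn h1 h3)
  · exact ae_of_all _ fun q => le_max_right _ _

omit [FiniteDimensional ℝ E] [MeasurableSpace E] [BorelSpace E] in
/-- Gram-Schmidt -/
lemma sb_frame (u1 u2 w : E) (hw : w ≠ 0) {om : ℝ} (hom : 0 < om)
    (hG : om ^ 2 ≤ (‖u1‖ ^ 2 - ⟪u1, w⟫ ^ 2 / ‖w‖ ^ 2) * (‖u2‖ ^ 2 - ⟪u2, w⟫ ^ 2 / ‖w‖ ^ 2)
      - (⟪u1, u2⟫ - ⟪u1, w⟫ * ⟪u2, w⟫ / ‖w‖ ^ 2) ^ 2) :
    ∃ (e0 e1 e2 : E) (g1 g2 r1 r2 r3 : ℝ), ‖e0‖ = 1 ∧ ‖e1‖ = 1 ∧ ‖e2‖ = 1 ∧ ⟪e0, e1⟫ = 0 ∧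
      ⟪e0, e2⟫ = 0 ∧ ⟪e1, e2⟫ = 0 ∧ 0 < r1 ∧ 0 < r3 ∧ om ≤ r1 * r3 ∧ w = ‖w‖ • e0 ∧
      u1 = g1 • e0 + r1 • e1 ∧ u2 = g2 • e0 + r2 • e1 + r3 • e2 := by
  have hW : 0 < ‖w‖ := norm_pos_iff.2 hw
  obtain ⟨e0, he0⟩ : ∃ e0 : E, e0 = ‖w‖⁻¹ • w := ⟨_, rfl⟩
  have n0 : ‖e0‖ = 1 := by rw [he0, norm_smul, norm_inv, norm_norm, inv_mul_cancel₀ hW.ne']
  have hw0 : w = ‖w‖ • e0 := by rw [he0, smul_smul, mul_inv_cancel₀ hW.ne', one_smul]
  have i00 : ⟪e0, e0⟫ = 1 := by rw [real_inner_self_eq_norm_sq, n0]; norm_num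
  obtain ⟨g1, hg1⟩ : ∃ g1, g1 = ⟪e0, u1⟫ := ⟨_, rfl⟩
  obtain ⟨g2, hg2⟩ : ∃ g2, g2 = ⟪e0, u2⟫ := ⟨_, rfl⟩
  have a1 : ⟪u1, w⟫ = ‖w‖ * g1 := by
    conv_lhs => rw [hw0]
    rw [real_inner_smul_right, real_inner_comm, hg1]
  have a2 : ⟪u2, w⟫ = ‖w‖ * g2 := by
    conv_lhs => rw [hw0]
    rw [real_inner_smul_right, real_inner_comm, hg2]
  obtain ⟨p1, hp1⟩ : ∃ p1, p1 = u1 - g1 • e0 := ⟨_, rfl⟩
  obtain ⟨p2, hp2⟩ : ∃ p2, p2 = u2 - g2 • e0 := ⟨_, rfl⟩
  have o1 : ⟪e0, p1⟫ = 0 := by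
    rw [hp1, inner_sub_right, real_inner_smul_right, i00, ← hg1]; ring
  have o2 : ⟪e0, p2⟫ = 0 := by
    rw [hp2, inner_sub_right, real_inner_smul_right, i00, ← hg2]; ring
  have c1 : ⟪u1, e0⟫ = g1 := by rw [real_inner_comm, hg1]
  have c2 : ⟪u2, e0⟫ = g2 := by rw [real_inner_comm, hg2]
  have b11 : ‖u1‖ ^ 2 - ⟪u1, w⟫ ^ 2 / ‖w‖ ^ 2 = ‖p1‖ ^ 2 := by
    rw [a1, hp1, norm_sub_sq_real, real_inner_smul_right, c1, norm_smul, n0, mul_one,
      Real.norm_eq_abs, sq_abs]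
    field_simp; ring
  have b22 : ‖u2‖ ^ 2 - ⟪u2, w⟫ ^ 2 / ‖w‖ ^ 2 = ‖p2‖ ^ 2 := by
    rw [a2, hp2, norm_sub_sq_real, real_inner_smul_right, c2, norm_smul, n0, mul_one,
      Real.norm_eq_abs, sq_abs]
    field_simp; ring
  have b12 : ⟪u1, u2⟫ - ⟪u1, w⟫ * ⟪u2, w⟫ / ‖w‖ ^ 2 = ⟪p1, p2⟫ := by
    rw [a1, a2, hp1, hp2, inner_sub_left, inner_sub_right, inner_sub_right, real_inner_smul_right,
      real_inner_smul_left, real_inner_smul_left, real_inner_smul_right, i00, c1, ← hg2]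
    field_simp; ring
  rw [b11, b22, b12] at hG
  have hom2 : 0 < om ^ 2 := by positivity
  have hr1 : 0 < ‖p1‖ := by
    rcases (norm_nonneg p1).eq_or_lt with h | h
    · rw [← h] at hG
      nlinarith [sq_nonneg ⟪p1, p2⟫]
    · exact h
  obtain ⟨e1, he1⟩ : ∃ e1 : E, e1 = ‖p1‖⁻¹ • p1 := ⟨_, rfl⟩
  have n1 : ‖e1‖ = 1 := by rw [he1, norm_smul, norm_inv, norm_norm, inv_mul_cancel₀ hr1.ne']
  have hp10 : p1 = ‖p1‖ • e1 := by rw [he1, smul_smul, mul_inv_cancel₀ hr1.ne', one_smul]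
  have i11 : ⟪e1, e1⟫ = 1 := by rw [real_inner_self_eq_norm_sq, n1]; norm_num
  have i01 : ⟪e0, e1⟫ = 0 := by rw [he1, real_inner_smul_right, o1, mul_zero]
  obtain ⟨r2, hr2⟩ : ∃ r2, r2 = ⟪e1, p2⟫ := ⟨_, rfl⟩
  have d12 : ⟪p1, p2⟫ = ‖p1‖ * r2 := by
    conv_lhs => rw [hp10]
    rw [real_inner_smul_left, hr2]
  obtain ⟨v, hv⟩ : ∃ v, v = p2 - r2 • e1 := ⟨_, rfl⟩
  have v0 : ⟪e0, v⟫ = 0 := by rw [hv, inner_sub_right, real_inner_smul_right, o2, i01]; ring
  have v1 : ⟪e1, v⟫ = 0 := by rw [hv, inner_sub_right, real_inner_smul_right, i11, ← hr2]; ring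
  have nv : ‖v‖ ^ 2 = ‖p2‖ ^ 2 - r2 ^ 2 := by
    rw [hv, norm_sub_sq_real, real_inner_smul_right, real_inner_comm, ← hr2, norm_smul, n1,
      mul_one, Real.norm_eq_abs, sq_abs]
    ring
  have hG' : om ^ 2 ≤ (‖p1‖ * ‖v‖) ^ 2 := by
    rw [mul_pow, nv]
    rw [d12] at hG
    nlinarith
  have hle : om ≤ ‖p1‖ * ‖v‖ := (pow_le_pow_iff_left₀ hom.le (by positivity) two_ne_zero).1 hG'
  have hr3 : 0 < ‖v‖ := by
    rcases (norm_nonneg v).eq_or_lt with h | h
    · rw [← h, mul_zero] at hle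
      linarith
    · exact h
  obtain ⟨e2, he2⟩ : ∃ e2 : E, e2 = ‖v‖⁻¹ • v := ⟨_, rfl⟩
  have n2 : ‖e2‖ = 1 := by rw [he2, norm_smul, norm_inv, norm_norm, inv_mul_cancel₀ hr3.ne']
  have hv0 : v = ‖v‖ • e2 := by rw [he2, smul_smul, mul_inv_cancel₀ hr3.ne', one_smul]
  refine ⟨e0, e1, e2, g1, g2, ‖p1‖, r2, ‖v‖, n0, n1, n2, i01, ?_, ?_, hr1, hr3, hle, hw0, ?_, ?_⟩
  · rw [he2, real_inner_smul_right, v0, mul_zero]
  · rw [he2, real_inner_smul_right, v1, mul_zero]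
  · rw [← hp10, hp1]; abel
  · rw [← hv0, hv, hp2]; abel

theorem small_ball (u1 u2 w : E) (hw : w ≠ 0) {n t mu om : ℝ} (hn : 0 < n) (ht : 0 < t)
    (hom : 0 < om)
    (hG : om ^ 2 ≤ (‖u1‖ ^ 2 - ⟪u1, w⟫ ^ 2 / ‖w‖ ^ 2) * (‖u2‖ ^ 2 - ⟪u2, w⟫ ^ 2 / ‖w‖ ^ 2)
      - (⟪u1, u2⟫ - ⟪u1, w⟫ * ⟪u2, w⟫ / ‖w‖ ^ 2) ^ 2) :
    ∫ x, max (t + mu * ⟪w, x⟫ - max ⟪u1, x⟫ (max ⟪u2, x⟫ (-⟪u1 + u2 + w, x⟫ / n))) 0
        ∂(stdGaussian E) ≤ KK (n + 2) t mu (‖w‖ ^ 2) om := by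
  obtain ⟨e0, e1, e2, g1, g2, r1, r2, r3, n0, n1, n2, i01, i02, i12, h1, h3, hle, hw0, hu1, hu2⟩ :=
    sb_frame u1 u2 w hw hom hG
  have hpi := Real.pi_pos
  obtain ⟨W, hW⟩ : ∃ W, W = ‖w‖ := ⟨_, rfl⟩
  rw [← hW] at hw0 ⊢
  set g : ℝ × ℝ × ℝ → ℝ := fun p => max (min ((t + mu * W * p.1 - g1 * p.1) - r1 * p.2.1)
    (min ((t + mu * W * p.1 - g2 * p.1) - r2 * p.2.1 - r3 * p.2.2)
      (((n * (t + mu * W * p.1) + (g1 + g2 + W) * p.1) + (r1 + r2) * p.2.1 + r3 * p.2.2) / n))) 0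
    with hg
  have hgc : Continuous g := by rw [hg]; fun_prop
  have hm : Measurable fun x : E => (⟪e0, x⟫, ⟪e1, x⟫, ⟪e2, x⟫) :=
    (by fun_prop : Continuous fun x : E => (⟪e0, x⟫, ⟪e1, x⟫, ⟪e2, x⟫)).measurable
  have hfg : ∀ x : E, max (t + mu * ⟪w, x⟫ - max ⟪u1, x⟫ (max ⟪u2, x⟫ (-⟪u1 + u2 + w, x⟫ / n))) 0
      = g (⟪e0, x⟫, ⟪e1, x⟫, ⟪e2, x⟫) := by
    intro x
    rw [← min_sub_sub_left, ← min_sub_sub_left, hg, inner_add_left, inner_add_left, hu1, hu2, hw0]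
    simp only [inner_add_left, real_inner_smul_left]
    congr 2
    · ring
    · congr 1
      · ring
      · field_simp; ring
  simp only [hfg]
  rw [← integral_map hm.aemeasurable hgc.aestronglyMeasurable,
    map_inner_three n0 n1 n2 i01 i02 i12,
    integral_eq_lintegral_of_nonneg_ae ?_ hgc.aestronglyMeasurable]
  swap
  · exact ae_of_all _ fun q => le_max_right _ _
  have hKK : 0 ≤ KK (n + 2) t mu (W ^ 2) om := by unfold KK; positivity
  refine ENNReal.toReal_le_of_le_ofReal hKK ?_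
  rw [lintegral_prod _ (hgc.measurable.ennreal_ofReal).aemeasurable]
  have hb : ∀ x : ℝ, ∫⁻ q : ℝ × ℝ, ENNReal.ofReal (g (x, q))
      ∂((gaussianReal 0 1).prod (gaussianReal 0 1))
      ≤ ENNReal.ofReal ((max ((n + 2) * t + ((1 + (n + 2) * mu) * W) * x) 0) ^ 3
        / (12 * (n + 2) * Real.pi * om)) := by
    intro x
    refine (sb_plane_lint (t + mu * W * x - g1 * x) (t + mu * W * x - g2 * x)
      (n * (t + mu * W * x) + (g1 + g2 + W) * x) r1 r2 r3 n hn h1 h3).trans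
      (ENNReal.ofReal_le_ofReal ?_)
    have : t + mu * W * x - g1 * x + (t + mu * W * x - g2 * x)
        + (n * (t + mu * W * x) + (g1 + g2 + W) * x)
        = (n + 2) * t + ((1 + (n + 2) * mu) * W) * x := by ring
    rw [this]
    gcongr
  refine (lintegral_mono hb).trans ?_
  rw [← ofReal_integral_eq_lintegral_ofReal ((integrable_posPart_cube _ _).div_const _)
    (ae_of_all _ fun x => by positivity)]
  refine ENNReal.ofReal_le_ofReal ?_
  rw [integral_div]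
  unfold KK
  refine div_le_div_of_nonneg_right ((integral_posPart_cube_le (by positivity) _).trans
    (le_of_eq ?_)) (by positivity)
  ring

end Vale.Agent.P226
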