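import Vale.Agent.P226.Gmax
import Vale.Agent.P226.SmallBall

/-! Multi-cell inequalities at a maximiser. -/

namespace Vale.Agent.P226

open MeasureTheory ProbabilityTheory Set
open scoped RealInnerProductSpace

variable {E : Type} [NormedAddCommGroup E] [InnerProductSpace ℝ E] [FiniteDimensional ℝ E]
  [MeasurableSpace E] [BorelSpace E]
variable {ι : Type} [Fintype ι] [Nonempty ι] [DecidableEq ι] {z : ι → E} {F : ℝ}

set_option linter.unusedSectionVars false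

lemma tm_inner_nonpos (h : Crit z F) (R : Finset ι) {a : ι} (ha : a ∉ R) :
    ⟪z a, ∑ j ∈ R, z j⟫ ≤ 0 := by
  rw [inner_sum]
  exact Finset.sum_nonpos fun j hj => (h.obtuse a j (by rintro rfl; exact ha hj)).le

lemma tm_sum_ne_zero (h : Crit z F) {R : Finset ι} (hR : R.Nonempty) {a : ι} (ha : a ∉ R) :
    ∑ j ∈ R, z j ≠ 0 := by
  intro h0
  have : ⟪z a, ∑ j ∈ R, z j⟫ < 0 := by
    rw [inner_sum]
    exact Finset.sum_neg (fun j hj => h.obtuse a j (by rintro rfl; exact ha hj)) hR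
  rw [h0, inner_zero_right] at this
  exact lt_irrefl _ this

lemma zeta_le (h : Crit z F) (R : Finset ι) : ‖∑ j ∈ R, z j‖ ^ 2 ≤ ∑ j ∈ R, ‖z j‖ ^ 2 := by
  induction R using Finset.induction_on with
  | empty => simp
  | insert a R ha ih =>
    rw [Finset.sum_insert ha, Finset.sum_insert ha, norm_add_sq_real]
    have := tm_inner_nonpos h R ha
    linarith

lemma zeta_ge (z : ι → E) (R : Finset ι) :
    2 * ∑ j ∈ R, ‖z j‖ ^ 2 - ‖∑ j ∈ R, z j‖ ^ 2 ≤ (∑ j ∈ R, ‖z j‖) ^ 2 := by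
  induction R using Finset.induction_on with
  | empty => simp
  | insert a R ha ih =>
    rw [Finset.sum_insert ha, Finset.sum_insert ha, Finset.sum_insert ha, norm_add_sq_real]
    have h1 := abs_real_inner_le_norm (z a) (∑ j ∈ R, z j)
    have h2 := norm_sum_le R z
    have h3 := mul_le_mul_of_nonneg_left h2 (norm_nonneg (z a))
    have h4 := neg_abs_le ⟪z a, ∑ j ∈ R, z j⟫
    nlinarith

/-- rearrangement inequality: `R` is the set of small cells, `Rᶜ` the set of `m` large ones -/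
lemma T_general (h : Crit z F) (hIH : Bound E (Fintype.card ι - 1)) (R : Finset ι)
    (hR : R.Nonempty) (hRc : Rᶜ.Nonempty) (t mu : ℝ) {N0 : E → ℝ}
    (hN0 : ∀ x, ∃ i, i ∉ R ∧ N0 x ≤ ⟪z i, x⟫)
    (hint : Integrable (fun x => max (t + mu * ⟪∑ j ∈ R, z j, x⟫ - N0 x) 0) (stdGaussian E)) :
    t * ∑ j ∈ R, mass z j + (mu + 1 / (2 * (Rᶜ.card : ℝ))) * ‖∑ j ∈ R, z j‖ ^ 2
      - ∫ x, max (t + mu * ⟪∑ j ∈ R, z j, x⟫ - N0 x) 0 ∂(stdGaussian E)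
      < (∑ j ∈ R, ‖z j‖ ^ 2) / 2 := by
  obtain ⟨w, hw⟩ : ∃ w, w = ∑ j ∈ R, z j := ⟨_, rfl⟩
  rw [← hw] at hint ⊢
  have : Nonempty {i // i ∈ Rᶜ} := hRc.to_subtype
  set zl : {i // i ∈ Rᶜ} → E := fun i => z i with hzl
  have hm : (0 : ℝ) < (Rᶜ.card : ℝ) := by exact_mod_cast hRc.card_pos
  have hwc : ∑ j ∈ Rᶜ, z j = -w := by
    have := Finset.sum_add_sum_compl R z
    rw [h.sum_zero, ← hw] at this
    exact eq_neg_of_add_eq_zero_right this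
  have hF : ∑ j ∈ R, ‖z j‖ ^ 2 + ∑ j ∈ Rᶜ, ‖z j‖ ^ 2 = F := by
    rw [Finset.sum_add_sum_compl, h.sum_sq]
  have htau : Integrable (fun x => t + mu * ⟪w, x⟫) (stdGaussian E) :=
    (integrable_const t).add ((integrable_inner w).const_mul mu)
  have h1 := sum_setIntegral_le (A := cell z)
    (fun i => (measurableSet_cell z i).nullMeasurableSet)
    (fun i j hij => (disjoint_cell z hij).aedisjoint) h.cover
    (h := fun i x => if i ∈ R then t + mu * ⟪w, x⟫ else ⟪z i, x⟫)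
    (H := fun x => gmax zl x + max (t + mu * ⟪w, x⟫ - N0 x) 0)
    (fun i => by
      by_cases hi : i ∈ R
      · simpa only [hi, if_true] using htau
      · simpa only [hi, if_false] using integrable_inner (z i))
    ((integrable_gmax zl).add hint)
    (fun i x _ => by
      by_cases hi : i ∈ R
      · simp only [hi, if_true]
        obtain ⟨j, hj, hj'⟩ := hN0 x
        have a1 := le_gmax zl x ⟨j, Finset.mem_compl.2 hj⟩
        have a2 := le_max_left (t + mu * ⟪w, x⟫ - N0 x) 0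
        simp only [hzl] at a1 ⊢
        linarith
      · simp only [hi, if_false]
        have a1 := le_gmax zl x ⟨i, Finset.mem_compl.2 hi⟩
        have a2 := le_max_right (t + mu * ⟪w, x⟫ - N0 x) 0
        simp only [hzl] at a1 ⊢
        linarith)
  rw [integral_add (integrable_gmax zl) hint, ← Finset.sum_add_sum_compl R] at h1
  have e1 : ∑ i ∈ R, ∫ x in cell z i, (if i ∈ R then t + mu * ⟪w, x⟫ else ⟪z i, x⟫)
      ∂(stdGaussian E) = t * ∑ j ∈ R, mass z j + mu * ‖w‖ ^ 2 := by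
    rw [← real_inner_self_eq_norm_sq]
    conv_rhs => rw [show ⟪w, w⟫ = ⟪w, ∑ j ∈ R, z j⟫ by rw [← hw], inner_sum]
    rw [Finset.mul_sum, Finset.mul_sum, ← Finset.sum_add_distrib]
    refine Finset.sum_congr rfl fun i hi => ?_
    simp only [hi, if_true]
    rw [integral_add (integrable_const t) ((integrable_inner w).const_mul mu).integrableOn,
      integral_const_mul, setIntegral_inner, h.moment, setIntegral_const, smul_eq_mul, mul_comm]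
    rfl
  have e2 : ∑ i ∈ Rᶜ, ∫ x in cell z i, (if i ∈ R then t + mu * ⟪w, x⟫ else ⟪z i, x⟫)
      ∂(stdGaussian E) = ∑ j ∈ Rᶜ, ‖z j‖ ^ 2 := by
    refine Finset.sum_congr rfl fun i hi => ?_
    simp only [Finset.mem_compl.1 hi, if_false]
    rw [setIntegral_inner, h.moment, real_inner_self_eq_norm_sq]
  rw [e1, e2] at h1
  change _ ≤ fE zl + _ at h1
  have hcard : Fintype.card {i // i ∈ Rᶜ} ≤ Fintype.card ι - 1 := by
    rw [Fintype.card_coe, Finset.card_compl]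
    have := hR.card_pos
    omega
  have h2 := hIH _ hcard (fun i => zl i + (Rᶜ.card : ℝ)⁻¹ • w)
  rw [fE_add_const] at h2
  have e3 : ∑ i : {i // i ∈ Rᶜ}, ‖zl i + (Rᶜ.card : ℝ)⁻¹ • w‖ ^ 2
      = ∑ j ∈ Rᶜ, ‖z j‖ ^ 2 - ‖w‖ ^ 2 / (Rᶜ.card : ℝ) := by
    rw [Finset.sum_coe_sort Rᶜ (fun i => ‖z i + (Rᶜ.card : ℝ)⁻¹ • w‖ ^ 2)]
    simp only [norm_add_sq_real]
    rw [Finset.sum_add_distrib, Finset.sum_add_distrib, ← Finset.mul_sum, ← sum_inner, hwc,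
      Finset.sum_const, nsmul_eq_mul, norm_smul, real_inner_smul_right, inner_neg_left,
      real_inner_self_eq_norm_sq, norm_inv, Real.norm_of_nonneg hm.le]
    field_simp
    ring
  have hnn : 0 ≤ ∑ j ∈ Rᶜ, ‖z j‖ ^ 2 - ‖w‖ ^ 2 / (Rᶜ.card : ℝ) := by
    rw [← e3]; positivity
  rw [e3] at h2
  have hM : 0 < MM := lt_trans (by norm_num) MM_gt
  have h3 : √(MM * (∑ j ∈ Rᶜ, ‖z j‖ ^ 2 - ‖w‖ ^ 2 / (Rᶜ.card : ℝ)))
      ≤ (MM + (∑ j ∈ Rᶜ, ‖z j‖ ^ 2 - ‖w‖ ^ 2 / (Rᶜ.card : ℝ))) / 2 := by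
    refine Real.sqrt_le_iff.2 ⟨by positivity, ?_⟩
    nlinarith [sq_nonneg (MM - (∑ j ∈ Rᶜ, ‖z j‖ ^ 2 - ‖w‖ ^ 2 / (Rᶜ.card : ℝ)))]
  have e4 : (mu + 1 / (2 * (Rᶜ.card : ℝ))) * ‖w‖ ^ 2
      = mu * ‖w‖ ^ 2 + ‖w‖ ^ 2 / (Rᶜ.card : ℝ) / 2 := by field_simp
  rw [e4]
  have := h.hF
  linarith

omit [Fintype ι] [Nonempty ι] [DecidableEq ι] in
lemma tm_int (u1 u2 w : E) (t mu n : ℝ) :
    Integrable (fun x => max (t + mu * ⟪w, x⟫
      - max ⟪u1, x⟫ (max ⟪u2, x⟫ (-⟪u1 + u2 + w, x⟫ / n))) 0) (stdGaussian E) :=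
  (((integrable_const t).add ((integrable_inner w).const_mul mu)).sub
    ((integrable_inner u1).sup ((integrable_inner u2).sup
      ((integrable_inner (u1 + u2 + w)).neg.div_const n)))).sup (integrable_zero _ _ _)

lemma tm_alg3 {a1 a2 a3 ze b1 b2 c om : ℝ} (hz : 0 < ze) (h1 : b1 ≤ 0) (h2 : b2 ≤ 0)
    (h3 : 0 ≤ b1 + b2 + ze) (ha : a3 = a1 + 2 * c + a2 + 2 * (b1 + b2) + ze)
    (o13 : a3 ≤ a1) (o23 : a3 ≤ a2) (ha3 : 0 ≤ a3)
    (hω : 4 * om ^ 2 ≤ a3 * (2 * (a1 + a2) - a3) - (a1 - a2) ^ 2 - 2 * ze * (a1 + a2 - a3) - ze ^ 2) :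
    om ^ 2 ≤ (a1 - b1 ^ 2 / ze) * (a2 - b2 ^ 2 / ze) - (c - b1 * b2 / ze) ^ 2 := by
  obtain ⟨d1, hd1⟩ : ∃ d, d = b1 ^ 2 / ze := ⟨_, rfl⟩
  obtain ⟨d2, hd2⟩ : ∃ d, d = b2 ^ 2 / ze := ⟨_, rfl⟩
  obtain ⟨d3, hd3⟩ : ∃ d, d = (b1 + b2 + ze) ^ 2 / ze := ⟨_, rfl⟩
  have p1 : 0 ≤ d1 := by rw [hd1]; positivity
  have p2 : 0 ≤ d2 := by rw [hd2]; positivity
  have p3 : 0 ≤ d3 := by rw [hd3]; positivity
  have ps : d1 + d2 + d3 ≤ ze := by
    rw [hd1, hd2, hd3, ← add_div, ← add_div, div_le_iff₀ hz]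
    nlinarith [mul_nonneg_of_nonpos_of_nonpos h1 h2, mul_nonneg (neg_nonneg.2 h1) h3,
      mul_nonneg (neg_nonneg.2 h2) h3]
  have ec : c - b1 * b2 / ze = ((a3 - d3) - (a1 - d1) - (a2 - d2)) / 2 := by
    rw [ha, hd1, hd2, hd3]; field_simp; ring
  rw [ec, ← hd1, ← hd2]
  have q1 : d1 * (a2 + a3 - a1) ≤ d1 * (a1 + a2 - a3) := mul_le_mul_of_nonneg_left (by linarith) p1
  have q2 : d2 * (a1 + a3 - a2) ≤ d2 * (a1 + a2 - a3) := mul_le_mul_of_nonneg_left (by linarith) p2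
  have q3 : (d1 + d2 + d3) * (a1 + a2 - a3) ≤ ze * (a1 + a2 - a3) :=
    mul_le_mul_of_nonneg_right ps (by linarith)
  have q4 : (d1 + d2 + d3) ^ 2 ≤ ze ^ 2 := pow_le_pow_left₀ (by positivity) ps 2
  nlinarith [mul_nonneg p1 p2, mul_nonneg p1 p3, mul_nonneg p2 p3]

lemma tm_alg4 {ai a2 a3 ze b1 b3 c om : ℝ} (hz : 0 < ze) (h1 : b1 ≤ 0) (h2 : b3 ≤ 0)
    (h3 : 0 ≤ b1 + b3 + ze) (hc : c ≤ 0) (hc' : -c ≤ a3 / 2) (o : a2 ≤ ai) (o23 : a3 ≤ a2)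
    (hz3 : ze ≤ a3) (hω : om ^ 2 ≤ a2 * (a3 - ze) - a3 ^ 2 / 4) :
    om ^ 2 ≤ (ai - b1 ^ 2 / ze) * (a3 - b3 ^ 2 / ze) - (c - b1 * b3 / ze) ^ 2 := by
  have e : (ai - b1 ^ 2 / ze) * (a3 - b3 ^ 2 / ze) - (c - b1 * b3 / ze) ^ 2
      = ai * a3 - c ^ 2 - (ai * b3 ^ 2 + a3 * b1 ^ 2 - 2 * c * (b1 * b3)) / ze := by
    field_simp; ring
  have p := mul_nonneg_of_nonpos_of_nonpos h1 h2
  have hai : 0 ≤ ai := by linarith
  have q1 : (b1 + b3) ^ 2 ≤ ze ^ 2 := by nlinarith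
  have q2 : ai * b3 ^ 2 + a3 * b1 ^ 2 - 2 * c * (b1 * b3) ≤ ai * ze * ze := by
    have r1 : a3 * b1 ^ 2 ≤ ai * b1 ^ 2 := mul_le_mul_of_nonneg_right (by linarith) (sq_nonneg _)
    have r2 : -c * (b1 * b3) ≤ ai * (b1 * b3) := mul_le_mul_of_nonneg_right (by linarith) p
    have r3 := mul_le_mul_of_nonneg_left q1 hai
    nlinarith
  have q3 : (ai * b3 ^ 2 + a3 * b1 ^ 2 - 2 * c * (b1 * b3)) / ze ≤ ai * ze := by
    rw [div_le_iff₀ hz]; exact q2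
  have q4 : c ^ 2 ≤ a3 ^ 2 / 4 := by nlinarith
  have q5 : a2 * (a3 - ze) ≤ ai * (a3 - ze) := mul_le_mul_of_nonneg_right o (by linarith)
  rw [e]
  nlinarith

theorem T3_fact (h : Crit z F) (hk : 4 ≤ Fintype.card ι) (hIH : Bound E (Fintype.card ι - 1))
    {i1 i2 i3 : ι} (h12 : i1 ≠ i2) (h13 : i1 ≠ i3) (h23 : i2 ≠ i3)
    (o13 : ‖z i3‖ ^ 2 ≤ ‖z i1‖ ^ 2) (o23 : ‖z i3‖ ^ 2 ≤ ‖z i2‖ ^ 2)
    {t mu om : ℝ} (ht : 0 < t) (hom : 0 < om)
    (hω : 4 * om ^ 2 ≤ ‖z i3‖ ^ 2 * (2 * (‖z i1‖ ^ 2 + ‖z i2‖ ^ 2) - ‖z i3‖ ^ 2)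
      - (‖z i1‖ ^ 2 - ‖z i2‖ ^ 2) ^ 2
      - 2 * ‖∑ j ∈ ({i1, i2, i3} : Finset ι)ᶜ, z j‖ ^ 2 * (‖z i1‖ ^ 2 + ‖z i2‖ ^ 2 - ‖z i3‖ ^ 2)
      - (‖∑ j ∈ ({i1, i2, i3} : Finset ι)ᶜ, z j‖ ^ 2) ^ 2) :
    t * ∑ j ∈ ({i1, i2, i3} : Finset ι)ᶜ, mass z j
      + (mu + 1 / 6) * ‖∑ j ∈ ({i1, i2, i3} : Finset ι)ᶜ, z j‖ ^ 2
      - KK 3 t mu (‖∑ j ∈ ({i1, i2, i3} : Finset ι)ᶜ, z j‖ ^ 2) om
      < (∑ j ∈ ({i1, i2, i3} : Finset ι)ᶜ, ‖z j‖ ^ 2) / 2 := by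
  set R : Finset ι := ({i1, i2, i3} : Finset ι)ᶜ with hRdef
  have hRc : Rᶜ = {i1, i2, i3} := compl_compl _
  have hcard : Rᶜ.card = 3 := by
    rw [hRc]; exact Finset.card_eq_three.2 ⟨i1, i2, i3, h12, h13, h23, rfl⟩
  have hR : R.Nonempty := by
    rw [← Finset.card_pos]
    have := Finset.card_add_card_compl R
    omega
  have n1 : i1 ∉ R := by simp [hRdef]
  have n2 : i2 ∉ R := by simp [hRdef]
  have n3 : i3 ∉ R := by simp [hRdef]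
  have hw0 := tm_sum_ne_zero h hR n1
  have b1 := tm_inner_nonpos h R n1
  have b2 := tm_inner_nonpos h R n2
  have b3 := tm_inner_nonpos h R n3
  have hs := Finset.sum_add_sum_compl R z
  rw [h.sum_zero, hRc, Finset.sum_insert (by simp [h12, h13]), Finset.sum_pair h23] at hs
  have hT := T_general h hIH R hR ⟨i1, Finset.mem_compl.2 n1⟩ t mu
    (N0 := fun x => max ⟪z i1, x⟫ (max ⟪z i2, x⟫ (-⟪z i1 + z i2 + ∑ j ∈ R, z j, x⟫ / 1)))
    ?_ (tm_int _ _ _ _ _ _)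
  all_goals
    generalize ∑ j ∈ R, z j = w at *
    have e3 : z i3 = -(z i1 + z i2 + w) := by
      rw [eq_neg_iff_add_eq_zero, ← hs]; abel
  · have hsb := small_ball (z i1) (z i2) w hw0 (n := 1) (mu := mu) one_pos ht hom ?_
    · rw [hcard] at hT
      norm_num at hT hsb ⊢
      linarith
    · refine tm_alg3 (a3 := ‖z i3‖ ^ 2) (by positivity) b1 b2 ?_ ?_ o13 o23 (sq_nonneg _) hω
      · rw [e3, inner_neg_left, inner_add_left, inner_add_left, real_inner_self_eq_norm_sq] at b3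
        linarith
      · rw [e3, norm_neg, norm_add_sq_real, norm_add_sq_real, inner_add_left]
  · intro x
    rcases max_choice ⟪z i1, x⟫ (max ⟪z i2, x⟫ (-⟪z i1 + z i2 + w, x⟫ / 1)) with a | a
    · exact ⟨i1, n1, a.le⟩
    · rcases max_choice ⟪z i2, x⟫ (-⟪z i1 + z i2 + w, x⟫ / 1) with b | b
      · exact ⟨i2, n2, (a.trans b).le⟩
      · refine ⟨i3, n3, (a.trans b).le.trans ?_⟩
        rw [e3, inner_neg_left, div_one]

lemma T4_aux (h : Crit z F) (hIH : Bound E (Fintype.card ι - 1)) {R : Finset ι} (hR : R.Nonempty)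
    (hcard : Rᶜ.card = 4) {i k i3 i4 : ι} (n1 : i ∉ R) (n2 : k ∉ R) (n3 : i3 ∉ R) (n4 : i4 ∉ R)
    (h13 : i ≠ i3) (hs : ∑ j ∈ R, z j + (z i + z k + z i3 + z i4) = 0) {a2 : ℝ}
    (hc : -⟪z i, z i3⟫ ≤ ‖z i3‖ ^ 2 / 2)
    (o12 : a2 ≤ ‖z i‖ ^ 2) (o23 : ‖z i3‖ ^ 2 ≤ a2)
    (hz : ‖∑ j ∈ R, z j‖ ^ 2 ≤ ‖z i3‖ ^ 2)
    {t mu om : ℝ} (ht : 0 < t) (hom : 0 < om)
    (hω : om ^ 2 ≤ a2 * (‖z i3‖ ^ 2 - ‖∑ j ∈ R, z j‖ ^ 2) - (‖z i3‖ ^ 2) ^ 2 / 4) :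
    t * ∑ j ∈ R, mass z j + (mu + 1 / 8) * ‖∑ j ∈ R, z j‖ ^ 2
      - KK 4 t mu (‖∑ j ∈ R, z j‖ ^ 2) om < (∑ j ∈ R, ‖z j‖ ^ 2) / 2 := by
  have hw0 := tm_sum_ne_zero h hR n1
  have b1 := tm_inner_nonpos h R n1
  have b2 := tm_inner_nonpos h R n2
  have b3 := tm_inner_nonpos h R n3
  have b4 := tm_inner_nonpos h R n4
  have hT := T_general h hIH R hR ⟨i, Finset.mem_compl.2 n1⟩ t mu
    (N0 := fun x => max ⟪z i, x⟫ (max ⟪z i3, x⟫ (-⟪z i + z i3 + ∑ j ∈ R, z j, x⟫ / 2)))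
    ?_ (tm_int _ _ _ _ _ _)
  all_goals
    generalize ∑ j ∈ R, z j = w at *
    have e3 : z i + z i3 + w = -(z k + z i4) := by
      rw [eq_neg_iff_add_eq_zero, ← hs]; abel
  · have hsb := small_ball (z i) (z i3) w hw0 (n := 2) (mu := mu) two_pos ht hom ?_
    · rw [hcard] at hT
      norm_num at hT hsb ⊢
      linarith
    · refine tm_alg4 (by positivity) b1 b3 ?_ (h.obtuse i i3 h13).le hc o12 o23 hz hω
      have : ⟪z i + z i3 + w, w⟫ = -(⟪z k, w⟫ + ⟪z i4, w⟫) := by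
        rw [e3, inner_neg_left, inner_add_left]
      rw [inner_add_left, inner_add_left, real_inner_self_eq_norm_sq] at this
      linarith
  · intro x
    rcases max_choice ⟪z i, x⟫ (max ⟪z i3, x⟫ (-⟪z i + z i3 + w, x⟫ / 2)) with a | a
    · exact ⟨i, n1, a.le⟩
    · rcases max_choice ⟪z i3, x⟫ (-⟪z i + z i3 + w, x⟫ / 2) with b | b
      · exact ⟨i3, n3, (a.trans b).le⟩
      · have e4 : -⟪z i + z i3 + w, x⟫ / 2 = (⟪z k, x⟫ + ⟪z i4, x⟫) / 2 := by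
          rw [e3, inner_neg_left, inner_add_left, neg_neg]
        rcases le_total ⟪z k, x⟫ ⟪z i4, x⟫ with c | c
        · exact ⟨i4, n4, (a.trans b).le.trans (by rw [e4]; linarith)⟩
        · exact ⟨k, n2, (a.trans b).le.trans (by rw [e4]; linarith)⟩

theorem T4_fact (h : Crit z F) (hk : 5 ≤ Fintype.card ι) (hIH : Bound E (Fintype.card ι - 1))
    {i1 i2 i3 i4 : ι} (h12 : i1 ≠ i2) (h13 : i1 ≠ i3) (h14 : i1 ≠ i4) (h23 : i2 ≠ i3)
    (h24 : i2 ≠ i4) (h34 : i3 ≠ i4)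
    (o12 : ‖z i2‖ ^ 2 ≤ ‖z i1‖ ^ 2) (o23 : ‖z i3‖ ^ 2 ≤ ‖z i2‖ ^ 2)
    (hz : ‖∑ j ∈ ({i1, i2, i3, i4} : Finset ι)ᶜ, z j‖ ^ 2 ≤ ‖z i3‖ ^ 2)
    {t mu om : ℝ} (ht : 0 < t) (hom : 0 < om)
    (hω : om ^ 2 ≤ ‖z i2‖ ^ 2 * (‖z i3‖ ^ 2 - ‖∑ j ∈ ({i1, i2, i3, i4} : Finset ι)ᶜ, z j‖ ^ 2)
      - (‖z i3‖ ^ 2) ^ 2 / 4) :
    t * ∑ j ∈ ({i1, i2, i3, i4} : Finset ι)ᶜ, mass z j
      + (mu + 1 / 8) * ‖∑ j ∈ ({i1, i2, i3, i4} : Finset ι)ᶜ, z j‖ ^ 2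
      - KK 4 t mu (‖∑ j ∈ ({i1, i2, i3, i4} : Finset ι)ᶜ, z j‖ ^ 2) om
      < (∑ j ∈ ({i1, i2, i3, i4} : Finset ι)ᶜ, ‖z j‖ ^ 2) / 2 := by
  set R : Finset ι := ({i1, i2, i3, i4} : Finset ι)ᶜ with hRdef
  have hRc : Rᶜ = {i1, i2, i3, i4} := compl_compl _
  have hcard : Rᶜ.card = 4 := by
    rw [hRc, Finset.card_insert_of_notMem (by simp [h12, h13, h14]),
      Finset.card_insert_of_notMem (by simp [h23, h24]), Finset.card_pair h34]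
  have hR : R.Nonempty := by
    rw [← Finset.card_pos]
    have := Finset.card_add_card_compl R
    omega
  have n1 : i1 ∉ R := by simp [hRdef]
  have n2 : i2 ∉ R := by simp [hRdef]
  have n3 : i3 ∉ R := by simp [hRdef]
  have n4 : i4 ∉ R := by simp [hRdef]
  have hs := Finset.sum_add_sum_compl R z
  rw [h.sum_zero, hRc, Finset.sum_insert (by simp [h12, h13, h14]),
    Finset.sum_insert (by simp [h23, h24]), Finset.sum_pair h34] at hs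
  have b3 := tm_inner_nonpos h R n3
  have b4 := (h.obtuse i3 i4 h34).le
  have hs3 : ⟪z i3, ∑ j ∈ R, z j + (z i1 + (z i2 + (z i3 + z i4)))⟫ = 0 := by
    rw [hs, inner_zero_right]
  rw [inner_add_right, inner_add_right, inner_add_right, inner_add_right,
    real_inner_self_eq_norm_sq, real_inner_comm (z i1), real_inner_comm (z i2)] at hs3
  by_cases hc : -⟪z i1, z i3⟫ ≤ ‖z i3‖ ^ 2 / 2
  · exact T4_aux h hIH hR hcard n1 n2 n3 n4 h13 (by rw [← hs]; abel) hc o12 o23 hz ht hom hω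
  · exact T4_aux h hIH hR hcard n2 n1 n3 n4 h23 (by rw [← hs]; abel) (by linarith) le_rfl o23 hz
      ht hom hω

omit [Fintype ι] [Nonempty ι] [DecidableEq ι] in
lemma tm_face [Fintype ι] [DecidableEq ι] (z : ι → E) {i a b c : ι} (ha : a ≠ i) (hb : b ≠ i)
    (hc : c ≠ i) (hall : ∀ j, j ≠ i → j = a ∨ j = b ∨ j = c) :
    fE (fun j : {j // j ≠ i} => z j)
      = (‖z a - z b‖ + ‖z a - z c‖ + ‖z b - z c‖) * (phi 0 / 2) := by
  have : Nonempty {j // j ≠ i} := ⟨⟨a, ha⟩⟩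
  rw [← fE_three]
  refine le_antisymm (fE_mono fun j => ?_) (fE_mono fun j => ?_)
  · rcases hall j j.2 with e | e | e
    · exact ⟨0, by simp [e]⟩
    · exact ⟨1, by simp [e]⟩
    · exact ⟨2, by simp [e]⟩
  · fin_cases j
    · exact ⟨⟨a, ha⟩, by simp⟩
    · exact ⟨⟨b, hb⟩, by simp⟩
    · exact ⟨⟨c, hc⟩, by simp⟩

theorem Q4_fact (h : Crit z F) (hk : Fintype.card ι = 4) :
    9 / 4 * ∑ i : ι, (fE (fun j : {j // j ≠ i} => z j)) ^ 2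
      - 3 / 8 * (∑ i : ι, fE (fun j : {j // j ≠ i} => z j)) ^ 2 ≤ 2 * F * MM := by
  obtain e := (Fintype.equivFinOfCardEq hk).symm
  have hne : ∀ {a b : Fin 4}, a ≠ b → e a ≠ e b := fun hab => e.injective.ne hab
  have hall : ∀ j, j = e 0 ∨ j = e 1 ∨ j = e 2 ∨ j = e 3 := by
    intro j
    obtain ⟨k, rfl⟩ := e.surjective j
    fin_cases k <;> simp
  have f0 := tm_face z (i := e 0) (a := e 1) (b := e 2) (c := e 3) (hne (by decide))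
    (hne (by decide)) (hne (by decide)) (fun j hj => by have := hall j; tauto)
  have f1 := tm_face z (i := e 1) (a := e 0) (b := e 2) (c := e 3) (hne (by decide))
    (hne (by decide)) (hne (by decide)) (fun j hj => by have := hall j; tauto)
  have f2 := tm_face z (i := e 2) (a := e 0) (b := e 1) (c := e 3) (hne (by decide))
    (hne (by decide)) (hne (by decide)) (fun j hj => by have := hall j; tauto)
  have f3 := tm_face z (i := e 3) (a := e 0) (b := e 1) (c := e 2) (hne (by decide))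
    (hne (by decide)) (hne (by decide)) (fun j hj => by have := hall j; tauto)
  have s0 := h.sum_zero
  have s1 := h.sum_sq
  rw [← e.sum_comp, Fin.sum_univ_four] at s0 s1
  rw [← e.sum_comp, ← e.sum_comp, Fin.sum_univ_four, Fin.sum_univ_four, f0, f1, f2, f3]
  have s2 : ‖z (e 0) + z (e 1) + z (e 2) + z (e 3)‖ ^ 2 = 0 := by rw [s0]; simp
  simp only [norm_add_sq_real, inner_add_left] at s2
  have d01 := norm_sub_sq_real (z (e 0)) (z (e 1))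
  have d02 := norm_sub_sq_real (z (e 0)) (z (e 2))
  have d03 := norm_sub_sq_real (z (e 0)) (z (e 3))
  have d12 := norm_sub_sq_real (z (e 1)) (z (e 2))
  have d13 := norm_sub_sq_real (z (e 1)) (z (e 3))
  have d23 := norm_sub_sq_real (z (e 2)) (z (e 3))
  generalize ‖z (e 0) - z (e 1)‖ = x01 at *
  generalize ‖z (e 0) - z (e 2)‖ = x02 at *
  generalize ‖z (e 0) - z (e 3)‖ = x03 at *
  generalize ‖z (e 1) - z (e 2)‖ = x12 at *
  generalize ‖z (e 1) - z (e 3)‖ = x13 at *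
  generalize ‖z (e 2) - z (e 3)‖ = x23 at *
  have hF : F = (x01 ^ 2 + x02 ^ 2 + x03 ^ 2 + x12 ^ 2 + x13 ^ 2 + x23 ^ 2) / 4 := by linarith
  have hM : MM = 9 / 4 * phi 0 ^ 2 := by
    rw [phi_zero_sq, MM]
    have := Real.pi_pos
    field_simp
    norm_num
  rw [hF, hM]
  have key : 0 ≤ phi 0 ^ 2 * (((x01 + x23) - (x02 + x13)) ^ 2 + ((x01 + x23) - (x03 + x12)) ^ 2
      + ((x02 + x13) - (x03 + x12)) ^ 2) := by positivity
  nlinarith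

end Vale.Agent.P226
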