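import Vale.Agent.P226.Maxim
import Vale.Agent.P226.CellIneq
import Vale.Agent.P226.Tm
import Vale.Agent.P226.Numeric
import Vale.Agent.P226.Final

namespace Vale.Agent.P226

open MeasureTheory ProbabilityTheory Set
open scoped RealInnerProductSpace

variable {E : Type} [NormedAddCommGroup E] [InnerProductSpace ℝ E] [FiniteDimensional ℝ E]
  [MeasurableSpace E] [BorelSpace E]

theorem no_crit {ι : Type} [Fintype ι] [Nonempty ι] (hk : 4 ≤ Fintype.card ι)
    (hIH : Bound E (Fintype.card ι - 1)) {z : ι → E} {F : ℝ} (h : Crit z F) : False := by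
  classical
  choose v hv0 hvQ hv1 hv2 hv3 using cell_facts h hk hIH
  have hL : ∀ i, Lines (‖z i‖ ^ 2) (mass z i) (J (v i)) := fun i => by
    rw [← hvQ i]; exact lines_of (hv0 i) (sq_nonneg _) (hv1 i) (hv2 i)
  have hpos : ∀ i, 0 < ‖z i‖ ^ 2 := by
    intro i
    obtain ⟨j, hj⟩ := Fintype.exists_ne_of_one_lt_card (by omega) i
    have := h.obtuse j i hj
    have hne : z i ≠ 0 := by
      intro h0; rw [h0, inner_zero_right] at this; exact lt_irrefl _ this
    positivity
  refine final_contra hk h.hF h.sum_sq h.mass_sum hL hpos (fun R => ‖∑ j ∈ R, z j‖ ^ 2)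
    (fun R => sq_nonneg _) (fun R => zeta_le h R) (fun R => ?_) ?_ ?_ ?_
  · simpa [Real.sqrt_sq (norm_nonneg _)] using zeta_ge z R
  · intro i1 i2 i3 h12 h13 h23 o13 o23 t mu om ht hom hω
    exact T3_fact h hk hIH h12 h13 h23 o13 o23 ht hom hω
  · intro h5 i1 i2 i3 i4 h12 h13 h14 h23 h24 h34 o12 o23 hz t mu om ht hom hω
    exact T4_fact h h5 hIH h12 h13 h14 h23 h24 h34 o12 o23 hz ht hom hω
  · intro h4
    refine ⟨fun i => fE (fun j : {j // j ≠ i} => z j), fun i => ?_, Q4_fact h h4⟩
    have := hv3 i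
    rw [h4] at this
    norm_num at this ⊢
    linarith

theorem bound_all (n : ℕ) : Bound E n := by
  induction n with
  | zero => intro ι _ _ hc z; exact bound_three ι (by omega) z
  | succ n ih =>
    intro ι _ _ hc z
    by_cases h3 : Fintype.card ι ≤ 3
    · exact bound_three ι h3 z
    by_cases hn : Fintype.card ι ≤ n
    · exact ih ι hn z
    have hcard : Fintype.card ι - 1 = n := by omega
    by_contra hw
    obtain ⟨z', F, h⟩ := exists_crit (ι := ι) (by omega) (hcard ▸ ih) z (not_le.mp hw)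
    exact no_crit (by omega) (hcard ▸ ih) h

end Vale.Agent.P226
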