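import Vale.Agent.P226.Gmax

/-! Existence and first-order structure of a maximiser. -/

namespace Vale.Agent.P226

open MeasureTheory ProbabilityTheory Set
open scoped RealInnerProductSpace

variable {E : Type} [NormedAddCommGroup E] [InnerProductSpace ℝ E] [FiniteDimensional ℝ E]
  [MeasurableSpace E] [BorelSpace E]
variable {ι : Type} [Fintype ι] [Nonempty ι]

lemma mx_le_of_le_sqrt {M T : ℝ} (hM : 0 ≤ M) (h : T ≤ √(M * T)) : T ≤ M := by
  by_contra hc
  push Not at hc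
  have hT : 0 < T := lt_of_le_of_lt hM hc
  have h1 : √(M * T) < T := by
    rw [Real.sqrt_lt' hT]
    nlinarith
  linarith

lemma mx_fE_zero : fE (fun _ : ι => (0 : E)) = 0 := by
  have := fE_smul (fun _ : ι => (0 : E)) (c := 0) le_rfl
  simpa using this

lemma mx_eq_zero_of_sum {z : ι → E} (h : ∑ i, ‖z i‖ ^ 2 ≤ 0) : z = fun _ => 0 := by
  funext i
  have h1 : ‖z i‖ ^ 2 ≤ ∑ i, ‖z i‖ ^ 2 :=
    Finset.single_le_sum (f := fun i => ‖z i‖ ^ 2) (fun _ _ => sq_nonneg _) (Finset.mem_univ i)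
  have h2 : ‖z i‖ ^ 2 = 0 := le_antisymm (h1.trans h) (sq_nonneg _)
  simpa using h2

lemma mx_sum_smul (z : ι → E) (c : ℝ) :
    ∑ i, ‖c • z i‖ ^ 2 = c ^ 2 * ∑ i, ‖z i‖ ^ 2 := by
  rw [Finset.mul_sum]
  refine Finset.sum_congr rfl fun i _ => ?_
  rw [norm_smul, mul_pow, Real.norm_eq_abs, sq_abs]

/-- a maximiser on the unit sphere -/
lemma mx_exists_max (w : ι → E) (hw : 0 < ∑ i, ‖w i‖ ^ 2) :
    ∃ z : ι → E, ∑ i, ‖z i‖ ^ 2 = 1 ∧
      ∀ y : ι → E, fE y ≤ fE z * √(∑ i, ‖y i‖ ^ 2) := by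
  have hnorm : ∀ y : ι → E, 0 < ∑ i, ‖y i‖ ^ 2 →
      ∑ i, ‖(√(∑ i, ‖y i‖ ^ 2))⁻¹ • y i‖ ^ 2 = 1 := by
    intro y hy
    rw [mx_sum_smul, inv_pow, Real.sq_sqrt hy.le, inv_mul_cancel₀ hy.ne']
  have hcl : IsClosed {z : ι → E | ∑ i, ‖z i‖ ^ 2 = 1} :=
    isClosed_eq (by fun_prop) continuous_const
  have hbd : Bornology.IsBounded {z : ι → E | ∑ i, ‖z i‖ ^ 2 = 1} := by
    refine (Metric.isBounded_closedBall (x := (0 : ι → E)) (r := 1)).subset ?_
    intro z hz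
    rw [mem_closedBall_zero_iff, pi_norm_le_iff_of_nonneg zero_le_one]
    intro i
    have h1 : ‖z i‖ ^ 2 ≤ ∑ i, ‖z i‖ ^ 2 :=
      Finset.single_le_sum (f := fun i => ‖z i‖ ^ 2) (fun _ _ => sq_nonneg _) (Finset.mem_univ i)
    have h2 : ∑ i, ‖z i‖ ^ 2 = 1 := hz
    have h3 : ‖z i‖ ^ 2 ≤ 1 := h2 ▸ h1
    nlinarith [norm_nonneg (z i)]
  have hK : IsCompact {z : ι → E | ∑ i, ‖z i‖ ^ 2 = 1} :=
    Metric.isCompact_of_isClosed_isBounded hcl hbd
  obtain ⟨z, hz, hmax⟩ := hK.exists_isMaxOn ⟨_, hnorm w hw⟩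
    (continuous_fE (E := E) (ι := ι)).continuousOn
  refine ⟨z, hz, fun y => ?_⟩
  rcases le_or_gt (∑ i, ‖y i‖ ^ 2) 0 with h0 | h0
  · rw [mx_eq_zero_of_sum h0, mx_fE_zero]
    simp
  · have hs : 0 < √(∑ i, ‖y i‖ ^ 2) := Real.sqrt_pos.mpr h0
    have h1 : fE (fun i => (√(∑ i, ‖y i‖ ^ 2))⁻¹ • y i) ≤ fE z := hmax (hnorm y h0)
    rw [fE_smul y (inv_nonneg.mpr hs.le)] at h1
    rw [inv_mul_le_iff₀ hs] at h1
    linarith

lemma mx_card_ne [DecidableEq ι] (j : ι) : Fintype.card {l // l ≠ j} = Fintype.card ι - 1 := by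
  simp

/-- dropping a repeated vector -/
lemma mx_drop [DecidableEq ι] (hIH : Bound E (Fintype.card ι - 1)) (u : ι → E) {i j : ι}
    (hij : i ≠ j) (hu : u j = u i) :
    fE u ≤ √(MM * ∑ l ∈ Finset.univ.erase j, ‖u l‖ ^ 2) := by
  haveI : Nonempty {l // l ≠ j} := ⟨⟨i, hij⟩⟩
  have h1 : fE u ≤ fE (fun l : {l // l ≠ j} => u l) := by
    refine fE_mono fun l => ?_
    by_cases hl : l = j
    · exact ⟨⟨i, hij⟩, by rw [hl, hu]⟩
    · exact ⟨⟨l, hl⟩, rfl⟩
  have h2 := hIH {l // l ≠ j} (mx_card_ne j).le (fun l => u l)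
  have h3 : ∑ l : {l // l ≠ j}, ‖u l‖ ^ 2 = ∑ l ∈ Finset.univ.erase j, ‖u l‖ ^ 2 :=
    (Finset.sum_subtype (Finset.univ.erase j) (p := fun l => l ≠ j) (by simp)
      (fun l => ‖u l‖ ^ 2)).symm
  rw [h3] at h2
  exact h1.trans h2

lemma mx_cover {z : ι → E} (hz : ∀ i j, i ≠ j → z i ≠ z j) :
    ∀ᵐ x ∂(stdGaussian E), ∃ i, x ∈ cell z i := by
  have h1 : ∀ᵐ x ∂(stdGaussian E), ∀ i j, i ≠ j → ⟪z i - z j, x⟫ ≠ 0 := by
    rw [ae_all_iff]; intro i
    rw [ae_all_iff]; intro j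
    by_cases hij : i = j
    · exact Filter.Eventually.of_forall fun x h => absurd hij h
    · have := null_hyperplane (sub_ne_zero.mpr (hz i j hij)) 0
      have h2 : ∀ᵐ x ∂(stdGaussian E), ⟪z i - z j, x⟫ ≠ 0 := by
        rw [ae_iff]; simpa using this
      exact h2.mono fun x hx _ => hx
  refine h1.mono fun x hx => ?_
  obtain ⟨i, hi⟩ := exists_gmax_eq z x
  refine ⟨i, fun j hj => ?_⟩
  have h2 := le_gmax z x j
  have h3 := hx j i hj
  rw [inner_sub_left] at h3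
  rw [hi] at h2
  exact lt_of_le_of_ne h2 (sub_ne_zero.mp h3)

lemma mx_sum_le {z : ι → E} (hcov : ∀ᵐ x ∂(stdGaussian E), ∃ i, x ∈ cell z i)
    {h : ι → E → ℝ} {H : E → ℝ}
    (hh : ∀ i, Integrable (h i) (stdGaussian E)) (hH : Integrable H (stdGaussian E))
    (hle : ∀ i, ∀ x ∈ cell z i, h i x ≤ H x) :
    ∑ i, ∫ x in cell z i, h i x ∂(stdGaussian E) ≤ ∫ x, H x ∂(stdGaussian E) :=
  sum_setIntegral_le (fun i => (measurableSet_cell z i).nullMeasurableSet)
    (fun _ _ hij => (disjoint_cell z hij).aedisjoint) hcov hh hH hle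

/-- pairing any family with the moments of the cells is at most its expected maximum -/
lemma mx_pair_le {z : ι → E} (hcov : ∀ᵐ x ∂(stdGaussian E), ∃ i, x ∈ cell z i) (u : ι → E) :
    ∑ i, ⟪u i, ∫ x in cell z i, x ∂(stdGaussian E)⟫ ≤ fE u := by
  have := mx_sum_le hcov (h := fun i x => ⟪u i, x⟫) (H := gmax u)
    (fun i => integrable_inner (u i)) (integrable_gmax u) (fun i x _ => le_gmax u x i)
  simpa only [setIntegral_inner, fE] using this

lemma mx_pair_ge {z : ι → E} (hcov : ∀ᵐ x ∂(stdGaussian E), ∃ i, x ∈ cell z i) :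
    fE z ≤ ∑ i, ⟪z i, ∫ x in cell z i, x ∂(stdGaussian E)⟫ := by
  have := mx_sum_le hcov (h := fun i x => -⟪z i, x⟫) (H := fun x => -gmax z x)
    (fun i => (integrable_inner (z i)).neg) (integrable_gmax z).neg
    (fun i x hx => by simp only [gmax_eq_of_mem_cell hx, le_refl])
  simp only [integral_neg, setIntegral_inner, Finset.sum_neg_distrib, neg_le_neg_iff] at this
  exact this

lemma mx_mass_sum {z : ι → E} (hcov : ∀ᵐ x ∂(stdGaussian E), ∃ i, x ∈ cell z i) :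
    ∑ i, mass z i = 1 := by
  have h1 := mx_sum_le hcov (h := fun _ _ => (1 : ℝ)) (H := fun _ => 1)
    (fun _ => integrable_const _) (integrable_const _) (fun _ _ _ => le_rfl)
  have h2 := mx_sum_le hcov (h := fun _ _ => (-1 : ℝ)) (H := fun _ => -1)
    (fun _ => integrable_const _) (integrable_const _) (fun _ _ _ => le_rfl)
  simp only [integral_const, smul_eq_mul, mul_one, mul_neg, Finset.sum_neg_distrib,
    neg_le_neg_iff, probReal_univ, Measure.restrict_apply_univ, Measure.real] at h1 h2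
  simp only [mass, Measure.real]
  simp at h1 h2
  linarith

lemma mx_mass_le (hk : 2 ≤ Fintype.card ι) (z : ι → E) (i : ι) : mass z i ≤ 1 / 2 := by
  obtain ⟨j, hj⟩ := Fintype.exists_ne_of_one_lt_card (by omega : 1 < Fintype.card ι) i
  have hm := measurableSet_cell z i
  have hneg : Measurable (fun x : E => -x) := measurable_neg
  have h1 : (stdGaussian E).real ((fun x : E => -x) ⁻¹' cell z i) = mass z i := by
    rw [mass, ← map_measureReal_apply hneg hm, map_neg_stdGaussian]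
  have hd : Disjoint (cell z i) ((fun x : E => -x) ⁻¹' cell z i) := by
    rw [Set.disjoint_left]
    intro x hx hx'
    have a1 := hx j hj
    have a2 : ⟪z j, -x⟫ < ⟪z i, -x⟫ := hx' j hj
    rw [inner_neg_right, inner_neg_right] at a2
    linarith
  have h2 := measureReal_union (μ := stdGaussian E) hd (hneg hm)
  have h3 : (stdGaussian E).real (cell z i ∪ (fun x : E => -x) ⁻¹' cell z i) ≤ 1 :=
    measureReal_le_one
  rw [h2, h1] at h3
  change mass z i + mass z i ≤ 1 at h3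
  linarith

theorem exists_crit (hk : 2 ≤ Fintype.card ι) (hIH : Bound E (Fintype.card ι - 1))
    (w : ι → E) (hw : √(MM * ∑ i, ‖w i‖ ^ 2) < fE w) : ∃ (z : ι → E) (F : ℝ), Crit z F := by
  classical
  have hM : 0 < MM := lt_trans (by norm_num) MM_gt
  have hw0 : 0 < ∑ i, ‖w i‖ ^ 2 := by
    by_contra h0
    push Not at h0
    rw [mx_eq_zero_of_sum h0, mx_fE_zero] at hw
    exact absurd hw (not_lt.mpr (Real.sqrt_nonneg _))
  obtain ⟨zh, hzh, hmax⟩ := mx_exists_max w hw0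
  obtain ⟨mu, hmu⟩ : ∃ mu, mu = fE zh := ⟨_, rfl⟩
  rw [← hmu] at hmax
  have hmu0 : 0 ≤ mu := hmu ▸ fE_nonneg zh
  have hmuM : √MM < mu := by
    have h1 := hw.trans_le (hmax w)
    rw [Real.sqrt_mul hM.le] at h1
    exact lt_of_mul_lt_mul_right h1 (Real.sqrt_nonneg _)
  have hF : MM < mu ^ 2 := by
    have := Real.sq_sqrt hM.le
    nlinarith [Real.sqrt_nonneg MM]
  obtain ⟨z, hz⟩ : ∃ z : ι → E, z = fun i => mu • zh i := ⟨_, rfl⟩
  have hS : ∑ i, ‖z i‖ ^ 2 = mu ^ 2 := by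
    rw [hz]; simp only []; rw [mx_sum_smul, hzh, mul_one]
  have hfz : fE z = mu ^ 2 := by
    rw [hz, fE_smul zh hmu0, ← hmu, sq]
  have hdist : ∀ i j, i ≠ j → z i ≠ z j := by
    intro i j hij he
    have h1 := mx_drop hIH z hij he.symm
    have h2 : ∑ l ∈ Finset.univ.erase j, ‖z l‖ ^ 2 ≤ mu ^ 2 := by
      rw [← hS]
      exact Finset.sum_le_sum_of_subset_of_nonneg (Finset.erase_subset _ _)
        (fun _ _ _ => sq_nonneg _)
    have h3 : mu ^ 2 ≤ √(MM * mu ^ 2) := by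
      refine (hfz ▸ h1).trans (Real.sqrt_le_sqrt ?_)
      exact mul_le_mul_of_nonneg_left h2 hM.le
    have := mx_le_of_le_sqrt hM.le h3
    linarith
  have hcov := mx_cover hdist
  obtain ⟨y, hy⟩ : ∃ y : ι → E, y = fun i => ∫ x in cell z i, x ∂(stdGaussian E) := ⟨_, rfl⟩
  have hyi : ∀ i, ∫ x in cell z i, x ∂(stdGaussian E) = y i := fun i => by rw [hy]
  have hpair : ∀ u : ι → E, ∑ i, ⟪u i, y i⟫ ≤ fE u := fun u => by
    simpa only [hyi] using mx_pair_le hcov u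
  have hzy : mu ^ 2 ≤ ∑ i, ⟪z i, y i⟫ := by
    simpa only [hyi, hfz] using mx_pair_ge hcov
  have hyS : ∑ i, ‖y i‖ ^ 2 ≤ mu ^ 2 := by
    have h1 := (hpair y).trans (hmax y)
    simp only [real_inner_self_eq_norm_sq] at h1
    refine mx_le_of_le_sqrt (sq_nonneg _) ?_
    rwa [Real.sqrt_mul (sq_nonneg _), Real.sqrt_sq hmu0]
  have hyz : ∀ i, y i = z i := by
    have h1 : ∑ i, ‖z i - y i‖ ^ 2 ≤ 0 := by
      simp only [norm_sub_sq_real, Finset.sum_add_distrib, Finset.sum_sub_distrib,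
        ← Finset.mul_sum]
      linarith
    intro i
    have := congrFun (mx_eq_zero_of_sum h1) i
    exact (sub_eq_zero.mp this).symm
  simp only [hyz] at hpair hyi
  have hobt : ∀ i j, i ≠ j → ⟪z i, z j⟫ < 0 := by
    intro i j hij
    obtain ⟨u, hu⟩ : ∃ u : ι → E, u = fun l => if l = i ∨ l = j then z i + z j else z l :=
      ⟨_, rfl⟩
    have hui : u i = z i + z j := by simp [hu]
    have huj : u j = z i + z j := by simp [hu]
    have hul : ∀ l ∈ (Finset.univ.erase j).erase i, u l = z l := by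
      intro l hl
      simp only [Finset.mem_erase] at hl
      simp [hu, hl.1, hl.2.1]
    have hi : i ∈ Finset.univ.erase j := by simp [hij]
    have h1 := (hpair u).trans (mx_drop hIH u hij (huj.trans hui.symm))
    have e0 : ∑ l, ‖z l‖ ^ 2 = ‖z j‖ ^ 2 + (‖z i‖ ^ 2
        + ∑ l ∈ (Finset.univ.erase j).erase i, ‖z l‖ ^ 2) := by
      rw [Finset.add_sum_erase _ (fun l => ‖z l‖ ^ 2) hi,
        Finset.add_sum_erase _ (fun l => ‖z l‖ ^ 2) (Finset.mem_univ j)]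
    have e1 : ∑ l, ⟪u l, z l⟫ = mu ^ 2 + 2 * ⟪z i, z j⟫ := by
      rw [← Finset.add_sum_erase _ (fun l => ⟪u l, z l⟫) (Finset.mem_univ j),
        ← Finset.add_sum_erase _ (fun l => ⟪u l, z l⟫) hi, hui, huj, ← hS, e0,
        Finset.sum_congr rfl (fun l hl => by rw [hul l hl, real_inner_self_eq_norm_sq])]
      simp only [inner_add_left, real_inner_self_eq_norm_sq, real_inner_comm (z i) (z j)]
      ring
    have e2 : ∑ l ∈ Finset.univ.erase j, ‖u l‖ ^ 2 = mu ^ 2 + 2 * ⟪z i, z j⟫ := by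
      rw [← Finset.add_sum_erase _ (fun l => ‖u l‖ ^ 2) hi, hui, ← hS, e0,
        Finset.sum_congr rfl (fun l hl => by rw [hul l hl]), norm_add_sq_real]
      ring
    rw [e1, e2] at h1
    have := mx_le_of_le_sqrt hM.le h1
    linarith
  refine ⟨z, mu ^ 2, ⟨hF, hS, hfz, ?_, hobt, hyi, hcov, mx_mass_sum hcov, ?_, mx_mass_le hk z⟩⟩
  · have h1 := hpair (fun _ => ∑ l, z l)
    have h2 : fE (fun _ : ι => ∑ l, z l) = 0 := by
      have := fE_add_const (fun _ : ι => (0 : E)) (∑ l, z l)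
      simpa only [zero_add, mx_fE_zero] using this
    rw [h2, ← inner_sum, real_inner_self_eq_norm_sq] at h1
    have h3 : ‖∑ l, z l‖ ^ 2 = 0 := le_antisymm h1 (sq_nonneg _)
    simpa using h3
  · intro i
    obtain ⟨j, hj⟩ := Fintype.exists_ne_of_one_lt_card (by omega : 1 < Fintype.card ι) i
    refine lt_of_le_of_ne measureReal_nonneg fun h0 => ?_
    have h1 : stdGaussian E (cell z i) = 0 :=
      (measureReal_eq_zero_iff (measure_ne_top _ _)).mp h0.symm
    have h2 : z i = 0 := by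
      rw [← hyi i, Measure.restrict_eq_zero.mpr h1, integral_zero_measure]
    have := hobt j i hj
    rw [h2, inner_zero_right] at this
    exact lt_irrefl _ this

end Vale.Agent.P226
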