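import Vale.Agent.P226.Ineq

/-! Numerical bounds at the nodes. -/

namespace Vale.Agent.P226

noncomputable def eLo (x : ℝ) : ℝ :=
  1 + x + x ^ 2 / 2 + x ^ 3 / 6 + x ^ 4 / 24 + x ^ 5 / 120 + x ^ 6 / 720 + x ^ 7 / 5040
    + x ^ 8 / 40320 + x ^ 9 / 362880 + x ^ 10 / 3628800 + x ^ 11 / 39916800 + x ^ 12 / 479001600

noncomputable def eHi (x : ℝ) : ℝ :=
  1 + x + x ^ 2 / 2 + x ^ 3 / 6 + x ^ 4 / 24 + x ^ 5 / 120 + x ^ 6 / 720 + x ^ 7 / 5040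
    + x ^ 8 / 40320 + x ^ 9 / 362880 + x ^ 10 * 11 / 36288000

lemma eLo_le {x : ℝ} (hx : 0 ≤ x) : eLo x ≤ Real.exp x := by
  have := Real.sum_le_exp_of_nonneg hx 13
  simp only [Finset.sum_range_succ, Finset.sum_range_zero, Nat.factorial] at this
  norm_num at this
  unfold eLo; linarith

lemma le_eHi {x : ℝ} (hx : 0 ≤ x) (h2 : x ≤ 2) : Real.exp x ≤ eHi (x / 2) ^ 2 := by
  have := Real.exp_bound' (x := x / 2) (by linarith) (by linarith) (n := 10) (by norm_num)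
  simp only [Finset.sum_range_succ, Finset.sum_range_zero, Nat.factorial] at this
  norm_num at this
  have h3 : Real.exp (x / 2) ≤ eHi (x / 2) := by unfold eHi; linarith
  calc Real.exp x = Real.exp (x / 2) ^ 2 := by rw [← Real.exp_nat_mul]; congr 1; push_cast; ring
    _ ≤ _ := by gcongr

lemma sqrt_two_pi_gt : 2.506628 < √(2 * Real.pi) := by
  apply Real.lt_sqrt_of_sq_lt
  have := Real.pi_gt_d20
  nlinarith

lemma sqrt_two_pi_lt : √(2 * Real.pi) < 2.506629 := by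
  rw [Real.sqrt_lt' (by norm_num)]
  have := Real.pi_lt_d6
  nlinarith

lemma phi_eq_inv (v : ℝ) : phi v = 1 / (Real.exp (v ^ 2 / 2) * √(2 * Real.pi)) := by
  unfold phi
  rw [neg_div, Real.exp_neg]; field_simp

lemma phi_le_of {v c : ℝ} (hc : 0 < c) (h : 1 ≤ c * (eLo (v ^ 2 / 2) * 2.506628)) : phi v ≤ c := by
  have h1 := eLo_le (x := v ^ 2 / 2) (by positivity)
  have h2 := sqrt_two_pi_gt
  rw [phi_eq_inv, div_le_iff₀ (by positivity)]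
  refine h.trans ?_
  have h3 : eLo (v ^ 2 / 2) * 2.506628 ≤ Real.exp (v ^ 2 / 2) * √(2 * Real.pi) :=
    mul_le_mul h1 h2.le (by norm_num) (by positivity)
  gcongr

lemma le_phi_of {v c : ℝ} (hc : 0 < c) (hv : v ^ 2 / 2 ≤ 2)
    (h : c * (eHi (v ^ 2 / 2 / 2) ^ 2 * 2.506629) ≤ 1) : c ≤ phi v := by
  have h1 := le_eHi (x := v ^ 2 / 2) (by positivity) hv
  have h2 := sqrt_two_pi_lt
  rw [phi_eq_inv, le_div_iff₀ (by positivity)]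
  refine le_trans ?_ h
  gcongr

/-- all bounds at one node -/
lemma node_bounds {v pl ph ql qh jh : ℝ} (hv : 0 ≤ v) (hv' : v ≤ 9 / 5) (hpl : 0 < pl)
    (hph : 0 < ph)
    (h1 : pl * (eHi (v ^ 2 / 2 / 2) ^ 2 * 2.506629) ≤ 1)
    (h2 : 1 ≤ ph * (eLo (v ^ 2 / 2) * 2.506628))
    (h3 : ql ≤ 1 / 2 - ph * (T9 v + v ^ 19 / (15 * 34459425)))
    (h4 : 1 / 2 - pl * T9 v ≤ qh) (h5 : ph * (ph - v * ql) ≤ jh) :
    pl ≤ phi v ∧ phi v ≤ ph ∧ ql ≤ Q v ∧ Q v ≤ qh ∧ J v ≤ jh := by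
  have a1 := le_phi_of hpl (by nlinarith) h1
  have a2 := phi_le_of hph h2
  have hT : 0 ≤ T9 v := by unfold T9; positivity
  have a3 : ql ≤ Q v := by
    have := Q_lower hv hv'
    have h6 : phi v * (T9 v + v ^ 19 / (15 * 34459425))
        ≤ ph * (T9 v + v ^ 19 / (15 * 34459425)) := by gcongr
    linarith
  have a4 : Q v ≤ qh := by
    have := Q_upper hv
    have h6 : pl * T9 v ≤ phi v * T9 v := by gcongr
    linarith
  refine ⟨a1, a2, a3, a4, ?_⟩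
  have h7 : ell v ≤ ph - v * ql := by
    have : v * ql ≤ v * Q v := by gcongr
    unfold ell; linarith
  have h8 := ell_pos v
  calc J v = phi v * ell v := rfl
    _ ≤ ph * (ph - v * ql) := mul_le_mul a2 h7 h8.le hph.le
    _ ≤ jh := h5

lemma node0 : phi 0 ≤ 0.398943 ∧ J 0 ≤ 0.15916 := by
  have h : phi 0 ≤ 0.398943 := phi_le_of (by norm_num) (by unfold eLo; norm_num)
  refine ⟨h, ?_⟩
  have := phi_pos 0
  have e : J 0 = phi 0 * phi 0 := by unfold J ell; ring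
  rw [e]; nlinarith

lemma node1 : 0.379030 ≤ phi 0.32 ∧ phi 0.32 ≤ 0.379031 ∧ 0.37448 ≤ Q 0.32 ∧ Q 0.32 ≤ 0.37449 ∧
    J 0.32 ≤ 0.09825 := by
  apply node_bounds <;> norm_num [eLo, eHi, T9]

lemma node2 : 0.348492 ≤ phi 0.52 ∧ phi 0.52 ≤ 0.348493 ∧ 0.30152 ≤ Q 0.52 ∧ Q 0.52 ≤ 0.30154 ∧
    J 0.52 ≤ 0.06682 := by
  apply node_bounds <;> norm_num [eLo, eHi, T9]

lemma node3 : 0.301137 ≤ phi 0.75 ∧ phi 0.75 ≤ 0.301138 ∧ 0.22662 ≤ Q 0.75 ∧ Q 0.75 ≤ 0.22664 ∧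
    J 0.75 ≤ 0.03951 := by
  apply node_bounds <;> norm_num [eLo, eHi, T9]

lemma node4 : 0.254058 ≤ phi 0.95 ∧ phi 0.95 ≤ 0.254060 ∧ 0.17105 ≤ Q 0.95 ∧ Q 0.95 ≤ 0.17106 ∧
    J 0.95 ≤ 0.02327 := by
  apply node_bounds <;> norm_num [eLo, eHi, T9]

lemma node5 : 0.196520 ≤ phi 1.19 ∧ phi 1.19 ≤ 0.196521 ∧ 0.11702 ≤ Q 1.19 ∧ Q 1.19 ≤ 0.11703 ∧
    J 1.19 ≤ 0.01126 := by
  apply node_bounds <;> norm_num [eLo, eHi, T9]

lemma node6 : 0.143504 ≤ phi 1.43 ∧ phi 1.43 ≤ 0.143505 ∧ 0.07635 ≤ Q 1.43 ∧ Q 1.43 ≤ 0.07637 ∧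
    J 1.43 ≤ 0.00493 := by
  apply node_bounds <;> norm_num [eLo, eHi, T9]

lemma node7 : 0.081827 ≤ phi 1.78 ∧ phi 1.78 ≤ 0.081829 ∧ 0.03753 ≤ Q 1.78 ∧ Q 1.78 ≤ 0.0376 ∧
    J 1.78 ≤ 0.00124 := by
  apply node_bounds <;> norm_num [eLo, eHi, T9]

end Vale.Agent.P226
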