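import Vale.Agent.P226.Basic

/-! Linear functionals under the standard Gaussian measure. -/

namespace Vale.Agent.P226

open MeasureTheory ProbabilityTheory Set
open scoped RealInnerProductSpace

variable {E : Type} [NormedAddCommGroup E] [InnerProductSpace ℝ E] [FiniteDimensional ℝ E]
  [MeasurableSpace E] [BorelSpace E]

lemma map_inner (u : E) :
    (stdGaussian E).map (fun x => ⟪u, x⟫) = (gaussianReal 0 1).map (fun t => ‖u‖ * t) := by
  have h := IsGaussian.map_eq_gaussianReal (μ := stdGaussian E) (innerSL ℝ u)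
  rw [integral_strongDual_stdGaussian, variance_dual_stdGaussian, innerSL_apply_norm] at h
  rw [gaussianReal_map_const_mul, mul_zero, mul_one]
  refine Eq.trans ?_ (h.trans ?_)
  · rfl
  · congr 1
    ext
    simp

lemma map_inner_unit {u : E} (hu : ‖u‖ = 1) :
    (stdGaussian E).map (fun x => ⟪u, x⟫) = gaussianReal 0 1 := by
  rw [map_inner, hu]
  simp

lemma charFunDual_gauss (L : StrongDual ℝ ℝ) :
    charFunDual (gaussianReal 0 1) L = Complex.exp (-((L 1 : ℝ) : ℂ) ^ 2 / 2) := by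
  have h : ∀ x : ℝ, L x = L 1 * x := fun x => by
    rw [mul_comm, ← smul_eq_mul, ← map_smul]; simp
  have h2 := charFun_gaussianReal (μ := 0) (v := 1) (L 1)
  rw [charFun_apply_real] at h2
  rw [charFunDual_apply]
  simp only [Complex.ofReal_zero, mul_zero, zero_mul, NNReal.coe_one, Complex.ofReal_one,
    one_mul, zero_sub, neg_div] at h2 ⊢
  rw [← h2]
  congr 1
  funext x
  rw [h x]; simp

lemma map_inner_three {e0 e1 e2 : E} (h0 : ‖e0‖ = 1) (h1 : ‖e1‖ = 1) (h2 : ‖e2‖ = 1)
    (h01 : ⟪e0, e1⟫ = 0) (h02 : ⟪e0, e2⟫ = 0) (h12 : ⟪e1, e2⟫ = 0) :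
    (stdGaussian E).map (fun x => (⟪e0, x⟫, ⟪e1, x⟫, ⟪e2, x⟫))
      = (gaussianReal 0 1).prod ((gaussianReal 0 1).prod (gaussianReal 0 1)) := by
  let T : E →L[ℝ] ℝ × ℝ × ℝ := (innerSL ℝ e0).prod ((innerSL ℝ e1).prod (innerSL ℝ e2))
  change (stdGaussian E).map T = _
  refine Measure.ext_of_charFunDual (funext fun L => ?_)
  rw [charFunDual_map, charFunDual_prod, charFunDual_prod, charFunDual_stdGaussian,
    charFunDual_gauss, charFunDual_gauss, charFunDual_gauss, ← Complex.exp_add, ← Complex.exp_add]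
  set a := L (1, 0, 0) with ha
  set b := L (0, 1, 0) with hb
  set c := L (0, 0, 1) with hc
  have hL : L.comp T = innerSL ℝ (a • e0 + b • e1 + c • e2) := by
    ext x
    have : T x = ⟪e0, x⟫ • ((1 : ℝ), (0 : ℝ), (0 : ℝ)) + ⟪e1, x⟫ • ((0 : ℝ), (1 : ℝ), (0 : ℝ))
        + ⟪e2, x⟫ • ((0 : ℝ), (0 : ℝ), (1 : ℝ)) := by
      simp [T]
    rw [ContinuousLinearMap.comp_apply, this, map_add, map_add, map_smul, map_smul, map_smul]
    simp only [innerSL_apply_apply, inner_add_left, real_inner_smul_left, smul_eq_mul]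
    rw [← ha, ← hb, ← hc]; ring
  have hn : ‖a • e0 + b • e1 + c • e2‖ ^ 2 = a ^ 2 + b ^ 2 + c ^ 2 := by
    rw [← real_inner_self_eq_norm_sq]
    have h10 : ⟪e1, e0⟫ = 0 := by rw [real_inner_comm]; exact h01
    have h20 : ⟪e2, e0⟫ = 0 := by rw [real_inner_comm]; exact h02
    have h21 : ⟪e2, e1⟫ = 0 := by rw [real_inner_comm]; exact h12
    simp only [inner_add_left, inner_add_right, real_inner_smul_left, real_inner_smul_right,
      real_inner_self_eq_norm_sq, norm_smul, Real.norm_eq_abs, mul_pow, sq_abs,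
      h0, h1, h2, h01, h02, h12, h10, h20, h21]
    ring
  rw [hL, innerSL_apply_norm, ← Complex.ofReal_pow, hn]
  congr 1
  have e1 : (L.comp (ContinuousLinearMap.inl ℝ ℝ (ℝ × ℝ))) 1 = a := rfl
  have e2 : ((L.comp (ContinuousLinearMap.inr ℝ ℝ (ℝ × ℝ))).comp
    (ContinuousLinearMap.inl ℝ ℝ ℝ)) 1 = b := rfl
  have e3 : ((L.comp (ContinuousLinearMap.inr ℝ ℝ (ℝ × ℝ))).comp
    (ContinuousLinearMap.inr ℝ ℝ ℝ)) 1 = c := rfl
  rw [e1, e2, e3]
  push_cast; ring

lemma null_hyperplane {u : E} (hu : u ≠ 0) (c : ℝ) : stdGaussian E {x | ⟪u, x⟫ = c} = 0 := by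
  have h1 : stdGaussian E {x | ⟪u, x⟫ = c} = ((stdGaussian E).map (fun x => ⟪u, x⟫)) {c} := by
    rw [Measure.map_apply (by fun_prop) (measurableSet_singleton c)]; rfl
  rw [h1, map_inner, Measure.map_apply (by fun_prop) (measurableSet_singleton c)]
  have hn : ‖u‖ ≠ 0 := norm_ne_zero_iff.2 hu
  have : (fun t => ‖u‖ * t) ⁻¹' {c} = {c / ‖u‖} := by
    ext t
    simp only [mem_preimage, mem_singleton_iff]
    rw [eq_div_iff hn, mul_comm]
  rw [this, measure_singleton]

lemma integrable_id_std : Integrable (fun x : E => x) (stdGaussian E) :=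
  IsGaussian.integrable_fun_id

lemma integrable_inner (u : E) : Integrable (fun x => ⟪u, x⟫) (stdGaussian E) :=
  integrable_id_std.const_inner u

lemma integral_inner_eq_zero (u : E) : ∫ x, ⟪u, x⟫ ∂(stdGaussian E) = 0 := by
  rw [integral_inner integrable_id_std, integral_id_stdGaussian, inner_zero_right]

lemma integral_abs_inner (u : E) : ∫ x, |⟪u, x⟫| ∂(stdGaussian E) = 2 * phi 0 * ‖u‖ := by
  have h1 : ∫ x, |⟪u, x⟫| ∂(stdGaussian E) =
      ∫ t, |t| ∂((stdGaussian E).map (fun x => ⟪u, x⟫)) := by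
    rw [integral_map (by fun_prop) (by fun_prop)]
  rw [h1, map_inner, integral_map (by fun_prop) (by fun_prop)]
  simp only [abs_mul, abs_norm]
  rw [integral_const_mul, integral_abs_gauss]; ring

lemma setIntegral_inner (u : E) (A : Set E) :
    ∫ x in A, ⟪u, x⟫ ∂(stdGaussian E) = ⟪u, ∫ x in A, x ∂(stdGaussian E)⟫ :=
  integral_inner integrable_id_std.integrableOn u

lemma map_neg_stdGaussian : (stdGaussian E).map (fun x => -x) = stdGaussian E :=
  stdGaussian_map (LinearIsometryEquiv.neg ℝ (E := E))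

lemma integral_cexp_std (e t : E) :
    ∫ x, Complex.exp ((⟪e, x⟫ : ℝ) + (⟪x, t⟫ : ℝ) * Complex.I) ∂(stdGaussian E) =
      Complex.exp (((‖e‖ ^ 2 / 2 : ℝ) : ℂ) + (-(‖t‖ : ℂ) ^ 2 / 2 + (⟪e, t⟫ : ℝ) * Complex.I)) := by
  set b := stdOrthonormalBasis ℝ E with hb
  let w : Fin (Module.finrank ℝ E) → ℂ := fun i => (⟪e, b i⟫ : ℝ) + (⟪b i, t⟫ : ℝ) * Complex.I
  rw [stdGaussian, integral_map (Measurable.aemeasurable (by fun_prop))
    (Measurable.aestronglyMeasurable (by fun_prop))]
  have h1 : ∀ x : Fin (Module.finrank ℝ E) → ℝ,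
      Complex.exp ((⟪e, ∑ i, x i • b i⟫ : ℝ) + (⟪∑ i, x i • b i, t⟫ : ℝ) * Complex.I) =
        ∏ i, Complex.exp (w i * x i) := by
    intro x
    rw [← Complex.exp_sum, inner_sum, sum_inner]
    congr 1
    simp only [real_inner_smul_left, real_inner_smul_right, w]
    push_cast
    rw [Finset.sum_mul, ← Finset.sum_add_distrib]
    refine Finset.sum_congr rfl fun i _ => by ring
  simp only [← hb, h1]
  rw [integral_fintype_prod_eq_prod (fun i (y : ℝ) => Complex.exp (w i * y))]
  have h2 : ∀ i, ∫ y : ℝ, Complex.exp (w i * y) ∂(gaussianReal 0 1) = Complex.exp (w i ^ 2 / 2) := by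
    intro i
    have := complexMGF_id_gaussianReal (μ := 0) (v := 1) (w i)
    simpa [complexMGF] using this
  simp only [h2]
  rw [← Complex.exp_sum]
  congr 1
  have a1 := b.sum_inner_mul_inner e e
  have a2 := b.sum_inner_mul_inner t t
  have a3 := b.sum_inner_mul_inner e t
  rw [real_inner_self_eq_norm_sq] at a1 a2
  have a2' : (‖t‖ : ℂ) ^ 2 = ((‖t‖ ^ 2 : ℝ) : ℂ) := by push_cast; rfl
  rw [a2', ← a1, ← a2, ← a3]
  push_cast
  rw [Finset.sum_div, ← Finset.sum_neg_distrib, Finset.sum_div, Finset.sum_mul,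
    ← Finset.sum_add_distrib, ← Finset.sum_add_distrib]
  refine Finset.sum_congr rfl fun i _ => ?_
  simp only [w, real_inner_comm e (b i), real_inner_comm (b i) t]
  linear_combination (((⟪b i, t⟫ : ℝ) : ℂ) ^ 2 / 2) * Complex.I_sq

lemma integrable_exp_inner (e : E) :
    Integrable (fun x => Real.exp (⟪e, x⟫ - ‖e‖ ^ 2 / 2)) (stdGaussian E) := by
  have h1 : Integrable (fun t => Real.exp t) ((stdGaussian E).map (fun x => ⟪e, x⟫)) := by
    rw [map_inner, integrable_map_measure (by fun_prop) (by fun_prop)]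
    exact integrable_exp_mul_gaussianReal _
  rw [integrable_map_measure (by fun_prop) (by fun_prop)] at h1
  simp only [Real.exp_sub]
  exact h1.div_const _

/-- Cameron-Martin formula -/
lemma map_add_stdGaussian (e : E) : (stdGaussian E).map (fun x => x + e) =
    (stdGaussian E).withDensity (fun x => ENNReal.ofReal (Real.exp (⟪e, x⟫ - ‖e‖ ^ 2 / 2))) := by
  have := isFiniteMeasure_withDensity_ofReal (integrable_exp_inner e).2
  refine Measure.ext_of_charFun (funext fun t => ?_)
  rw [charFun_map_add_const, charFun_stdGaussian, charFun_apply,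
    integral_withDensity_eq_integral_toReal_smul (by fun_prop) (ae_of_all _ fun _ => by simp)]
  have h1 : ∀ x : E, (ENNReal.ofReal (Real.exp (⟪e, x⟫ - ‖e‖ ^ 2 / 2))).toReal •
      Complex.exp ((⟪x, t⟫ : ℝ) * Complex.I) =
      Complex.exp (-((‖e‖ ^ 2 / 2 : ℝ) : ℂ)) *
        Complex.exp ((⟪e, x⟫ : ℝ) + (⟪x, t⟫ : ℝ) * Complex.I) := by
    intro x
    rw [ENNReal.toReal_ofReal (Real.exp_pos _).le, Complex.real_smul, Complex.ofReal_exp,
      ← Complex.exp_add, ← Complex.exp_add]
    congr 1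
    push_cast; ring
  simp only [h1]
  rw [integral_const_mul, integral_cexp_std, ← Complex.exp_add, ← Complex.exp_add]
  congr 1
  ring

/-- Cameron-Martin lower bound -/
lemma shift_lower {A : Set E} (hA : MeasurableSet A) (e : E) :
    (stdGaussian E).real A * (1 - ‖e‖ ^ 2 / 2) + ⟪e, ∫ x in A, x ∂(stdGaussian E)⟫
      ≤ (stdGaussian E).real {x | x + e ∈ A} := by
  have h1 : (stdGaussian E).real {x | x + e ∈ A} =
      ∫ x in A, Real.exp (⟪e, x⟫ - ‖e‖ ^ 2 / 2) ∂(stdGaussian E) := by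
    have h2 : stdGaussian E {x | x + e ∈ A} = ((stdGaussian E).map (fun x => x + e)) A := by
      rw [Measure.map_apply (by fun_prop) hA]; rfl
    rw [measureReal_def, h2, map_add_stdGaussian, withDensity_apply _ hA,
      ← ofReal_integral_eq_lintegral_ofReal (integrable_exp_inner e).integrableOn
        (ae_of_all _ fun _ => (Real.exp_pos _).le),
      ENNReal.toReal_ofReal (integral_nonneg fun _ => (Real.exp_pos _).le)]
  rw [h1, ← setIntegral_inner, ← smul_eq_mul, ← setIntegral_const,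
    ← integral_add (integrable_const _) (integrable_inner e).integrableOn]
  refine integral_mono ((integrable_const _).add (integrable_inner e).integrableOn)
    (integrable_exp_inner e).integrableOn fun x => ?_
  have := Real.add_one_le_exp (⟪e, x⟫ - ‖e‖ ^ 2 / 2)
  simp only
  linarith

/-- half-space rearrangement bound -/
lemma norm_moment_le {A : Set E} (hA : MeasurableSet A) (v : ℝ) :
    ‖∫ x in A, x ∂(stdGaussian E)‖ ≤ ell v + v * (stdGaussian E).real A := by
  have _ := hA
  set z := ∫ x in A, x ∂(stdGaussian E) with hz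
  have hp0 : 0 ≤ (stdGaussian E).real A := measureReal_nonneg
  have hp1 : (stdGaussian E).real A ≤ 1 := measureReal_le_one
  by_cases h0 : z = 0
  · rw [h0, norm_zero]
    rcases le_total 0 v with hv | hv
    · have := ell_pos v
      positivity
    · have h1 := ell_pos (-v)
      have h2 : ell (-v) = ell v + v := by
        simp only [ell, phi_neg, Q_neg]; ring
      nlinarith
  have hn : ‖z‖ ≠ 0 := norm_ne_zero_iff.2 h0
  set u := (‖z‖⁻¹ : ℝ) • z with hu
  have hu1 : ‖u‖ = 1 := norm_smul_inv_norm h0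
  have h1 : ‖z‖ = ∫ x in A, ⟪u, x⟫ ∂(stdGaussian E) := by
    rw [setIntegral_inner, ← hz, hu, real_inner_smul_left, real_inner_self_eq_norm_sq]
    field_simp
  have i1 : Integrable (fun x => max (⟪u, x⟫ - v) 0) (stdGaussian E) :=
    ((integrable_inner u).sub (integrable_const v)).pos_part
  have h2 : ∫ x, max (⟪u, x⟫ - v) 0 ∂(stdGaussian E) = ell v := by
    rw [← integral_posPart_sub, ← map_inner_unit hu1, integral_map (by fun_prop) (by fun_prop)]
  have h3 : ∫ x in A, ⟪u, x⟫ ∂(stdGaussian E) ≤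
      ∫ x in A, (max (⟪u, x⟫ - v) 0 + v) ∂(stdGaussian E) := by
    refine integral_mono (integrable_inner u).integrableOn
      (i1.integrableOn.add (integrable_const v)) fun x => ?_
    have := le_max_left (⟪u, x⟫ - v) 0
    simp only
    linarith
  rw [integral_add i1.integrableOn (integrable_const v), setIntegral_const, smul_eq_mul] at h3
  have h4 : ∫ x in A, max (⟪u, x⟫ - v) 0 ∂(stdGaussian E) ≤
      ∫ x, max (⟪u, x⟫ - v) 0 ∂(stdGaussian E) :=
    setIntegral_le_integral i1 (ae_of_all _ fun x => le_max_right _ _)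
  rw [h1]
  linarith

end Vale.Agent.P226
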