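import Vale.Agent.P226.Gmax
import Vale.Agent.P226.SmallBall

/-! Multi-cell inequalities at a maximiser, first part. -/

namespace Vale.Agent.P226

open MeasureTheory ProbabilityTheory Set
open scoped RealInnerProductSpace

variable {E : Type} [NormedAddCommGroup E] [InnerProductSpace ℝ E]

lemma norm_sum_sq_eq {ι : Type} (z : ι → E) (R : Finset ι) :
    ‖∑ j ∈ R, z j‖ ^ 2 = ∑ i ∈ R, ∑ j ∈ R, ⟪z i, z j⟫ := by
  rw [← real_inner_self_eq_norm_sq, sum_inner]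
  simp_rw [inner_sum]

lemma zeta_ge_aux {ι : Type} (z : ι → E) (R : Finset ι) :
    2 * ∑ j ∈ R, ‖z j‖ ^ 2 - ‖∑ j ∈ R, z j‖ ^ 2 ≤ (∑ j ∈ R, ‖z j‖) ^ 2 := by
  rw [norm_sum_sq_eq, sub_le_iff_le_add, sq (∑ j ∈ R, ‖z j‖), Finset.sum_mul_sum,
    ← Finset.sum_add_distrib, Finset.mul_sum]
  refine Finset.sum_le_sum fun i hi => ?_
  rw [← Finset.sum_add_distrib]
  refine le_trans ?_ (Finset.single_le_sum (f := fun j => ‖z i‖ * ‖z j‖ + ⟪z i, z j⟫)
    (fun j _ => ?_) hi)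
  · simp only [real_inner_self_eq_norm_sq]; nlinarith
  · have := abs_real_inner_le_norm (z i) (z j)
    have := neg_abs_le ⟪z i, z j⟫
    linarith

variable [FiniteDimensional ℝ E] [MeasurableSpace E] [BorelSpace E]
variable {ι : Type} [Fintype ι] [Nonempty ι] [DecidableEq ι] {z : ι → E} {F : ℝ}

omit [Nonempty ι] [BorelSpace E] in
lemma zeta_le_aux (h : Crit z F) (R : Finset ι) :
    ‖∑ j ∈ R, z j‖ ^ 2 ≤ ∑ j ∈ R, ‖z j‖ ^ 2 := by
  rw [norm_sum_sq_eq]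
  refine Finset.sum_le_sum fun i hi => ?_
  rw [← Finset.add_sum_erase _ _ hi, real_inner_self_eq_norm_sq]
  have : ∑ j ∈ R.erase i, ⟪z i, z j⟫ ≤ 0 :=
    Finset.sum_nonpos fun j hj => (h.obtuse i j (Finset.ne_of_mem_erase hj).symm).le
  linarith

lemma sqrt_mul_le_half {M X : ℝ} (hM : 0 ≤ M) (hX : 0 ≤ X) : √(M * X) ≤ (M + X) / 2 := by
  apply Real.sqrt_le_iff.2
  exact ⟨by positivity, by nlinarith [sq_nonneg (M - X)]⟩

omit [Nonempty ι] in
lemma large_le (h : Crit z F) (hIH : Bound E (Fintype.card ι - 1)) (R : Finset ι)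
    (hR : R.Nonempty) (hRc : Rᶜ.Nonempty) :
    fE (fun i : (Rᶜ : Finset ι) => z i) ≤
      (MM + (∑ i ∈ Rᶜ, ‖z i‖ ^ 2 - ‖∑ j ∈ R, z j‖ ^ 2 / (Rᶜ.card : ℝ))) / 2 := by
  haveI : Nonempty (Rᶜ : Finset ι) := hRc.to_subtype
  set w := ∑ j ∈ R, z j with hw
  set m : ℝ := (Rᶜ.card : ℝ) with hm
  have hm0 : 0 < m := by rw [hm]; exact_mod_cast hRc.card_pos
  have hcard : Fintype.card (Rᶜ : Finset ι) ≤ Fintype.card ι - 1 := by
    rw [Fintype.card_coe, Finset.card_compl]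
    have := hR.card_pos
    omega
  have h1 := hIH (Rᶜ : Finset ι) hcard (fun i => z i + (1 / m) • w)
  rw [fE_add_const] at h1
  have hsum : ∑ i ∈ Rᶜ, z i = -w := by
    have := Finset.sum_add_sum_compl R z
    rw [h.sum_zero] at this
    rw [hw]; exact eq_neg_of_add_eq_zero_right this
  have h2 : ∑ i : (Rᶜ : Finset ι), ‖z i + (1 / m) • w‖ ^ 2
      = ∑ i ∈ Rᶜ, ‖z i‖ ^ 2 - ‖w‖ ^ 2 / m := by
    rw [Finset.sum_coe_sort (Rᶜ) (fun i => ‖z i + (1 / m) • w‖ ^ 2)]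
    simp_rw [norm_add_sq_real]
    rw [Finset.sum_add_distrib, Finset.sum_add_distrib, ← Finset.mul_sum, ← sum_inner, hsum,
      Finset.sum_const, nsmul_eq_mul, ← hm, inner_neg_left, real_inner_smul_right,
      real_inner_self_eq_norm_sq, norm_smul, mul_pow, Real.norm_eq_abs, sq_abs]
    field_simp
    ring
  refine h1.trans ?_
  rw [← h2]
  exact sqrt_mul_le_half (by have := MM_gt; linarith) (Finset.sum_nonneg fun _ _ => sq_nonneg _)

lemma T_general_aux (h : Crit z F) (hIH : Bound E (Fintype.card ι - 1)) (R : Finset ι)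
    (hR : R.Nonempty) (hRc : Rᶜ.Nonempty) (t mu : ℝ) {N0 : E → ℝ}
    (hN0 : ∀ x, ∃ i, i ∉ R ∧ N0 x ≤ ⟪z i, x⟫)
    (hint : Integrable (fun x => max (t + mu * ⟪∑ j ∈ R, z j, x⟫ - N0 x) 0) (stdGaussian E)) :
    t * ∑ j ∈ R, mass z j + (mu + 1 / (2 * (Rᶜ.card : ℝ))) * ‖∑ j ∈ R, z j‖ ^ 2
      - ∫ x, max (t + mu * ⟪∑ j ∈ R, z j, x⟫ - N0 x) 0 ∂(stdGaussian E)
      < (∑ j ∈ R, ‖z j‖ ^ 2) / 2 := by
  haveI : Nonempty (Rᶜ : Finset ι) := hRc.to_subtype
  have hL := large_le h hIH R hR hRc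
  set w := ∑ j ∈ R, z j with hw
  set m : ℝ := (Rᶜ.card : ℝ) with hm
  have hm0 : 0 < m := by rw [hm]; exact_mod_cast hRc.card_pos
  set g : ι → E → ℝ := fun i x => if i ∈ R then t + mu * ⟪w, x⟫ else ⟪z i, x⟫ with hg
  have hτ : Integrable (fun x => t + mu * ⟪w, x⟫) (stdGaussian E) :=
    (integrable_const t).add ((integrable_inner w).const_mul mu)
  have key := sum_setIntegral_le (A := cell z) (h := g)
    (H := fun x => gmax (fun i : (Rᶜ : Finset ι) => z i) x + max (t + mu * ⟪w, x⟫ - N0 x) 0)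
    (fun i => (measurableSet_cell z i).nullMeasurableSet)
    (fun i j hij => (disjoint_cell z hij).aedisjoint) h.cover
    (fun i => by
      by_cases hi : i ∈ R
      · simpa only [hg, hi, if_true] using hτ
      · simpa only [hg, hi, if_false] using integrable_inner (z i))
    ((integrable_gmax _).add hint)
    (fun i x _ => by
      by_cases hi : i ∈ R
      · obtain ⟨l, hl, hle⟩ := hN0 x
        have h1 := le_gmax (fun i : (Rᶜ : Finset ι) => z i) x ⟨l, Finset.mem_compl.2 hl⟩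
        have h2 := le_max_left (t + mu * ⟪w, x⟫ - N0 x) 0
        simp only [hg, hi, if_true]
        linarith
      · have h1 := le_gmax (fun i : (Rᶜ : Finset ι) => z i) x ⟨i, Finset.mem_compl.2 hi⟩
        have h2 := le_max_right (t + mu * ⟪w, x⟫ - N0 x) 0
        simp only [hg, hi, if_false]
        linarith)
  rw [integral_add (integrable_gmax _) hint, ← Finset.sum_add_sum_compl R] at key
  have e1 : ∑ i ∈ R, ∫ x in cell z i, g i x ∂(stdGaussian E)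
      = t * ∑ j ∈ R, mass z j + mu * ‖w‖ ^ 2 := by
    have : ∀ i ∈ R, ∫ x in cell z i, g i x ∂(stdGaussian E) = t * mass z i + mu * ⟪w, z i⟫ := by
      intro i hi
      simp only [hg, hi, if_true]
      rw [integral_add (integrable_const t) ((integrable_inner w).const_mul mu).integrableOn,
        integral_const_mul, setIntegral_inner, h.moment, setIntegral_const, smul_eq_mul, mul_comm]
      rfl
    rw [Finset.sum_congr rfl this, Finset.sum_add_distrib, ← Finset.mul_sum, ← Finset.mul_sum,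
      ← inner_sum, ← hw, real_inner_self_eq_norm_sq]
  have e2 : ∑ i ∈ Rᶜ, ∫ x in cell z i, g i x ∂(stdGaussian E) = ∑ i ∈ Rᶜ, ‖z i‖ ^ 2 := by
    refine Finset.sum_congr rfl fun i hi => ?_
    simp only [hg, Finset.mem_compl.1 hi, if_false]
    rw [setIntegral_inner, h.moment, real_inner_self_eq_norm_sq]
  have e3 : ∑ i ∈ R, ‖z i‖ ^ 2 + ∑ i ∈ Rᶜ, ‖z i‖ ^ 2 = F := by
    rw [Finset.sum_add_sum_compl, h.sum_sq]
  rw [e1, e2] at key
  have hF := h.hF
  have e4 : (mu + 1 / (2 * m)) * ‖w‖ ^ 2 = mu * ‖w‖ ^ 2 + ‖w‖ ^ 2 / m / 2 := by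
    field_simp
  rw [e4]
  change _ ≤ fE _ + _ at key
  linarith

omit [DecidableEq ι] [Nonempty ι] in
lemma fE_drop_eq {i a b c : ι} (ha : a ≠ i) (hb : b ≠ i) (hc : c ≠ i)
    (hall : ∀ j, j ≠ i → j = a ∨ j = b ∨ j = c) :
    fE (fun j : {j // j ≠ i} => z j)
      = (‖z a - z b‖ + ‖z a - z c‖ + ‖z b - z c‖) * (phi 0 / 2) := by
  classical
  haveI : Nonempty {j // j ≠ i} := ⟨⟨a, ha⟩⟩
  rw [← fE_three]
  apply le_antisymm
  · apply fE_mono
    rintro ⟨j, hj⟩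
    rcases hall j hj with rfl | rfl | rfl
    · exact ⟨0, rfl⟩
    · exact ⟨1, rfl⟩
    · exact ⟨2, rfl⟩
  · apply fE_mono
    intro l
    fin_cases l
    · exact ⟨⟨a, ha⟩, rfl⟩
    · exact ⟨⟨b, hb⟩, rfl⟩
    · exact ⟨⟨c, hc⟩, rfl⟩

lemma q4_alg {d01 d02 d03 d12 d13 d23 c M F : ℝ} (hc : c ^ 2 = M / 9) (hM : 0 ≤ M)
    (hF : d01 ^ 2 + d02 ^ 2 + d03 ^ 2 + d12 ^ 2 + d13 ^ 2 + d23 ^ 2 = 4 * F) :
    9 / 4 * (((d12 + d13 + d23) * c) ^ 2 + ((d02 + d03 + d23) * c) ^ 2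
      + ((d01 + d03 + d13) * c) ^ 2 + ((d01 + d02 + d12) * c) ^ 2)
      - 3 / 8 * ((d12 + d13 + d23) * c + (d02 + d03 + d23) * c + (d01 + d03 + d13) * c
        + (d01 + d02 + d12) * c) ^ 2 ≤ 2 * F * M := by
  have e : 2 * F * M - (9 / 4 * (((d12 + d13 + d23) * c) ^ 2 + ((d02 + d03 + d23) * c) ^ 2
      + ((d01 + d03 + d13) * c) ^ 2 + ((d01 + d02 + d12) * c) ^ 2)
      - 3 / 8 * ((d12 + d13 + d23) * c + (d02 + d03 + d23) * c + (d01 + d03 + d13) * c
        + (d01 + d02 + d12) * c) ^ 2) = M / 12 * (((d01 + d23) - (d02 + d13)) ^ 2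
        + ((d01 + d23) - (d03 + d12)) ^ 2 + ((d02 + d13) - (d03 + d12)) ^ 2) := by
    have hF' : F = (d01 ^ 2 + d02 ^ 2 + d03 ^ 2 + d12 ^ 2 + d13 ^ 2 + d23 ^ 2) / 4 := by linarith
    have hM' : M = 9 * c ^ 2 := by linarith
    rw [hF', hM']; ring
  have : 0 ≤ M / 12 * (((d01 + d23) - (d02 + d13)) ^ 2
        + ((d01 + d23) - (d03 + d12)) ^ 2 + ((d02 + d13) - (d03 + d12)) ^ 2) := by positivity
  linarith

omit [Nonempty ι] in
theorem Q4_fact_aux (h : Crit z F) (hk : Fintype.card ι = 4) :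
    9 / 4 * ∑ i : ι, (fE (fun j : {j // j ≠ i} => z j)) ^ 2
      - 3 / 8 * (∑ i : ι, fE (fun j : {j // j ≠ i} => z j)) ^ 2 ≤ 2 * F * MM := by
  obtain ⟨e⟩ : Nonempty (Fin 4 ≃ ι) := ⟨(Fintype.equivFinOfCardEq hk).symm⟩
  have hall : ∀ j, j = e 0 ∨ j = e 1 ∨ j = e 2 ∨ j = e 3 := by
    intro j
    obtain ⟨l, rfl⟩ := e.surjective j
    fin_cases l <;> simp
  have hs := h.sum_sq
  have hz := h.sum_zero
  rw [← e.sum_comp, Fin.sum_univ_four] at hs hz
  rw [← e.sum_comp, ← e.sum_comp (fun i => fE (fun j : {j // j ≠ i} => z j)), Fin.sum_univ_four,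
    Fin.sum_univ_four,
    fE_drop_eq (i := e 0) (a := e 1) (b := e 2) (c := e 3) (by simp) (by simp) (by simp)
      (fun j hj => by have := hall j; tauto),
    fE_drop_eq (i := e 1) (a := e 0) (b := e 2) (c := e 3) (by simp) (by simp) (by simp)
      (fun j hj => by have := hall j; tauto),
    fE_drop_eq (i := e 2) (a := e 0) (b := e 1) (c := e 3) (by simp) (by simp) (by simp)
      (fun j hj => by have := hall j; tauto),
    fE_drop_eq (i := e 3) (a := e 0) (b := e 1) (c := e 2) (by simp) (by simp) (by simp)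
      (fun j hj => by have := hall j; tauto)]
  apply q4_alg
  · rw [div_pow, phi_zero_sq]; unfold MM; field_simp; norm_num
  · have := MM_gt; linarith
  · have h0 : ‖z (e 0) + z (e 1) + z (e 2) + z (e 3)‖ ^ 2 = 0 := by rw [hz]; simp
    simp only [norm_add_sq_real, inner_add_left] at h0
    simp only [norm_sub_sq_real]
    linarith

end Vale.Agent.P226
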